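import Mathlib
import Vale.Agent.P078.Type3.Specs5

/-! Elementary facts used by the step of the trace-free walk: the components of the potential,
uniform smallness of perturbations outside the band, positivity of the expectation maps. -/

noncomputable section

open scoped ComplexOrder

set_option linter.unusedSectionVars false

namespace Vale.Agent.P078.T3

open Chan
open TMasa (ypm vpm)

universe u v

variable {M : Type u} [CStarAlgebra M] [PartialOrder M] [StarOrderedRing M]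
  {Ω : Type v} [TopologicalSpace Ω] [CompactSpace Ω] [T2Space Ω]

namespace SMasa

variable (T : SMasa M Ω) {P : Params} {x : M}

lemma vpm_facts (hx : IsSelfAdjoint x) (hx1 : ‖x‖ ≤ 1) (s : Bool) :
    IsSelfAdjoint (vpm x s) ∧ ‖vpm x s‖ ≤ 1 ∧ vpm x s * vpm x s = ypm x s :=
  TMasa.vpm_props hx hx1 s

lemma norm_fun_le {f : C(Ω, ℝ)} {c : ℝ} (hc : 0 ≤ c) (h : ∀ ω, |f ω| ≤ c) : ‖f‖ ≤ c :=
  (ContinuousMap.norm_le _ hc).2 h

lemma tr_conj_emb_le {y : M} (hy : 0 ≤ y) {f : C(Ω, ℝ)} {c : ℝ} (hf : ‖f‖ ≤ c) :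
    T.tr (T.emb f * y * T.emb f) ≤ c ^ 2 * T.tr y := by
  have h := T.n2_mul_emb f (CFC.sqrt y)
  have hs : star (CFC.sqrt y) = CFC.sqrt y :=
    (IsSelfAdjoint.of_nonneg (CFC.sqrt_nonneg y)).star_eq
  have e1 : T.n2 (CFC.sqrt y * T.emb f) ^ 2 = T.tr (T.emb f * y * T.emb f) := by
    rw [T.n2_sq, ip, star_mul, hs, T.star_emb]
    conv_rhs => rw [← CFC.sqrt_mul_sqrt_self y hy]
    simp only [mul_assoc]
  have e2 : T.n2 (CFC.sqrt y) ^ 2 = T.tr y := by
    rw [T.n2_sq, ip, hs, CFC.sqrt_mul_sqrt_self y hy]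
  rw [← e1, ← e2, ← mul_pow, mul_comm c]
  exact pow_le_pow_left₀ (T.n2_nonneg _) (h.trans (mul_le_mul_of_nonneg_left hf (T.n2_nonneg _))) 2

/-- a positive element of small mass stays small between bounded elements of the subalgebra and a
fixed element -/
lemma exists_small_conj (z : M) {η : ℝ} (hη : 0 < η) :
    ∃ d : ℝ, 0 < d ∧ ∀ y : M, 0 ≤ y → y ≤ 1 → T.tr y ≤ d → ∀ f : C(Ω, ℝ), ‖f‖ ≤ 1 →
      T.tr (star z * (T.emb f * y * T.emb f) * z) ≤ η := by
  obtain ⟨d, hd, h⟩ := T.small z η hη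
  refine ⟨d, hd, fun y hy hy1 hyd f hf => h _ ?_ ?_ ((T.tr_conj_emb_le hy hf).trans ?_)⟩
  · exact (T.emb_selfAdjoint f).conjugate_nonneg hy
  · refine ((T.emb_selfAdjoint f).conjugate_le_conjugate hy1).trans ?_
    rw [mul_one, ← map_mul, ← map_one T.emb]
    refine T.emb_mono (ContinuousMap.le_def.2 fun ω => ?_)
    have h1 := abs_le.1 ((f.norm_coe_le_norm ω).trans hf)
    show f ω * f ω ≤ 1
    nlinarith
  · simpa using hyd

lemma offv_eq (v N : M) (f : C(Ω, ℝ)) : T.offv v N f =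
    (1 - N) * (v * T.emb f * (v * v)) + N * (v * T.emb f * (v * (1 - N) * v)) := by
  simp only [offv, sub_mul, mul_sub, mul_one, one_mul, mul_assoc]
  abel

/-- a bound on the part of a perturbation outside the band -/
lemma n2_offv_le {v N : M} (hN : IsStarProjection N) (hv : IsSelfAdjoint v) (hv1 : ‖v‖ ≤ 1)
    (f : C(Ω, ℝ)) : T.n2 (T.offv v N f) ≤
      Real.sqrt (T.tr (star (v * v) * (T.emb f * (v * (1 - N) * v) * T.emb f) * (v * v)))
        + ‖f‖ * Real.sqrt (T.tr (v * (1 - N) * v)) := by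
  have hNn : ‖N‖ ≤ 1 := proj_norm_le hN
  have hP := hN.one_sub
  rw [T.offv_eq]
  refine (T.n2_add _ _).trans (add_le_add (le_of_eq ?_) ?_)
  · rw [n2, ip]
    congr 2
    have e : (1 - N) * (1 - N) = 1 - N := hP.isIdempotentElem.eq
    simp only [star_mul, hP.isSelfAdjoint.star_eq, hv.star_eq, T.star_emb, mul_assoc]
    rw [← mul_assoc (1 - N) (1 - N), e]
  · have a1 := T.n2_mul_left N (v * T.emb f * (v * (1 - N) * v))
    have a2 := T.n2_mul_left (v * T.emb f) (v * (1 - N) * v)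
    have a3 : T.n2 (v * (1 - N) * v) ≤ Real.sqrt (T.tr (v * (1 - N) * v)) := by
      have e : (1 - N) * (1 - N) = 1 - N := hP.isIdempotentElem.eq
      have h1 : T.n2 ((1 - N) * v) ^ 2 = T.tr (v * (1 - N) * v) := by
        rw [T.n2_sq, ip, star_mul, hP.isSelfAdjoint.star_eq, hv.star_eq, mul_assoc,
          ← mul_assoc (1 - N) (1 - N), e, ← mul_assoc]
      rw [← h1, Real.sqrt_sq (T.n2_nonneg _), mul_assoc]
      exact (T.n2_mul_left v _).trans (mul_le_of_le_one_left (T.n2_nonneg _) hv1)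
    have a4 : ‖v * T.emb f‖ ≤ ‖f‖ := by
      refine (norm_mul_le _ _).trans ?_
      rw [T.emb_norm]
      exact mul_le_of_le_one_left (norm_nonneg f) hv1
    exact a1.trans ((mul_le_of_le_one_left (T.n2_nonneg _) hNn).trans
      (a2.trans (mul_le_mul a4 a3 (T.n2_nonneg _) (norm_nonneg f))))

lemma offv_add (v N : M) (f g : C(Ω, ℝ)) :
    T.offv v N (f + g) = T.offv v N f + T.offv v N g := by
  simp only [offv, map_add, mul_add, add_mul, sub_mul]
  abel

lemma offv_smul (v N : M) (c : ℝ) (f : C(Ω, ℝ)) : T.offv v N (c • f) = c • T.offv v N f := by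
  simp only [offv, map_smul, mul_smul_comm, smul_mul_assoc, ← smul_sub]

/-- perturbations outside a thin band are uniformly small -/
lemma exists_offv_small (x : M) (hx : IsSelfAdjoint x) (hx1 : ‖x‖ ≤ 1) {η : ℝ} (hη : 0 < η) :
    ∃ d : ℝ, 0 < d ∧ ∀ (s : Bool) (N : M), IsStarProjection N →
      T.tr (vpm x s * (1 - N) * vpm x s) ≤ d →
        ∀ f : C(Ω, ℝ), T.n2 (T.offv (vpm x s) N f) ≤ η * ‖f‖ := by
  choose d hd hsm using fun s : Bool =>
    T.exists_small_conj (vpm x s * vpm x s) (show 0 < η ^ 2 / 4 by positivity)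
  refine ⟨min (min (d true) (d false)) (η ^ 2 / 4),
    lt_min (lt_min (hd true) (hd false)) (by positivity), fun s N hN htr f => ?_⟩
  obtain ⟨hv, hv1, hvv⟩ := vpm_facts hx hx1 s
  set v := vpm x s with hvdef
  set Q := v * (1 - N) * v with hQ
  have hQ0 : 0 ≤ Q := hv.conjugate_nonneg hN.one_sub.nonneg
  have hQ1 : Q ≤ 1 := by
    refine (hv.conjugate_le_conjugate hN.one_sub.le_one).trans ?_
    rw [mul_one, hvv]
    exact TMasa.ypm_le_one hx hx1 s
  have hQd : T.tr Q ≤ d s := by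
    cases s
    · exact htr.trans ((min_le_left _ _).trans (min_le_right _ _))
    · exact htr.trans ((min_le_left _ _).trans (min_le_left _ _))
  have h1 : ∀ g : C(Ω, ℝ), ‖g‖ ≤ 1 → T.n2 (T.offv v N g) ≤ η := fun g hg => by
    refine (T.n2_offv_le hN hv hv1 g).trans ?_
    have a1 : Real.sqrt (T.tr (star (v * v) * (T.emb g * Q * T.emb g) * (v * v))) ≤ η / 2 := by
      rw [Real.sqrt_le_left (by positivity), div_pow]
      norm_num
      simpa only [star_mul, ← hvdef] using hsm s Q hQ0 hQ1 hQd g hg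
    have a2 : ‖g‖ * Real.sqrt (T.tr Q) ≤ η / 2 := by
      refine (mul_le_of_le_one_left (Real.sqrt_nonneg _) hg).trans ?_
      rw [Real.sqrt_le_left (by positivity), div_pow]
      norm_num
      exact htr.trans (min_le_right _ _)
    linarith
  rcases eq_or_lt_of_le (norm_nonneg f) with h0 | h0
  · rw [← h0, mul_zero, norm_eq_zero.1 h0.symm]
    simp [offv, T.n2_zero]
  · have h2 := h1 (‖f‖⁻¹ • f) (by
      rw [norm_smul, norm_inv, norm_norm, inv_mul_cancel₀ h0.ne'])
    rw [T.offv_smul, T.n2_smul, abs_of_nonneg (inv_nonneg.2 h0.le), inv_mul_le_iff₀ h0] at h2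
    linarith [mul_comm η ‖f‖]

lemma K_mono (X : M) {f g : C(Ω, ℝ)} (h : f ≤ g) : T.K X f ≤ T.K X g := by
  have := T.K_nonneg X (sub_nonneg.2 h)
  rwa [map_sub, sub_nonneg] at this

lemma Kch_nonneg (st : TSt M Ω P.r) (N : Fin P.r → Bool → M) (i : Fin P.r) {f : C(Ω, ℝ)}
    (hf : 0 ≤ f) : 0 ≤ T.Kch P x st N i f :=
  add_nonneg (T.K_nonneg _ hf) (T.K_nonneg _ hf)

lemma Kch_mono (st : TSt M Ω P.r) (N : Fin P.r → Bool → M) (i : Fin P.r) {f g : C(Ω, ℝ)}
    (h : f ≤ g) : T.Kch P x st N i f ≤ T.Kch P x st N i g :=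
  add_le_add (T.K_mono _ h) (T.K_mono _ h)

/-- the action of an element of norm at most `c` is bounded by `c²` -/
lemma K_one_le {X : M} {c : ℝ} (hc : ‖X‖ ≤ c) (ω : Ω) : T.K X 1 ω ≤ c ^ 2 := by
  rw [T.K_apply, map_one, mul_one]
  refine (le_abs_self _).trans ((T.E_le_norm (IsSelfAdjoint.mul_star_self X) ω).trans ?_)
  rw [CStarRing.norm_self_mul_star, ← pow_two]
  exact pow_le_pow_left₀ (norm_nonneg X) hc 2

variable {S : Smalls} {st : TSt M Ω P.r} {N : Fin P.r → Bool → M}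

lemma Lam_apply (ω : Ω) : T.Lam P x S st ω =
    st.live ω * (Profile.dhub (T.xval P x st ω) + S.μ) := by
  simp [Lam, comp1_apply continuous_dhub]

lemma aval_nonneg (hγ : 0 < S.γ) (hinv : T.Inv P x S st) (i : Fin P.r) (s : Bool) :
    0 ≤ T.aval P x st i s :=
  T.E_nonneg ((TMasa.isSelfAdjoint_vpm x s).conjugate_nonneg
    (Res.res_nonneg hγ (hinv.gap i s)))

lemma Asum_nonneg (hγ : 0 < S.γ) (hinv : T.Inv P x S st) (i : Fin P.r) :
    0 ≤ T.Asum P x st i :=
  add_nonneg (T.aval_nonneg hγ hinv i true) (T.aval_nonneg hγ hinv i false)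

/-- a channel contributes at most four times its value -/
lemma fval_le (hε : 0 < P.ε) (hγ : 0 < S.γ) (hinv : T.Inv P x S st) (i : Fin P.r) (ω : Ω) :
    T.fval P x st i ω ≤ 4 * st.sig i ω := by
  have h0 : 0 ≤ st.sig i ω := hinv.sig_nonneg i ω
  have h1 := hinv.sig_le i ω
  have hA : 0 ≤ T.Asum P x st i ω := T.Asum_nonneg hγ hinv i ω
  have hφ := (Two.phi_bounds hε h0 h1).1
  have e : T.fval P x st i ω
      = Two.psi P.ε (st.sig i ω) - Two.phi (st.sig i ω) * T.Asum P x st i ω := by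
    simp [fval, cphi2, cpsi2, hε, Two.psiC, min_eq_left (by linarith : st.sig i ω ≤ 1)]
  rw [e]
  nlinarith [Two.psi_le hε h0 h1]

lemma act_idem (st : TSt M Ω P.r) (i : Fin P.r) :
    T.act P st i * T.act P st i = T.act P st i := T.pos_mul_self _

/-- the constraint is controlled by the number of channels which are switched on -/
lemma Fval_le_card (hε : 0 < P.ε) (hγ : 0 < S.γ) (hinv : T.Inv P x S st) (ω : Ω) :
    T.Fval P x st ω ≤ 4 * (∑ i, T.act P st i ω) + P.r * P.β₀ := by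
  have hb : 0 ≤ P.β₀ := by unfold Params.β₀; positivity
  have h1 : ∀ i, T.fval P x st i ω ≤ 4 * T.act P st i ω := fun i => by
    have h0 : 0 ≤ st.sig i ω := hinv.sig_nonneg i ω
    refine (T.fval_le hε hγ hinv i ω).trans ?_
    rcases idem_zero_or_one (T.act_idem st i) ω with h | h
    · have := T.nonpos_of_pos_eq_zero (g := st.sig i) h
      rw [h]; linarith
    · rw [h]; linarith [hinv.sig_le i ω]
  have h2 : ∑ i : Fin P.r, (1 - T.act P st i ω) ≤ P.r := by
    refine (Finset.sum_le_sum (g := fun _ => (1 : ℝ)) fun i _ => ?_).trans (by simp)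
    have : 0 ≤ T.act P st i ω := idem_nonneg (T.act_idem st i) ω
    linarith
  simp only [Fval, ContinuousMap.add_apply, ContinuousMap.sum_apply, ContinuousMap.smul_apply,
    ContinuousMap.sub_apply, ContinuousMap.one_apply, smul_eq_mul]
  refine add_le_add ((Finset.sum_le_sum fun i _ => h1 i).trans (Finset.mul_sum ..).ge) ?_
  nlinarith [mul_le_mul_of_nonneg_left h2 hb]

/-- the linear part of the potential is nonnegative -/
lemma xval_add_off_nonneg (hok : P.Ok) (hγ : 0 < S.γ) (hinv : T.Inv P x S st) (ω : Ω) :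
    0 ≤ T.xval P x st ω + P.off := by
  have h := T.Fval_le_card hok.ε_pos hγ hinv ω
  have h2 : ∑ i : Fin P.r, T.act P st i ω ≤ P.r := by
    refine (Finset.sum_le_sum (g := fun _ => (1 : ℝ)) fun i _ => ?_).trans (by simp)
    exact idem_le_one (T.act_idem st i) ω
  have h3 : P.β₀ ≤ 1 := by
    unfold Params.β₀
    nlinarith [hok.ε_pos, hok.ε_le]
  have h4 : (P.r : ℝ) * P.β₀ ≤ P.r := mul_le_of_le_one_right (Nat.cast_nonneg _) h3
  simp only [xval, ContinuousMap.sub_apply, ContinuousMap.const_apply, Params.off]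
  linarith [hok.L_ge]

/-- the components of the potential below its budget -/
lemma Vpot_components (hok : P.Ok) (hμ : 0 < S.μ) (hγ : 0 < S.γ) (hA : 0 < S.A)
    (hinv : T.Inv P x S st) (hV : T.Vpot P x S st ≤ S.μ * P.K₀) :
    T.tau (st.live * chub2 (T.xval P x st)) ≤ S.μ * P.K₀ ∧
      (∑ i, T.tau (T.Asum P x st i)) ≤ P.K₀ ∧
      (∑ i, (T.n2 (st.R i true * vpm x true) ^ 2 + T.n2 (st.R i false * vpm x false) ^ 2))
        ≤ P.K₀ / S.A := by
  have hsig : 0 ≤ ∑ i, T.tau (st.sig i) :=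
    Finset.sum_nonneg fun i _ => T.tau_nonneg (hinv.sig_nonneg i)
  have hAs : 0 ≤ ∑ i, T.tau (T.Asum P x st i) :=
    Finset.sum_nonneg fun i _ => T.tau_nonneg (T.Asum_nonneg hγ hinv i)
  have hR : 0 ≤ ∑ i, (T.n2 (st.R i true * vpm x true) ^ 2
      + T.n2 (st.R i false * vpm x false) ^ 2) :=
    Finset.sum_nonneg fun i _ => by positivity
  have hlin : 0 ≤ T.tau (st.live * (T.xval P x st + ContinuousMap.const Ω P.off)) :=
    T.tau_nonneg fun ω => mul_nonneg (idem_nonneg hinv.live_idem ω)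
      (T.xval_add_off_nonneg hok hγ hinv ω)
  have hhub : 0 ≤ T.tau (st.live * chub2 (T.xval P x st)) :=
    T.tau_nonneg fun ω => mul_nonneg (idem_nonneg hinv.live_idem ω) (Profile.hub_nonneg _)
  rw [Vpot, mul_add (st.live), mul_smul_comm, map_add, map_smul, smul_eq_mul] at hV
  have p1 := mul_nonneg hμ.le hsig
  have p2 := mul_nonneg hμ.le hAs
  have p3 := mul_nonneg (mul_nonneg hA.le hμ.le) hR
  have p4 := mul_nonneg hμ.le hlin
  refine ⟨by linarith, le_of_mul_le_mul_left (by linarith) hμ, ?_⟩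
  rw [le_div_iff₀ hA]
  refine le_of_mul_le_mul_left ?_ hμ
  linarith

end SMasa

end Vale.Agent.P078.T3
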