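import Mathlib
import Vale.Agent.P078.Type3.Specs

/-! Formal row bounds of graph operators and the transport of a graph operator to the other side
of the state. -/

noncomputable section

open scoped ComplexOrder
open Classical

set_option linter.unusedSectionVars false

namespace Vale.Agent.P078.T3

universe u v w

variable {M : Type u} [CStarAlgebra M] [PartialOrder M] [StarOrderedRing M]
  {Ω : Type v} [TopologicalSpace Ω] [CompactSpace Ω] [T2Space Ω]

namespace GOp

variable {T : SMasa M Ω} {ι κ lab : Type w}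

lemma list_sum_apply (l : List C(Ω, ℝ)) (b : Ω) : l.sum b = (l.map fun f => f b).sum := by
  induction l with
  | nil => rfl
  | cons a l ih => simp [ih]

/-- the formal mass of a row -/
def rowMass (S : GOp T ι κ) (i : ι) (b : Ω) : ℝ :=
  (S.map fun t => if t.row = i then |t.coef b * t.g.ran b| else 0).sum

/-- every formal row has mass at most `c` -/
def FBd (S : GOp T ι κ) (c : ℝ) : Prop := ∀ i b, S.rowMass i b ≤ c

lemma rowMass_nonneg (S : GOp T ι κ) (i : ι) (b : Ω) : 0 ≤ S.rowMass i b := by
  refine List.sum_nonneg fun x hx => ?_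
  obtain ⟨t, -, rfl⟩ := List.mem_map.1 hx
  split_ifs <;> positivity

lemma app_apply (S : GOp T ι κ) (u : κ → C(Ω, ℝ)) (i : ι) (b : Ω) :
    S.app u i b =
      (S.map fun t => if t.row = i then t.coef b * t.g.ran b * u t.col (t.g.toDom b) else 0).sum := by
  rw [app, list_sum_apply, List.map_map]
  congr 1
  refine List.map_congr_left fun t _ => ?_
  simp only [Function.comp_apply]
  split_ifs <;> simp

lemma abs_app_le {S : GOp T ι κ} {c H : ℝ} (hS : S.FBd c) (hH : 0 ≤ H) {u : κ → C(Ω, ℝ)}
    (hu : ∀ j a, |u j a| ≤ H) (i : ι) (b : Ω) : |S.app u i b| ≤ c * H := by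
  rw [app_apply]
  refine le_trans ?_ (mul_le_mul_of_nonneg_right (hS i b) hH)
  clear hS
  induction S with
  | nil => simp [rowMass]
  | cons t S ih =>
    simp only [rowMass, List.map_cons, List.sum_cons, add_mul] at ih ⊢
    refine (abs_add_le _ _).trans (add_le_add ?_ ih)
    split_ifs
    · rw [abs_mul]
      exact mul_le_mul_of_nonneg_left (hu _ _) (abs_nonneg _)
    · simp

lemma rowMass_add (S R : GOp T ι κ) (i : ι) (b : Ω) :
    (S.add R).rowMass i b = S.rowMass i b + R.rowMass i b := by
  simp [rowMass, add]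

lemma FBd.add {S R : GOp T ι κ} {a c : ℝ} (hS : S.FBd a) (hR : R.FBd c) : (S.add R).FBd (a + c) :=
  fun i b => by rw [rowMass_add]; exact add_le_add (hS i b) (hR i b)

lemma FBd.mono {S : GOp T ι κ} {a c : ℝ} (hS : S.FBd a) (h : a ≤ c) : S.FBd c :=
  fun i b => (hS i b).trans h

lemma rowMass_smul (c : ℝ) (S : GOp T ι κ) (i : ι) (b : Ω) :
    (S.smul c).rowMass i b = |c| * S.rowMass i b := by
  induction S with
  | nil => simp [rowMass, smul]
  | cons t S ih =>
    simp only [rowMass, smul, List.map_cons, List.sum_cons, mul_add] at ih ⊢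
    rw [ih]
    congr 1
    split_ifs <;> simp [abs_mul, mul_assoc]

lemma FBd.smul {S : GOp T ι κ} {a : ℝ} (hS : S.FBd a) (c : ℝ) : (S.smul c).FBd (|c| * a) :=
  fun i b => by rw [rowMass_smul]; exact mul_le_mul_of_nonneg_left (hS i b) (abs_nonneg c)

lemma rowMass_mul_le (S : GOp T ι κ) {R : GOp T κ lab} {c : ℝ} (hR : R.FBd c) (i : ι) (b : Ω) :
    (S.mul R).rowMass i b ≤ S.rowMass i b * c := by
  induction S with
  | nil => simp [rowMass, mul]
  | cons s S ih =>
    simp only [mul, List.flatMap_cons, rowMass, List.map_append, List.sum_append, List.map_cons,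
      List.sum_cons, add_mul] at ih ⊢
    refine add_le_add ?_ ih
    clear ih
    have key : ∀ L : GOp T κ lab,
        ((L.filterMap fun t => if s.col = t.row then
          some (⟨s.row, t.col, s.coef * t.coef.comp s.g.toDom, s.g.mul t.g⟩ : Term T ι lab)
          else none).map fun t => if t.row = i then |t.coef b * t.g.ran b| else 0).sum
        = (if s.row = i then |s.coef b * s.g.ran b| else 0) * L.rowMass s.col (s.g.toDom b) := by
      intro L
      induction L with
      | nil => simp [rowMass]
      | cons t L ihL =>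
        simp only [rowMass, List.map_cons, List.sum_cons, mul_add] at ihL ⊢
        by_cases ht : s.col = t.row
        · simp only [List.filterMap_cons, if_pos ht, List.map_cons, List.sum_cons, ihL,
            if_pos ht.symm]
          congr 1
          split_ifs with h
          · simp only [GElt.mul, ContinuousMap.mul_apply, ContinuousMap.comp_apply, ← abs_mul]
            congr 1
            ring
          · simp
        · simp only [List.filterMap_cons, if_neg ht, ihL, if_neg (fun h => ht (Eq.symm h))]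
          simp
    rw [key]
    refine mul_le_mul_of_nonneg_left (hR _ _) ?_
    split_ifs <;> positivity

lemma FBd.mul {S : GOp T ι κ} {R : GOp T κ lab} {a c : ℝ} (hc : 0 ≤ c) (hS : S.FBd a)
    (hR : R.FBd c) : (S.mul R).FBd (a * c) := fun i b =>
  (rowMass_mul_le S hR i b).trans (mul_le_mul_of_nonneg_right (hS i b) hc)

lemma FBd.one [Fintype ι] : (diag (T := T) fun _ : ι => (1 : C(Ω, ℝ))).FBd 1 := fun i b => by
  simp only [rowMass, diag, List.map_map, Function.comp_def, GElt.one]
  rw [Finset.sum_map_toList Finset.univ]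
  simp

lemma FBd.pow [Fintype ι] {S : GOp T ι ι} {a : ℝ} (ha : 0 ≤ a) (hS : S.FBd a) :
    ∀ n : ℕ, (S.pow n).FBd (a ^ n)
  | 0 => by simpa [GOp.pow] using FBd.one (T := T) (ι := ι)
  | n + 1 => by
    rw [pow_succ', GOp.pow]
    exact hS.mul (pow_nonneg ha n) (FBd.pow ha hS n)

/-- the formal row mass of a nonnegative operator is its value at one -/
lemma rowMass_eq_app1 {K : GOp T Unit Unit} (hK : ∀ t ∈ K, 0 ≤ t.coef) (b : Ω) :
    K.rowMass () b = K.app1 1 b := by
  rw [app1, app_apply, rowMass]
  congr 1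
  refine List.map_congr_left fun t ht => ?_
  have h0 : 0 ≤ t.coef b := hK t ht b
  have h1 : 0 ≤ t.g.ran b := idem_nonneg t.g.ran_idem b
  rw [if_pos rfl, if_pos rfl, abs_of_nonneg (mul_nonneg h0 h1)]
  simp

/-- the symmetrisation of an operator without labels -/
def sym (K : GOp T Unit Unit) : GOp T Unit Unit := (K.smul (1 / 2)).add (K.tp.smul (1 / 2))

lemma app1_apply (K : GOp T Unit Unit) (f : C(Ω, ℝ)) (b : Ω) :
    K.app1 f b = (K.map fun t => t.coef b * t.g.ran b * f (t.g.toDom b)).sum := by
  rw [app1, app_apply]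
  congr 1
  exact List.map_congr_left fun t _ => if_pos rfl

lemma app1_add (K L : GOp T Unit Unit) (f : C(Ω, ℝ)) :
    (K.add L).app1 f = K.app1 f + L.app1 f := by
  ext b
  simp [app1_apply, add]

lemma app1_smul (c : ℝ) (K : GOp T Unit Unit) (f : C(Ω, ℝ)) :
    (K.smul c).app1 f = c • K.app1 f := by
  ext b
  simp [app1_apply, smul, List.map_map, Function.comp_def, ← List.sum_map_mul_left, mul_assoc]

lemma wgt_add (K L : GOp T ι κ) : (K.add L).wgt = K.wgt.add L.wgt := by
  simp [wgt, add]

lemma wgt_smul (c : ℝ) (K : GOp T ι κ) : (K.smul c).wgt = K.wgt.smul c := by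
  simp [wgt, smul, List.map_map, Function.comp_def]

lemma app1_tp_tp (K : GOp T Unit Unit) (f : C(Ω, ℝ)) : K.tp.tp.app1 f = K.app1 f := by
  ext b
  simp only [app1_apply, tp, List.map_map, Function.comp_def, GElt.inv,
    ContinuousMap.comp_apply]
  congr 1
  refine List.map_congr_left fun t _ => ?_
  rcases idem_zero_or_one t.g.ran_idem b with h | h
  · simp [h]
  · rw [t.g.toRan_toDom b h]

lemma app1_wgt_tp_tp (K : GOp T Unit Unit) (f : C(Ω, ℝ)) :
    K.tp.tp.wgt.app1 f = K.wgt.app1 f := by
  ext b
  simp only [app1_apply, tp, wgt, List.map_map, Function.comp_def, GElt.inv,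
    ContinuousMap.comp_apply, ContinuousMap.mul_apply]
  congr 1
  refine List.map_congr_left fun t _ => ?_
  rcases idem_zero_or_one t.g.ran_idem b with h | h
  · simp [h]
  · rw [t.g.toRan_toDom b h]

/-- transport of a graph operator through the state -/
lemma tau_mul_app1 (K : GOp T Unit Unit) (f g : C(Ω, ℝ)) :
    T.tau (f * K.app1 g) = T.tau (g * K.tp.wgt.app1 f) := by
  induction K with
  | nil =>
    have e : ∀ u : C(Ω, ℝ), app1 ([] : GOp T Unit Unit) u = 0 := fun u => by
      ext b; simp [app1_apply]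
    simp [e, tp, wgt]
  | cons t K ih =>
    have e1 : app1 (t :: K) g = t.coef * t.g.ran * g.comp t.g.toDom + app1 K g := by
      ext b; simp [app1_apply]
    have e2 : (tp (t :: K)).wgt.app1 f =
        t.coef.comp t.g.toRan * t.g.dens' * t.g.dom * f.comp t.g.toRan
          + app1 (wgt (tp K)) f := by
      ext b; simp [app1_apply, tp, wgt, GElt.inv]
    rw [e1, e2, mul_add, mul_add, map_add, map_add, ih]
    congr 1
    have h := t.g.tau_dens' (f * t.coef * g.comp t.g.toDom)
    have e3 : t.g.ran * (f * t.coef * g.comp t.g.toDom)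
        = f * (t.coef * t.g.ran * g.comp t.g.toDom) := by ring
    rw [e3] at h
    rw [← h]
    congr 1
    ext a
    simp only [ContinuousMap.mul_apply, ContinuousMap.comp_apply]
    rcases idem_zero_or_one t.g.dom_idem a with ha | ha
    · simp [ha]
    · rw [t.g.toDom_toRan a ha]; ring

lemma sym_nonneg {K : GOp T Unit Unit} (hK : ∀ t ∈ K, 0 ≤ t.coef) : ∀ t ∈ sym K, 0 ≤ t.coef := by
  intro t ht
  simp only [sym, add, smul, tp, List.mem_append, List.mem_map] at ht
  rcases ht with ⟨s, hs, rfl⟩ | ⟨s, ⟨s', hs', rfl⟩, rfl⟩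
  · exact smul_nonneg (by norm_num) (hK s hs)
  · refine smul_nonneg (by norm_num) ?_
    intro a
    exact hK s' hs' (s'.g.toRan a)

lemma tp_add (K L : GOp T ι κ) : (K.add L).tp = K.tp.add L.tp := by
  simp [tp, add]

lemma tp_smul (c : ℝ) (K : GOp T ι κ) : (K.smul c).tp = K.tp.smul c := by
  simp only [tp, smul, List.map_map, Function.comp_def]
  refine List.map_congr_left fun t _ => ?_
  congr 1

lemma sym_app1_tp (K : GOp T Unit Unit) (f : C(Ω, ℝ)) : (sym K).tp.app1 f = (sym K).app1 f := by
  simp only [sym, tp_add, tp_smul, app1_add, app1_smul, app1_tp_tp]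
  exact add_comm _ _

lemma sym_app1_wgt_tp (K : GOp T Unit Unit) (f : C(Ω, ℝ)) :
    (sym K).tp.wgt.app1 f = (sym K).wgt.app1 f := by
  simp only [sym, tp_add, tp_smul, wgt_add, wgt_smul, app1_add, app1_smul, app1_wgt_tp_tp]
  exact add_comm _ _

lemma sym_app1 (K : GOp T Unit Unit) (f : C(Ω, ℝ)) :
    (sym K).app1 f = (1 / 2 : ℝ) • K.app1 f + (1 / 2 : ℝ) • K.tp.app1 f := by
  simp only [sym, app1_add, app1_smul]

end GOp

end Vale.Agent.P078.T3
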