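import Mathlib
import Vale.Agent.P078.Type3.Specs
import Vale.Agent.P078.Type3.Step.Formal

/-! The facts about graph operators which the step of the trace-free walk consumes. Every `…Spec`
below is proved; none of them is assumed in a hand-in. -/

noncomputable section

open scoped ComplexOrder
open Classical Filter

set_option linter.unusedSectionVars false

namespace Vale.Agent.P078.T3

universe u v w

variable {M : Type u} [CStarAlgebra M] [PartialOrder M] [StarOrderedRing M]
  {Ω : Type v} [TopologicalSpace Ω] [CompactSpace Ω] [T2Space Ω]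

namespace GOp

variable {T : SMasa M Ω} {r : ℕ}

/-- one row of a square operator, seen as an operator with values in functions -/
def rowSel (S : GOp T (Fin r) (Fin r)) (i : Fin r) : GOp T Unit (Fin r) :=
  (S.filter fun t => t.row = i).map fun t => ⟨(), t.col, t.coef, t.g⟩

/-- restriction of the columns to a function -/
def colMul (K : GOp T Unit Unit) (f : C(Ω, ℝ)) : GOp T Unit Unit :=
  K.map fun t => { t with coef := t.coef * f.comp t.g.toDom }

lemma app_rowSel (S : GOp T (Fin r) (Fin r)) (u : Fin r → C(Ω, ℝ)) (i : Fin r) :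
    (rowSel S i).app u () = S.app u i := by
  induction S with
  | nil => simp [rowSel, app]
  | cons t S ih =>
    simp only [rowSel, app] at ih ⊢
    by_cases h : t.row = i <;>
      simp [h] <;> simpa using ih

lemma app1_colMul (K : GOp T Unit Unit) (f u : C(Ω, ℝ)) :
    (K.colMul f).app1 u = K.app1 (f * u) := by
  ext b
  simp [app1_apply, colMul, List.map_map, Function.comp_def, mul_assoc, mul_left_comm]

end GOp

variable (T : SMasa M Ω)

/-- a formally bounded operator is bounded on square summable sequences -/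
def SchurSpec : Prop :=
  ∀ {ι κ : Type} (S : GOp T ι κ) (a c : ℝ), 0 ≤ a → 0 ≤ c → S.FBd a → S.tp.FBd c →
    OpBd S.ker (Real.sqrt (a * c))

/-- a symmetric kernel gives the same action as its transpose -/
def SymSpec : Prop :=
  ∀ K : GOp T Unit Unit, (∀ x y, K.ker x y = K.ker y x) → ∀ f, K.tp.app1 f = K.app1 f

/-- the spectral facts about `(1 - Tm^t Tm / B) ^ n` -/
def LevSpec : Prop :=
  ∀ {r : ℕ} (Tm : GOp T Unit (Fin r)) (B : ℝ) (n : ℕ), 0 < B → OpBd Tm.ker (Real.sqrt B) →
    (∀ i, OpBd ((GOp.yOp Tm B).pow n |>.rowSel i).ker 1) ∧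
    ∃ d : Fin r → C(Ω, ℝ), (∀ i b, d i b = (GOp.levOp Tm B (2 * n)).ker (b, i) (b, i)) ∧
      (∀ i b, 0 ≤ d i b ∧ d i b ≤ 1) ∧
      ∀ᶠ P : Part Ω in atTop,
        (∀ i b, ∑ j, ∑ e, ((GOp.yOp Tm B).pow n |>.app (Pi.single j (P.e e)) i b) ^ 2
          = 1 - d i b) ∧
        ∀ b, ∑ j, ∑ e,
            (Tm.app (fun l => (GOp.yOp Tm B).pow n |>.app (Pi.single j (P.e e)) l) () b) ^ 2
          ≤ B / (2 * n + 1)

/-- a linear map which is small on families subordinate to fine partitions is small on the images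
of such families under a fixed graph operator -/
def TransportSpec : Prop :=
  ∀ {k : ℕ} (S : GOp T Unit (Fin k)) (R : Module.End ℝ C(Ω, ℝ)) (η : ℝ), 0 ≤ η →
    (∀ᶠ P : Part Ω in atTop, ∀ f : Fin P.n → C(Ω, ℝ), (∀ e ω, |f e ω| ≤ P.e e ω) →
      ∑ e, T.tau (R (f e) * R (f e)) ≤ η) →
    ∀ᶠ P : Part Ω in atTop,
      ∑ j, ∑ e, T.tau (R (S.app (Pi.single j (P.e e)) ()) * R (S.app (Pi.single j (P.e e)) ()))
        ≤ (S.length : ℝ) * (S.map fun t => ‖t.coef‖ ^ 2).sum * η

/-- a column bound in terms of the supersolution -/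
def ColSpec : Prop :=
  ∀ (K : GOp T Unit Unit) (on W : C(Ω, ℝ)) (μ c : ℝ), 0 < μ → 0 ≤ c →
    (∀ t ∈ K, 0 ≤ t.coef) → on * on = on → (∀ a, μ ≤ W a) →
    (∀ a, on a = 1 → K.tp.wgt.app1 W a ≤ c) →
    ∀ᶠ P : Part Ω in atTop, ∀ b,
      ∑ e, (K.app1 (on * P.e e) b) ^ 2 ≤ c / μ * K.wgt.app1 on b

end Vale.Agent.P078.T3
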