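import Mathlib
import Vale.Agent.P078.Type3.Step.Basics
import Vale.Agent.P078.Type3.Step.OpsSpecs

/-! The sets of one step of the trace-free walk and their pointwise properties. -/

noncomputable section

open scoped ComplexOrder
open Classical Filter

set_option linter.unusedSectionVars false

namespace Vale.Agent.P078.T3

open Chan
open TMasa (ypm vpm)

universe u v

variable {M : Type u} [CStarAlgebra M] [PartialOrder M] [StarOrderedRing M]
  {Ω : Type v} [TopologicalSpace Ω] [CompactSpace Ω] [T2Space Ω]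

namespace SMasa

variable (T : SMasa M Ω) (P : Params) (x : M)

/-- live and switched on -/
def aS (st : TSt M Ω P.r) (i : Fin P.r) : C(Ω, ℝ) := st.live * T.act P st i

/-- the weight of a column -/
def Wf (S : Smalls) (st : TSt M Ω P.r) (i : Fin P.r) : C(Ω, ℝ) :=
  cphi2 (st.sig i) * T.Lam P x S st + ContinuousMap.const Ω S.μ

/-- the excess of a site over stationarity -/
def ef (S : Smalls) (st : TSt M Ω P.r) (K : Fin P.r → GOp T Unit Unit) (i : Fin P.r) : C(Ω, ℝ) :=
  (K i).wgt.app1 (T.Wf P x S st i) - T.cch P x st i * T.Lam P x S st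
    + ContinuousMap.const Ω (S.μ / 2)

/-- the sites which are not stationary -/
def Sf (S : Smalls) (st : TSt M Ω P.r) (K : Fin P.r → GOp T Unit Unit) (i : Fin P.r) : C(Ω, ℝ) :=
  T.pos (T.ef P x S st K i) * T.aS P st i

/-- the sites outside the tolerance -/
def badf (st : TSt M Ω P.r) (N : Fin P.r → Bool → M) (i : Fin P.r) : C(Ω, ℝ) :=
  T.aS P st i * (1 - T.good P x st N i)

/-- the points with a site which is not usable -/
def Zf (S : Smalls) (st : TSt M Ω P.r) (N : Fin P.r → Bool → M)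
    (K : Fin P.r → GOp T Unit Unit) : C(Ω, ℝ) :=
  1 - ∏ i, (1 - T.Sf P x S st K i) * (1 - T.badf P x st N i)

/-- the covariance -/
def onf (S : Smalls) (st : TSt M Ω P.r) (N : Fin P.r → Bool → M)
    (K : Fin P.r → GOp T Unit Unit) (i : Fin P.r) : C(Ω, ℝ) :=
  T.aS P st i * (1 - T.Zf P x S st N K)

/-- the rows of the linear constraint -/
def rowsf (S : Smalls) (st : TSt M Ω P.r) (N : Fin P.r → Bool → M)
    (K : Fin P.r → GOp T Unit Unit) : C(Ω, ℝ) :=
  T.bandSet P x st * (1 - T.Zf P x S st N K)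

/-- what the atomic parts of the channels satisfy -/
structure AtomOK (st : TSt M Ω P.r) (N : Fin P.r → Bool → M) (K : Fin P.r → GOp T Unit Unit)
    (η : ℝ) : Prop where
  coef_nonneg : ∀ i, ∀ t ∈ K i, 0 ≤ t.coef
  tp_app : ∀ i f, (K i).tp.app1 f = (K i).app1 f
  tp_wgt : ∀ i f, (K i).tp.wgt.app1 f = (K i).wgt.app1 f
  le : ∀ i f, 0 ≤ f → (K i).app1 f ≤ T.Kch P x st N i f
  rem : ∀ i, ∀ᶠ Q : Part Ω in atTop, ∀ f : Fin Q.n → C(Ω, ℝ), (∀ e ω, |f e ω| ≤ Q.e e ω) →
    ∑ e, T.tau ((T.Kch P x st N i (f e) - (K i).app1 (f e))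
      * (T.Kch P x st N i (f e) - (K i).app1 (f e))) ≤ η

variable {T P x} {S : Smalls} {st : TSt M Ω P.r} {N : Fin P.r → Bool → M}
  {K : Fin P.r → GOp T Unit Unit}

lemma one_sub_idem {p : C(Ω, ℝ)} (hp : p * p = p) : (1 - p) * (1 - p) = 1 - p := by
  rw [sub_mul, one_mul, mul_sub, mul_one, hp, sub_self, sub_zero]

lemma mul_idem {p q : C(Ω, ℝ)} (hp : p * p = p) (hq : q * q = q) : p * q * (p * q) = p * q := by
  rw [mul_mul_mul_comm, hp, hq]

lemma mul_eq_one {p q : C(Ω, ℝ)} (hp : p * p = p) (hq : q * q = q) {ω : Ω} :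
    (p * q) ω = 1 ↔ p ω = 1 ∧ q ω = 1 := by
  rcases idem_zero_or_one hp ω with a | a <;> rcases idem_zero_or_one hq ω with b | b <;>
    simp [a, b]

lemma one_sub_eq_one {p : C(Ω, ℝ)} {ω : Ω} : (1 - p) ω = 1 ↔ p ω = 0 := by
  simp

lemma good_idem (T : SMasa M Ω) (P : Params) (x : M) (st : TSt M Ω P.r)
    (N : Fin P.r → Bool → M) (i : Fin P.r) :
    T.good P x st N i * T.good P x st N i = T.good P x st N i :=
  mul_idem (one_sub_idem (T.pos_mul_self _)) (one_sub_idem (T.pos_mul_self _))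

lemma bandSet_idem (hl : st.live * st.live = st.live) :
    T.bandSet P x st * T.bandSet P x st = T.bandSet P x st :=
  mul_idem hl (mul_idem (T.pos_mul_self _) (T.pos_mul_self _))

lemma Ctx.aS_idem (C : T.Ctx P x S st N) (i : Fin P.r) :
    T.aS P st i * T.aS P st i = T.aS P st i :=
  mul_idem C.inv.live_idem (T.act_idem st i)

lemma Ctx.Sf_idem (C : T.Ctx P x S st N) (K : Fin P.r → GOp T Unit Unit) (i : Fin P.r) :
    T.Sf P x S st K i * T.Sf P x S st K i = T.Sf P x S st K i :=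
  mul_idem (T.pos_mul_self _) (C.aS_idem i)

lemma Ctx.badf_idem (C : T.Ctx P x S st N) (i : Fin P.r) :
    T.badf P x st N i * T.badf P x st N i = T.badf P x st N i :=
  mul_idem (C.aS_idem i) (one_sub_idem (good_idem T P x st N i))

lemma Ctx.Zf_idem (C : T.Ctx P x S st N) (K : Fin P.r → GOp T Unit Unit) :
    T.Zf P x S st N K * T.Zf P x S st N K = T.Zf P x S st N K := by
  refine one_sub_idem ?_
  rw [← Finset.prod_mul_distrib]
  exact Finset.prod_congr rfl fun i _ =>
    mul_idem (one_sub_idem (C.Sf_idem K i)) (one_sub_idem (C.badf_idem i))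

lemma Ctx.onf_idem (C : T.Ctx P x S st N) (K : Fin P.r → GOp T Unit Unit) (i : Fin P.r) :
    T.onf P x S st N K i * T.onf P x S st N K i = T.onf P x S st N K i :=
  mul_idem (C.aS_idem i) (one_sub_idem (C.Zf_idem K))

lemma Ctx.rowsf_idem (C : T.Ctx P x S st N) (K : Fin P.r → GOp T Unit Unit) :
    T.rowsf P x S st N K * T.rowsf P x S st N K = T.rowsf P x S st N K :=
  mul_idem (bandSet_idem C.inv.live_idem) (one_sub_idem (C.Zf_idem K))

lemma Ctx.Zf_eq_zero (C : T.Ctx P x S st N) {ω : Ω} (h : T.Zf P x S st N K ω = 0) (i : Fin P.r) :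
    T.Sf P x S st K i ω = 0 ∧ T.badf P x st N i ω = 0 := by
  have h1 : (∏ j, (1 - T.Sf P x S st K j) * (1 - T.badf P x st N j)) ω = 1 := by
    simp only [Zf, ContinuousMap.sub_apply, ContinuousMap.one_apply] at h
    linarith
  rw [ContinuousMap.prod_apply] at h1
  have h2 : ((1 - T.Sf P x S st K i) * (1 - T.badf P x st N i)) ω = 1 := by
    rcases idem_zero_or_one (mul_idem (one_sub_idem (C.Sf_idem K i))
      (one_sub_idem (C.badf_idem i))) ω with a | a
    · rw [Finset.prod_eq_zero (Finset.mem_univ i) a] at h1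
      exact absurd h1 zero_ne_one
    · exact a
  have h3 := (mul_eq_one (one_sub_idem (C.Sf_idem K i)) (one_sub_idem (C.badf_idem i))).1 h2
  exact ⟨one_sub_eq_one.1 h3.1, one_sub_eq_one.1 h3.2⟩

lemma Ctx.Zf_le (C : T.Ctx P x S st N) :
    T.Zf P x S st N K ≤ ∑ i, (T.Sf P x S st K i + T.badf P x st N i) := by
  refine ContinuousMap.le_def.2 fun ω => ?_
  have h0 : ∀ i, 0 ≤ T.Sf P x S st K i ω ∧ 0 ≤ T.badf P x st N i ω := fun i =>
    ⟨idem_nonneg (C.Sf_idem K i) ω, idem_nonneg (C.badf_idem i) ω⟩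
  rw [ContinuousMap.sum_apply]
  simp only [ContinuousMap.add_apply]
  rcases idem_zero_or_one (C.Zf_idem K) ω with hz | hz
  · rw [hz]; exact Finset.sum_nonneg fun i _ => add_nonneg (h0 i).1 (h0 i).2
  rw [hz]
  obtain ⟨i, hi⟩ : ∃ i, T.Sf P x S st K i ω = 1 ∨ T.badf P x st N i ω = 1 := by
    by_contra hne
    simp only [not_exists, not_or] at hne
    have : T.Zf P x S st N K ω = 0 := by
      simp only [Zf, ContinuousMap.sub_apply, ContinuousMap.one_apply, ContinuousMap.prod_apply,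
        ContinuousMap.mul_apply]
      rw [Finset.prod_eq_one fun j _ => ?_, sub_self]
      rw [(idem_zero_or_one (C.Sf_idem K j) ω).resolve_right (hne j).1,
        (idem_zero_or_one (C.badf_idem j) ω).resolve_right (hne j).2]
      ring
    rw [this] at hz
    exact zero_ne_one hz
  refine le_trans ?_ (Finset.single_le_sum (fun j _ => add_nonneg (h0 j).1 (h0 j).2)
    (Finset.mem_univ i))
  rcases hi with hi | hi <;> rw [hi] <;> linarith [(h0 i).1, (h0 i).2]

/-- a site which is switched on has a channel bounded below -/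
lemma Ctx.sig_of_act (C : T.Ctx P x S st N) (i : Fin P.r) {ω : Ω} (hl : st.live ω = 1)
    (ha : T.act P st i ω = 1) : P.β₀ / 4 ≤ st.sig i ω ∧ 0 < st.sig i ω := by
  have hb : 0 < P.β₀ / 4 := by
    have := C.ok.ε_pos
    unfold Params.β₀
    positivity
  have hm : ω ∈ TMasa.hull (st.sig i) := by
    by_contra hm
    simp [act, pos_apply, hm] at ha
  have hsub : TMasa.hull (st.sig i) ⊆ {y | st.live y = 0 ∨ P.β₀ / 4 ≤ st.sig i y} := by
    refine closure_minimal (fun y (hy : 0 < st.sig i y) => ?_)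
      ((isClosed_eq st.live.continuous continuous_const).union
        (isClosed_le continuous_const (st.sig i).continuous))
    rcases idem_zero_or_one C.inv.live_idem y with h | h
    · exact Or.inl h
    rcases C.clean i y h with h' | h'
    · rw [h'] at hy; exact absurd hy (lt_irrefl 0)
    · exact Or.inr (by linarith [T.fval_le C.ok.ε_pos (C.band i true).pos C.inv i y])
  rcases hsub hm with h | h
  · rw [hl] at h; exact absurd h one_ne_zero
  · exact ⟨h, by linarith⟩

lemma Ctx.sig_eq_zero (C : T.Ctx P x S st N) (i : Fin P.r) {ω : Ω}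
    (ha : T.act P st i ω = 0) : st.sig i ω = 0 :=
  le_antisymm (T.nonpos_of_pos_eq_zero ha) (C.inv.sig_nonneg i ω)

lemma Ctx.Lam_bounds (C : T.Ctx P x S st N) (ω : Ω) :
    0 ≤ T.Lam P x S st ω ∧ T.Lam P x S st ω ≤ 2 ∧ (st.live ω = 1 → S.μ ≤ T.Lam P x S st ω) := by
  have h0 := Profile.dhub_nonneg (T.xval P x st ω)
  have h1 := Profile.dhub_le_one (T.xval P x st ω)
  have h2 := C.μ_pos
  have h3 := C.μ_le
  rw [Lam_apply]
  rcases idem_zero_or_one C.inv.live_idem ω with h | h <;> rw [h]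
  · exact ⟨by simp, by simp, fun hh => absurd hh zero_ne_one⟩
  · rw [one_mul]
    exact ⟨by linarith, by linarith, fun _ => by linarith⟩

lemma Ctx.phi_bounds (C : T.Ctx P x S st N) (i : Fin P.r) (ω : Ω) :
    0 ≤ cphi2 (st.sig i) ω ∧ cphi2 (st.sig i) ω ≤ 1 / 2 := by
  show 0 ≤ Two.phi (st.sig i ω) ∧ Two.phi (st.sig i ω) ≤ 1 / 2
  refine ⟨(Two.phi_bounds C.ok.ε_pos (C.inv.sig_nonneg i ω) (C.inv.sig_le i ω)).1, ?_⟩
  unfold Two.phi
  nlinarith [sq_nonneg (st.sig i ω - 1 / 2)]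

lemma Ctx.Wf_bounds (C : T.Ctx P x S st N) (i : Fin P.r) (ω : Ω) :
    S.μ ≤ T.Wf P x S st i ω ∧
      cphi2 (st.sig i) ω * T.Lam P x S st ω ≤ T.Wf P x S st i ω := by
  have h1 := (C.phi_bounds i ω).1
  have h2 := (C.Lam_bounds ω).1
  have h3 := mul_nonneg h1 h2
  have h4 := C.μ_pos
  simp only [Wf, ContinuousMap.add_apply, ContinuousMap.mul_apply, ContinuousMap.const_apply]
  constructor <;> linarith

/-- the facts at a site of the covariance -/
lemma Ctx.on_facts (C : T.Ctx P x S st N) (hact : T.ActSpec P x)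
    (hKn : ∀ i, ∀ t ∈ K i, 0 ≤ t.coef) (i : Fin P.r) {ω : Ω}
    (h : T.onf P x S st N K i ω = 1) :
    T.ActGood P x st N i ω ∧ T.Zf P x S st N K ω = 0 ∧ T.act P st i ω = 1 ∧
      0 < T.Lam P x S st ω ∧ S.μ / 4 ≤ T.cch P x st i ω ∧ T.cch P x st i ω ≤ P.Cc ∧
      P.ε * P.β₀ ≤ cphi2 (st.sig i) ω ∧
      (K i).wgt.app1 (T.Wf P x S st i) ω + S.μ / 2 ≤ T.cch P x st i ω * T.Lam P x S st ω := by
  obtain ⟨ha, hz⟩ := (mul_eq_one (C.aS_idem i) (one_sub_idem (C.Zf_idem K))).1 h
  obtain ⟨hl, hact1⟩ := (mul_eq_one C.inv.live_idem (T.act_idem st i)).1 ha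
  rw [one_sub_eq_one] at hz
  obtain ⟨hS, hb⟩ := C.Zf_eq_zero hz i
  have hg : T.good P x st N i ω = 1 := by
    rcases idem_zero_or_one (good_idem T P x st N i) ω with g | g
    · simp [badf, ha, g] at hb
    · exact g
  have hσ := (C.sig_of_act i hl hact1).2
  obtain ⟨-, -, -, hc, hφ, -⟩ := hact S st N C i ω hl hσ
  have he : T.ef P x S st K i ω ≤ 0 := by
    refine T.nonpos_of_pos_eq_zero ?_
    simpa [Sf, ha] using hS
  simp only [ef, ContinuousMap.add_apply, ContinuousMap.sub_apply, ContinuousMap.mul_apply,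
    ContinuousMap.const_apply] at he
  have hL := C.Lam_bounds ω
  have hL0 : 0 < T.Lam P x S st ω := lt_of_lt_of_le C.μ_pos (hL.2.2 hl)
  refine ⟨⟨hl, hσ, hg⟩, hz, hact1, hL0, ?_, (le_abs_self _).trans hc, hφ, by linarith⟩
  by_contra hlt
  have hw : 0 ≤ (K i).wgt.app1 (T.Wf P x S st i) ω := by
    rw [GOp.app1_apply]
    refine List.sum_nonneg fun z hz' => ?_
    simp only [GOp.wgt, List.map_map, List.mem_map, Function.comp_apply] at hz'
    obtain ⟨t, ht, rfl⟩ := hz'
    exact mul_nonneg (mul_nonneg (mul_nonneg (hKn i t ht _) (t.g.dens_pos _).le)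
      (idem_nonneg t.g.ran_idem _)) (C.μ_pos.le.trans (C.Wf_bounds i _).1)
  have h1 := mul_lt_mul_of_pos_right (not_le.1 hlt) hL0
  have h2 := mul_le_mul_of_nonneg_left hL.2.1 (show 0 ≤ S.μ / 4 by linarith [C.μ_pos])
  linarith

end SMasa

end Vale.Agent.P078.T3
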