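import Mathlib
import Vale.Agent.P078.Type3.Step.Setup

/-! The integrated excess over stationarity and the mass of the unusable points. -/

noncomputable section

open scoped ComplexOrder
open Classical Filter

set_option linter.unusedSectionVars false

namespace Vale.Agent.P078.T3

open Chan
open TMasa (ypm vpm)

universe u v

variable {M : Type u} [CStarAlgebra M] [PartialOrder M] [StarOrderedRing M]
  {Ω : Type v} [TopologicalSpace Ω] [CompactSpace Ω] [T2Space Ω]

namespace SMasa

variable (T : SMasa M Ω) (P : Params) (x : M)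

/-- the terms of a move which come from the perturbation outside the band -/
def Rlin (st : TSt M Ω P.r) (N : Fin P.r → Bool → M) (g : Fin P.r → C(Ω, ℝ)) : ℝ :=
  ∑ i, ∑ s, 2 * T.ip (st.R i s * vpm x s) (T.offv (vpm x s) (N i s) (g i))

variable {T P x} {S : Smalls} {st : TSt M Ω P.r} {N : Fin P.r → Bool → M}
  {K : Fin P.r → GOp T Unit Unit}

/-- the atomic parts of the channels -/
theorem exists_atom (hatom : AtomSpec T) (hsym : SymSpec T) (C : T.Ctx P x S st N) {η : ℝ}
    (hη : 0 < η) : ∃ K : Fin P.r → GOp T Unit Unit, T.AtomOK P x st N K η := by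
  have hX : ∀ i s, IsSelfAdjoint (T.Xb P x st N i s) := fun i s =>
    (C.band i s).Xp_sa (TMasa.isSelfAdjoint_vpm x s)
  choose Ka hKa using fun i s => hatom (T.Xb P x st N i s) (hX i s) (η / 4) (by linarith)
  have happ : ∀ i f, (GOp.sym ((Ka i true).add (Ka i false))).app1 f
      = (Ka i true).app1 f + (Ka i false).app1 f := fun i f => by
    rw [GOp.sym_app1, GOp.tp_add, GOp.app1_add, GOp.app1_add, hsym _ (hKa i true).2.1,
      hsym _ (hKa i false).2.1, ← add_smul]
    norm_num
  refine ⟨fun i => GOp.sym ((Ka i true).add (Ka i false)), fun i => GOp.sym_nonneg ?_,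
    fun i f => GOp.sym_app1_tp _ f, fun i f => GOp.sym_app1_wgt_tp _ f, fun i f hf => ?_,
    fun i => ?_⟩
  · intro t ht
    rcases List.mem_append.1 ht with h | h
    · exact (hKa i true).1 t h
    · exact (hKa i false).1 t h
  · rw [happ]
    exact add_le_add ((hKa i true).2.2.1 f hf) ((hKa i false).2.2.1 f hf)
  · filter_upwards [(hKa i true).2.2.2, (hKa i false).2.2.2] with Q h1 h2
    intro f hf
    have e : ∀ e, T.tau ((T.Kch P x st N i (f e)
          - (GOp.sym ((Ka i true).add (Ka i false))).app1 (f e))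
        * (T.Kch P x st N i (f e) - (GOp.sym ((Ka i true).add (Ka i false))).app1 (f e)))
        ≤ 2 * T.tau ((T.K (T.Xb P x st N i true) (f e) - (Ka i true).app1 (f e))
          * (T.K (T.Xb P x st N i true) (f e) - (Ka i true).app1 (f e)))
        + 2 * T.tau ((T.K (T.Xb P x st N i false) (f e) - (Ka i false).app1 (f e))
          * (T.K (T.Xb P x st N i false) (f e) - (Ka i false).app1 (f e))) := fun e => by
      set a := T.K (T.Xb P x st N i true) (f e) - (Ka i true).app1 (f e) with ha
      set b := T.K (T.Xb P x st N i false) (f e) - (Ka i false).app1 (f e) with hb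
      have hab : T.Kch P x st N i (f e) - (GOp.sym ((Ka i true).add (Ka i false))).app1 (f e)
          = a + b := by
        rw [happ, Kch, LinearMap.add_apply, ha, hb]
        abel
      have e2 : 2 * T.tau (a * a) + 2 * T.tau (b * b)
          = T.tau ((2 : ℝ) • (a * a) + (2 : ℝ) • (b * b)) := by
        simp only [map_add, map_smul, smul_eq_mul]
      rw [hab, e2]
      refine T.tau_mono (ContinuousMap.le_def.2 fun ω => ?_)
      simp only [ContinuousMap.add_apply, ContinuousMap.mul_apply, ContinuousMap.smul_apply,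
        smul_eq_mul]
      nlinarith [sq_nonneg (a ω - b ω)]
    refine (Finset.sum_le_sum fun e' _ => e e').trans ?_
    rw [Finset.sum_add_distrib, ← Finset.mul_sum, ← Finset.mul_sum]
    linarith [h1 f hf, h2 f hf]

lemma Ctx.trace_band_le (C : T.Ctx P x S st N) (hbad : T.BadSpec P x) {Kb : ℝ}
    (hA : ∑ j, T.tau (T.Asum P x st j) ≤ Kb) (i : Fin P.r) (s : Bool) :
    T.tr (vpm x s * (1 - N i s) * vpm x s) ≤ 2 * S.γ * Kb := by
  refine ((hbad S st N C i).1 s).trans (mul_le_mul_of_nonneg_left ?_ ?_)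
  · refine le_trans ?_ (le_trans (Finset.single_le_sum
      (fun j _ => T.tau_nonneg (T.Asum_nonneg (C.band i s).pos C.inv j)) (Finset.mem_univ i)) hA)
    refine T.tau_mono ?_
    have := T.aval_nonneg (C.band i s).pos C.inv i (!s)
    cases s
    · exact le_add_of_nonneg_left this
    · exact le_add_of_nonneg_right this
  · linarith [(C.band i s).pos]

lemma Ctx.n2_Rv_le {θ : ℝ} (hθ : 0 ≤ θ)
    (hR : ∑ i, (T.n2 (st.R i true * vpm x true) ^ 2 + T.n2 (st.R i false * vpm x false) ^ 2)
      ≤ θ ^ 2) (i : Fin P.r) (s : Bool) : T.n2 (st.R i s * vpm x s) ≤ θ := by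
  refine (pow_le_pow_iff_left₀ (T.n2_nonneg _) hθ two_ne_zero).1 (le_trans ?_ (le_trans
    (Finset.single_le_sum (f := fun j => T.n2 (st.R j true * vpm x true) ^ 2
      + T.n2 (st.R j false * vpm x false) ^ 2) (fun j _ => by positivity) (Finset.mem_univ i)) hR))
  cases s
  · exact le_add_of_nonneg_left (sq_nonneg _)
  · exact le_add_of_nonneg_right (sq_nonneg _)

lemma abs_Rlin_le {θ η₁ H : ℝ} (hθ : 0 ≤ θ) (hη₁ : 0 ≤ η₁) (g : Fin P.r → C(Ω, ℝ))
    (hg : ∀ i, ‖g i‖ ≤ H) (hR : ∀ i s, T.n2 (st.R i s * vpm x s) ≤ θ)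
    (hoff : ∀ i s f, T.n2 (T.offv (vpm x s) (N i s) f) ≤ η₁ * ‖f‖) :
    |T.Rlin P x st N g| ≤ 4 * P.r * θ * η₁ * H := by
  have h1 : ∀ i s, |2 * T.ip (st.R i s * vpm x s) (T.offv (vpm x s) (N i s) (g i))|
      ≤ 2 * (θ * (η₁ * H)) := fun i s => by
    rw [abs_mul, abs_two]
    refine mul_le_mul_of_nonneg_left ((T.abs_ip_le _ _).trans ?_) zero_le_two
    exact mul_le_mul (hR i s) ((hoff i s _).trans (mul_le_mul_of_nonneg_left (hg i) hη₁))
      (T.n2_nonneg _) hθ
  refine (Finset.abs_sum_le_sum_abs _ _).trans ((Finset.sum_le_sum fun i _ =>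
    (Finset.abs_sum_le_sum_abs _ _).trans (Finset.sum_le_sum fun s _ => h1 i s)).trans
      (le_of_eq ?_))
  simp only [Finset.sum_const, Finset.card_univ, Fintype.card_bool, Fintype.card_fin,
    nsmul_eq_mul]
  push_cast
  ring

lemma Sf_ef_nonneg (C : T.Ctx P x S st N) (i : Fin P.r) :
    0 ≤ T.Sf P x S st K i * T.ef P x S st K i := fun ω => by
  show (0 : ℝ) ≤ (T.Sf P x S st K i * T.ef P x S st K i) ω
  rw [ContinuousMap.mul_apply]
  rcases idem_zero_or_one (C.Sf_idem K i) ω with h | h
  · rw [h, zero_mul]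
  · rw [h, one_mul]
    exact T.nonneg_of_pos_eq_one ((mul_eq_one (T.pos_mul_self _) (C.aS_idem i)).1 h).1

/-- the excess is a descent direction -/
lemma lin_neg_S_le (C : T.Ctx P x S st N) (hle : ∀ i f, 0 ≤ f → (K i).app1 f ≤ T.Kch P x st N i f)
    (htw : ∀ i f, (K i).tp.wgt.app1 f = (K i).wgt.app1 f) :
    T.lin P x S st N (fun i => -T.Sf P x S st K i) ≤
      -(∑ i, (T.tau (T.Sf P x S st K i * T.ef P x S st K i)
          + S.μ / 2 * T.tau (T.Sf P x S st K i)))
        + S.A * S.μ * T.Rlin P x st N (fun i => -T.Sf P x S st K i) := by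
  unfold lin
  rw [Rlin]
  refine add_le_add ?_ le_rfl
  rw [Finset.mul_sum, map_sum, Finset.mul_sum, Finset.mul_sum, ← Finset.sum_neg_distrib,
    ← Finset.sum_add_distrib, ← Finset.sum_add_distrib, ← Finset.sum_neg_distrib]
  refine Finset.sum_le_sum fun i _ => ?_
  set s := T.Sf P x S st K i
  have hs : 0 ≤ s := idem_nonneg (C.Sf_idem K i)
  have hW : 0 ≤ T.Wf P x S st i := fun ω => C.μ_pos.le.trans (C.Wf_bounds i ω).1
  have h1 : T.tau (s * (K i).wgt.app1 (T.Wf P x S st i))
      ≤ T.tau (T.Wf P x S st i * T.Kch P x st N i s) := by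
    rw [← htw, ← GOp.tau_mul_app1]
    refine T.tau_mono fun ω => ?_
    exact mul_le_mul_of_nonneg_left (hle i s hs ω) (hW ω)
  have e1 : -T.tau (T.Lam P x S st * T.Jch P x st N i (-s)) + S.μ * T.tau (-s)
        + S.μ * T.tau (T.Kch P x st N i (-s))
      = T.tau (s * (T.cch P x st i * T.Lam P x S st))
        - T.tau (T.Wf P x S st i * T.Kch P x st N i s) - S.μ * T.tau s := by
    have a : T.Lam P x S st * T.Jch P x st N i (-s)
        = -(s * (T.cch P x st i * T.Lam P x S st))
          + cphi2 (st.sig i) * T.Lam P x S st * T.Kch P x st N i s := by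
      simp only [Jch, map_neg]
      ring
    have b : T.Wf P x S st i * T.Kch P x st N i s
        = cphi2 (st.sig i) * T.Lam P x S st * T.Kch P x st N i s
          + S.μ • T.Kch P x st N i s := by
      ext ω
      simp only [Wf, ContinuousMap.add_apply, ContinuousMap.mul_apply, ContinuousMap.const_apply,
        ContinuousMap.smul_apply, smul_eq_mul]
      ring
    rw [a, b]
    simp only [map_add, map_neg, map_smul, smul_eq_mul]
    ring
  have e2 : T.tau (s * T.ef P x S st K i) = T.tau (s * (K i).wgt.app1 (T.Wf P x S st i))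
      - T.tau (s * (T.cch P x st i * T.Lam P x S st)) + S.μ / 2 * T.tau s := by
    have a : s * T.ef P x S st K i = s * (K i).wgt.app1 (T.Wf P x S st i)
        - s * (T.cch P x st i * T.Lam P x S st) + (S.μ / 2) • s := by
      ext ω
      simp only [ef, ContinuousMap.add_apply, ContinuousMap.sub_apply, ContinuousMap.mul_apply,
        ContinuousMap.const_apply, ContinuousMap.smul_apply, smul_eq_mul]
      ring
    rw [a]
    simp only [map_add, map_sub, map_smul, smul_eq_mul]
  rw [e1]
  linarith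

/-- the mass of the unusable points -/
lemma tau_Zf_le (C : T.Ctx P x S st N) (hbad : T.BadSpec P x) {Kb θ : ℝ}
    (hA : ∑ j, T.tau (T.Asum P x st j) ≤ Kb) (hθ : 2 * S.γ * Kb ≤ θ)
    (hθ2 : Real.sqrt (2 * S.γ * Kb) ≤ θ) (hR : ∀ i s, T.n2 (st.R i s * vpm x s) ≤ θ) :
    T.tau (T.Zf P x S st N K) ≤
      (∑ i, T.tau (T.Sf P x S st K i)) + P.r * (34 * θ / Two.tol P.ε) := by
  refine (T.tau_mono C.Zf_le).trans ?_
  rw [map_sum]
  simp only [map_add]
  rw [Finset.sum_add_distrib]
  refine add_le_add le_rfl ((Finset.sum_le_sum (g := fun _ => 34 * θ / Two.tol P.ε)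
    fun i _ => ?_).trans (le_of_eq ?_))
  · have h1 : T.badf P x st N i ≤ 1 - T.good P x st N i := fun ω =>
      mul_le_of_le_one_left (idem_nonneg (one_sub_idem (good_idem T P x st N i)) ω)
        (idem_le_one (C.aS_idem i) ω)
    refine (T.tau_mono h1).trans ?_
    rw [le_div_iff₀ (show 0 < Two.tol P.ε from pow_pos C.ok.ε_pos 13), mul_comm]
    refine ((hbad S st N C i).2).trans ((Finset.sum_le_sum (g := fun _ => θ + 8 * (θ + θ))
      fun s _ => ?_).trans (le_of_eq ?_))
    · have ht := C.trace_band_le hbad hA i s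
      refine add_le_add (ht.trans hθ) (mul_le_mul_of_nonneg_left
        (add_le_add (hR i s) ((Real.sqrt_le_sqrt ht).trans hθ2)) (by norm_num))
    · simp only [Finset.sum_const, Finset.card_univ, Fintype.card_bool, nsmul_eq_mul]
      push_cast
      ring
  · simp

end SMasa

end Vale.Agent.P078.T3
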