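import Mathlib

/-! Quadratic maps through the parallelogram law, and a choice of signs without expectations. -/

noncomputable section

open Classical

namespace Vale.Agent.P078.T3

set_option linter.unusedSectionVars false

universe u v w

variable {V : Type u} [AddCommGroup V] [Module ℝ V] {W : Type v} [AddCommGroup W] [Module ℝ W]

/-- the parallelogram law -/
def QF (f : V → W) : Prop := ∀ a b, f (a + b) + f (a - b) = (f a + f b) + (f a + f b)

namespace QF

variable {f g : V → W}

lemma map_zero (hf : QF f) : f 0 = 0 := by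
  have h := hf 0 0
  simp only [add_zero, sub_zero] at h
  have h2 : f 0 + f 0 = 0 := by
    calc f 0 + f 0 = (f 0 + f 0) + (f 0 + f 0) - (f 0 + f 0) := by abel
      _ = 0 := by rw [← h, sub_self]
  have h3 : (2 : ℝ) • f 0 = 0 := by rw [two_smul]; exact h2
  exact (smul_eq_zero.1 h3).resolve_left two_ne_zero

lemma map_neg (hf : QF f) (b : V) : f (-b) = f b := by
  have h := hf 0 b
  rw [zero_add, zero_sub, hf.map_zero, zero_add] at h
  exact add_left_cancel h

lemma add (hf : QF f) (hg : QF g) : QF fun v => f v + g v := fun a b => by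
  have h : (f (a + b) + f (a - b)) + (g (a + b) + g (a - b))
      = ((f a + f b) + (f a + f b)) + ((g a + g b) + (g a + g b)) := by rw [hf a b, hg a b]
  calc (f (a + b) + g (a + b)) + (f (a - b) + g (a - b))
      = (f (a + b) + f (a - b)) + (g (a + b) + g (a - b)) := by abel
    _ = _ := h
    _ = _ := by simp only [add_assoc, add_left_comm, add_comm]

lemma const_smul (hf : QF f) (c : ℝ) : QF fun v => c • f v := fun a b => by
  simp only [← smul_add, hf a b]

lemma neg (hf : QF f) : QF fun v => -f v := fun a b => by
  simp only [← neg_add, hf a b]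

lemma sub (hf : QF f) (hg : QF g) : QF fun v => f v - g v := by
  simpa [sub_eq_add_neg] using hf.add hg.neg

lemma const_mul {f : V → ℝ} (hf : QF f) (c : ℝ) : QF fun v => c * f v := hf.const_smul c

lemma sum {ι : Type*} (s : Finset ι) {F : ι → V → W} (hF : ∀ i ∈ s, QF (F i)) :
    QF fun v => ∑ i ∈ s, F i v := fun a b => by
  simp only [← Finset.sum_add_distrib]
  exact Finset.sum_congr rfl fun i hi => hF i hi a b

lemma comp_linear {U : Type w} [AddCommGroup U] [Module ℝ U] (hf : QF f) (L : U →ₗ[ℝ] V) :
    QF fun u => f (L u) := fun a b => by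
  simp only [LinearMap.map_add, LinearMap.map_sub]
  exact hf _ _

lemma linear_comp {U : Type w} [AddCommGroup U] [Module ℝ U] (hf : QF f) (L : W →ₗ[ℝ] U) :
    QF fun v => L (f v) := fun a b => by
  simp only [← LinearMap.map_add, hf a b]

lemma of_bilin (β : V →ₗ[ℝ] V →ₗ[ℝ] W) : QF fun v => β v v := fun a b => by
  simp only [LinearMap.map_add, LinearMap.map_sub, LinearMap.add_apply, LinearMap.sub_apply]
  abel

lemma mul {R : Type v} [CommRing R] [Algebra ℝ R] (L L' : V →ₗ[ℝ] R) :
    QF fun v => L v * L' v := fun a b => by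
  simp only [LinearMap.map_add, LinearMap.map_sub]
  ring

/-- signs for which a quadratic form is at most the sum over the pieces -/
theorem exists_sign {f : V → ℝ} (hf : QF f) {κ : Type*} (u : κ → V) (K : Finset κ) :
    ∃ s : κ → ℝ, (∀ k, |s k| ≤ 1) ∧ f (∑ k ∈ K, s k • u k) ≤ ∑ k ∈ K, f (u k) := by
  induction K using Finset.induction with
  | empty => exact ⟨0, by simp, by simp [hf.map_zero]⟩
  | @insert a K ha ih =>
    obtain ⟨s, hs, h⟩ := ih
    set w := ∑ k ∈ K, s k • u k with hw
    obtain ⟨σ, hσ, hσ'⟩ : ∃ σ : ℝ, |σ| ≤ 1 ∧ f (w + σ • u a) ≤ f w + f (u a) := by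
      have h2 := hf w (u a)
      rcases le_total (f (w + u a)) (f w + f (u a)) with h1 | h1
      · exact ⟨1, by simp, by simpa using h1⟩
      · refine ⟨-1, by simp, ?_⟩
        rw [neg_smul, one_smul, ← sub_eq_add_neg]
        linarith
    refine ⟨Function.update s a σ, fun k => ?_, ?_⟩
    · rcases eq_or_ne k a with rfl | hk
      · rwa [Function.update_self]
      · rw [Function.update_of_ne hk]; exact hs k
    · rw [Finset.sum_insert ha, Finset.sum_insert ha, Function.update_self]
      have e : ∑ k ∈ K, Function.update s a σ k • u k = w :=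
        Finset.sum_congr rfl fun k hk => by
          rw [Function.update_of_ne (ne_of_mem_of_not_mem hk ha)]
      rw [e, add_comm (σ • u a)]
      linarith

end QF

end Vale.Agent.P078.T3
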