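import Mathlib
import Vale.Agent.P078.Type3.Step.Quad
import Vale.Agent.P078.Type3.Step.Excess

/-! The random move, the splitting of its second order into a quadratic part and a constant, and
the statements of the estimates of the quadratic part. Every `…Spec` below is proved. -/

noncomputable section

open scoped ComplexOrder
open Classical Filter

set_option linter.unusedSectionVars false

namespace Vale.Agent.P078.T3

open Chan
open TMasa (ypm vpm)

universe u v

variable {M : Type u} [CStarAlgebra M] [PartialOrder M] [StarOrderedRing M]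
  {Ω : Type v} [TopologicalSpace Ω] [CompactSpace Ω] [T2Space Ω]

namespace Params

/-- the lower bound of the normalised profile at an active channel -/
def phlo (P : Params) : ℝ := 1 / (15 * P.ε)

/-- the upper bound of the normalised profile at an active channel -/
def phhi (P : Params) : ℝ := 3 / P.ε ^ 2

/-- the constraint is large enough for the rank bound -/
def Big (P : Params) : Prop := 2000000000 ≤ P.L

end Params

namespace SMasa

variable (T : SMasa M Ω) (P : Params) (x : M)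

/-- the second order motion belonging to `h` -/
def drift (st : TSt M Ω P.r) (i : Fin P.r) (on : C(Ω, ℝ)) : C(Ω, ℝ) :=
  -((T.beta P x st i + gam P st i) * on)

/-- the amplitude of a random move -/
def pF (st : TSt M Ω P.r) (on : C(Ω, ℝ)) (i : Fin P.r) : C(Ω, ℝ) := on * T.wF P x st i

/-- the variance of a random move -/
def DF (st : TSt M Ω P.r) (on : C(Ω, ℝ)) (i : Fin P.r) : C(Ω, ℝ) :=
  on * on * (T.wF P x st i * T.wF P x st i)

/-- the covariance outside an exceptional set -/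
def onZ (st : TSt M Ω P.r) (Z : C(Ω, ℝ)) (i : Fin P.r) : C(Ω, ℝ) := T.aS P st i * (1 - Z)

/-- the rows of the constraint outside an exceptional set, in weighted variables -/
def rowM (st : TSt M Ω P.r) (Z : C(Ω, ℝ)) (q : Fin P.r → C(Ω, ℝ))
    (K : Fin P.r → GOp T Unit Unit) : GOp T Unit (Fin P.r) :=
  rowOp (T.bandSet P x st * (1 - Z)) (T.onZ P st Z)
    (fun i => T.cch P x st i * q i) (fun i => cphi2 (st.sig i))
    (fun i => (K i).colMul (q i))

/-- the quadratic part of the second order of a random move -/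
def Qsec (S : Smalls) (st : TSt M Ω P.r) (N : Fin P.r → Bool → M) (h : Fin P.r → C(Ω, ℝ)) : ℝ :=
  T.tau (T.bandSet P x st
      * ((∑ i, T.Jch P x st N i (h i)) * ∑ i, T.Jch P x st N i (h i))) / 2
    - T.tau (T.Lam P x S st
      * ∑ i, (T.Jch P x st N i (gam P st i * (h i * h i)) + T.Fq P x st N i (h i)))
    + S.μ * (∑ i, T.tau (gam P st i * (h i * h i)))
    + S.μ * (∑ i, (T.tau (T.Kch P x st N i (gam P st i * (h i * h i)))
        + T.tau (T.Cch P x st N i (h i))))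
    + S.A * S.μ * (∑ i, ∑ s, (T.n2 (T.offv (vpm x s) (N i s) (h i)) ^ 2
        + 2 * T.ip (st.R i s * vpm x s) (T.offv (vpm x s) (N i s) (gam P st i * (h i * h i)))))

/-- the constant part of the second order of a random move -/
def Dsec (S : Smalls) (st : TSt M Ω P.r) (N : Fin P.r → Bool → M) (ρ : ℝ)
    (on : Fin P.r → C(Ω, ℝ)) : ℝ :=
  -T.tau (T.Lam P x S st * ∑ i, (T.Jch P x st N i (T.drift P x st i (on i))
        + ρ • (cphi2 (st.sig i) * T.Bch P x st N i)))
    + S.μ * (∑ i, T.tau (T.drift P x st i (on i)))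
    + S.μ * (∑ i, (T.tau (T.Kch P x st N i (T.drift P x st i (on i)))
        - ρ * T.tau (T.Bch P x st N i)))
    + S.A * S.μ * (∑ i, ∑ s, 2 * T.ip (st.R i s * vpm x s)
        (T.offv (vpm x s) (N i s) (T.drift P x st i (on i)) + ρ • ((1 - N i s) * vpm x s)))

/-- a sum over the pieces of a partition in every column -/
def pieceSum {r : ℕ} (Q : Part Ω) (F : (Fin r → C(Ω, ℝ)) → ℝ) : ℝ :=
  ∑ j, ∑ e, F (Pi.single j (Q.e e))

/-- the three quadratic forms of one channel, summed over pieces -/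
def ChanFormSpec : Prop :=
  (∀ S st N, T.Ctx P x S st N → ∀ (i : Fin P.r) (on d : C(Ω, ℝ)) {k : ℕ}
    (Sg : GOp T Unit (Fin k)), (∀ ω, 0 ≤ on ω ∧ on ω ≤ 1) →
    (∀ ω, on ω ≠ 0 → T.ActGood P x st N i ω) →
    OpBd Sg.ker 1 → (∀ ω, 0 ≤ d ω) →
    (∀ᶠ Q : Part Ω in atTop, ∀ ω, ∑ j, ∑ e, (Sg.app (Pi.single j (Q.e e)) () ω) ^ 2 = 1 - d ω) →
    ∀ η : ℝ, 0 < η → ∀ᶠ Q : Part Ω in atTop,
      (pieceSum Q (fun u => -T.tau (T.Lam P x S st
            * (T.Jch P x st N i (gam P st i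
                * ((T.pF P x st on i * Sg.app u ()) * (T.pF P x st on i * Sg.app u ())))
              + T.Fq P x st N i (T.pF P x st on i * Sg.app u ()))))
          - T.tau (T.Lam P x S st * (T.Jch P x st N i (T.drift P x st i (T.DF P x st on i))
              + P.rho S.γ • (cphi2 (st.sig i) * T.Bch P x st N i)))
        ≤ P.kap * T.tau (T.Lam P x S st * d)
          - P.kap / 12 * T.tau (T.Lam P x S st * (on * on * spX P st i)) + η) ∧
      pieceSum Q (fun u => T.tau (T.Cch P x st N i (T.pF P x st on i * Sg.app u ())))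
        ≤ T.tau (T.Kch P x st N i (T.beta P x st i * T.DF P x st on i)) + η) ∧
  (IsSelfAdjoint x → ‖x‖ ≤ 1 → ∀ η : ℝ, 0 < η → ∃ dd : ℝ, 0 < dd ∧
    ∀ (s : Bool) (N : M), IsStarProjection N → T.tr (vpm x s * (1 - N) * vpm x s) ≤ dd →
      ∀ (p : C(Ω, ℝ)) {k : ℕ} (Sg : GOp T Unit (Fin k)), (∀ ω, |p ω| ≤ 1) → OpBd Sg.ker 1 →
        (∀ᶠ Q : Part Ω in atTop, ∀ ω, ∑ j, ∑ e, (Sg.app (Pi.single j (Q.e e)) () ω) ^ 2 ≤ 1) →
        ∀ᶠ Q : Part Ω in atTop,
          pieceSum Q (fun u => T.n2 (T.offv (vpm x s) N (p * Sg.app u ())) ^ 2) ≤ η)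

/-- the part of a channel outside its atoms is small on the images of pieces -/
def RemSpec : Prop :=
  ∀ S st N, T.Ctx P x S st N → ∀ (K : Fin P.r → GOp T Unit Unit) (η : ℝ), 0 < η →
    T.AtomOK P x st N K η → ∀ (i : Fin P.r) (p : C(Ω, ℝ)) {k : ℕ} (Sg : GOp T Unit (Fin k)),
      (∀ ω, |p ω| ≤ 1) → OpBd Sg.ker 1 → ∀ᶠ Q : Part Ω in atTop,
        pieceSum Q (fun u => T.tau ((T.Kch P x st N i (p * Sg.app u ())
            - (K i).app1 (p * Sg.app u ()))
          * (T.Kch P x st N i (p * Sg.app u ()) - (K i).app1 (p * Sg.app u ())))) ≤ 10 * η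

/-- the curved part of the potential along the random move -/
def VarSpec : Prop :=
  ∀ S st N, T.Ctx P x S st N → ∀ (K : Fin P.r → GOp T Unit Unit) (Z : C(Ω, ℝ))
    (q : Fin P.r → C(Ω, ℝ)) (η B ω₁ ζ : ℝ) (n : ℕ),
    Z * Z = Z → (∀ ω, T.Zf P x S st N K ω = 1 → Z ω = 1) → (∀ i ω, 0 ≤ q i ω ∧ q i ω ≤ 1) →
    0 < η → T.AtomOK P x st N K η → 0 < B →
    OpBd (T.rowM P x st Z q K).ker (Real.sqrt B) →
    (∑ i, T.tau (T.Sf P x S st K i * T.ef P x S st K i)) ≤ ω₁ →
    T.tau Z ≤ ζ →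
    ∀ᶠ Q : Part Ω in atTop,
      pieceSum Q (fun u => T.tau (T.bandSet P x st *
        ((∑ i, T.Jch P x st N i (T.onZ P st Z i * q i *
            ((GOp.yOp (T.rowM P x st Z q K) B).pow n).app u i))
          * ∑ i, T.Jch P x st N i (T.onZ P st Z i * q i *
            ((GOp.yOp (T.rowM P x st Z q K) B).pow n).app u i))) / 2)
        ≤ B / (2 * n + 1) + (P.r : ℝ) ^ 2 * (2 * P.Cc / S.μ ^ 2) * (ω₁ + 2 * P.Cc * ζ)
          + 20 * (P.r : ℝ) ^ 2 * η

/-- bounds on the coefficients of the moves which do not depend on the state -/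
def BoundSpec : Prop :=
  P.Ok → (∃ Cb : ℝ, 0 ≤ Cb ∧ ∀ S st N, T.Ctx P x S st N → ∀ (i : Fin P.r) (on g : C(Ω, ℝ)),
      (∀ ω, on ω ≠ 0 → st.live ω = 1 ∧ 0 < st.sig i ω) →
      (∀ ω, |on ω| ≤ 1) → (∀ ω, |g ω| ≤ 1) →
        ‖gam P st i * g‖ ≤ Cb ∧ ‖T.drift P x st i on‖ ≤ Cb ∧
        (∀ ω, 0 ≤ gam P st i ω)) ∧
    ∀ S : Smalls, 0 < S.γ → 0 < S.μ → S.μ ≤ 1 → 0 ≤ S.A →
      ∃ C : ℝ, 0 ≤ C ∧ ∀ st N, T.Ctx P x S st N →
        (∀ i s, T.n2 (st.R i s * vpm x s) ≤ 1) → ∀ h : Fin P.r → C(Ω, ℝ), (∀ i, ‖h i‖ ≤ 1) →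
          (∀ i ω, h i ω ≠ 0 → st.live ω = 1 ∧ 0 < st.sig i ω) →
            |T.sec P x S st N 0 h 0| ≤ C

end SMasa

end Vale.Agent.P078.T3
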