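import Mathlib
import Vale.Agent.P078.Type3.Step.Decomp

/-! The algebra of the second order of a move: its splitting, the parallelogram law of its
quadratic part, and formal bounds of the operators of the step. -/

noncomputable section

open scoped ComplexOrder
open Classical

set_option linter.unusedSectionVars false

namespace Vale.Agent.P078.T3

open Chan
open TMasa (ypm vpm)

universe u v w

variable {M : Type u} [CStarAlgebra M] [PartialOrder M] [StarOrderedRing M]
  {Ω : Type v} [TopologicalSpace Ω] [CompactSpace Ω] [T2Space Ω]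

namespace SMasa

variable (T : SMasa M Ω) (P : Params) (x : M)

lemma Jch_add (st : TSt M Ω P.r) (N : Fin P.r → Bool → M) (i : Fin P.r) (f g : C(Ω, ℝ)) :
    T.Jch P x st N i (f + g) = T.Jch P x st N i f + T.Jch P x st N i g := by
  simp only [Jch, LinearMap.map_add, mul_add]
  abel

/-- the second order splits into the quadratic part and the constant -/
theorem sec_eq (S : Smalls) (st : TSt M Ω P.r) (N : Fin P.r → Bool → M) (ρ : ℝ)
    (h on : Fin P.r → C(Ω, ℝ)) :
    T.sec P x S st N ρ h (fun i => gam P st i * (h i * h i) + T.drift P x st i (on i))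
      = T.Qsec P x S st N h + T.Dsec P x S st N ρ on := by
  simp only [sec, Qsec, Dsec, F22, T.Jch_add, T.offv_add, T.ip_add_right, mul_add,
    LinearMap.map_add, LinearMap.map_sub, Finset.sum_add_distrib, Finset.sum_sub_distrib,
    LinearMap.map_smul, smul_eq_mul]
  ring

/-- the linear action of a channel on the constraint, as a linear map -/
def JchL (st : TSt M Ω P.r) (N : Fin P.r → Bool → M) (i : Fin P.r) : Module.End ℝ C(Ω, ℝ) :=
  LinearMap.mulLeft ℝ (T.cch P x st i)
    - (LinearMap.mulLeft ℝ (cphi2 (st.sig i))).comp (T.Kch P x st N i)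

lemma JchL_apply (st : TSt M Ω P.r) (N : Fin P.r → Bool → M) (i : Fin P.r) (f : C(Ω, ℝ)) :
    T.JchL P x st N i f = T.Jch P x st N i f := rfl

/-- `E (X u X v X)` as a bilinear map -/
def cubeL (X : M) : C(Ω, ℝ) →ₗ[ℝ] C(Ω, ℝ) →ₗ[ℝ] C(Ω, ℝ) :=
  LinearMap.mk₂ ℝ (fun u v => T.E (X * T.emb u * X * T.emb v * X))
    (fun a b c => by simp only [map_add, mul_add, add_mul])
    (fun r a b => by simp only [map_smul, mul_smul_comm, smul_mul_assoc])
    (fun a b c => by simp only [map_add, mul_add, add_mul])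
    (fun r a b => by simp only [map_smul, mul_smul_comm, smul_mul_assoc])

/-- the perturbation outside the band, as a linear map -/
def offvL (v N : M) : C(Ω, ℝ) →ₗ[ℝ] M where
  toFun := T.offv v N
  map_add' := T.offv_add v N
  map_smul' := T.offv_smul v N

/-- the inner product as a bilinear form -/
def ipL : M →ₗ[ℝ] M →ₗ[ℝ] ℝ :=
  LinearMap.mk₂ ℝ T.ip T.ip_add_left T.ip_smul_left T.ip_add_right T.ip_smul_right

/-- the quadratic part of the second order obeys the parallelogram law -/
theorem qf_Qsec (S : Smalls) (st : TSt M Ω P.r) (N : Fin P.r → Bool → M) :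
    QF (T.Qsec P x S st N) := by
  let π : Fin P.r → (Fin P.r → C(Ω, ℝ)) →ₗ[ℝ] C(Ω, ℝ) := fun i => LinearMap.proj i
  have hsq : ∀ i, QF fun h : Fin P.r → C(Ω, ℝ) => gam P st i * (h i * h i) := fun i =>
    (QF.mul (π i) (π i)).linear_comp (LinearMap.mulLeft ℝ (gam P st i))
  have hJ : QF fun h : Fin P.r → C(Ω, ℝ) => T.tau (T.bandSet P x st
      * ((∑ i, T.Jch P x st N i (h i)) * ∑ i, T.Jch P x st N i (h i))) := by
    have h1 := (QF.mul (∑ i, (T.JchL P x st N i).comp (π i))
      (∑ i, (T.JchL P x st N i).comp (π i))).linear_comp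
      (T.tau.comp (LinearMap.mulLeft ℝ (T.bandSet P x st)))
    simpa [π, JchL_apply] using h1
  have hC : ∀ i, QF fun h : Fin P.r → C(Ω, ℝ) => T.Cch P x st N i (h i) := fun i =>
    ((QF.of_bilin (T.cubeL (T.Xb P x st N i true))).comp_linear (π i)).add
      ((QF.of_bilin (T.cubeL (T.Xb P x st N i false))).comp_linear (π i))
  have hF : ∀ i, QF fun h : Fin P.r → C(Ω, ℝ) => T.Fq P x st N i (h i) := fun i =>
    (((QF.mul (π i) (π i)).linear_comp
        (LinearMap.mulLeft ℝ (comp1 (Two.hpsiC P.ε) (st.sig i) + (2 : ℝ) • T.Asum P x st i))).sub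
      ((QF.mul (π i) ((T.Kch P x st N i).comp (π i))).linear_comp
        (LinearMap.mulLeft ℝ (comp1 Two.dphi (st.sig i))))).sub
      ((hC i).linear_comp (LinearMap.mulLeft ℝ (cphi2 (st.sig i))))
  have h2 : QF fun h : Fin P.r → C(Ω, ℝ) => T.tau (T.Lam P x S st
      * ∑ i, (T.Jch P x st N i (gam P st i * (h i * h i)) + T.Fq P x st N i (h i))) :=
    (QF.sum Finset.univ fun i _ => (((hsq i).linear_comp (T.JchL P x st N i)).add (hF i))).linear_comp
      (T.tau.comp (LinearMap.mulLeft ℝ (T.Lam P x S st)))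
  have h3 : QF fun h : Fin P.r → C(Ω, ℝ) => ∑ i, T.tau (gam P st i * (h i * h i)) :=
    QF.sum Finset.univ fun i _ => (hsq i).linear_comp T.tau
  have h4 : QF fun h : Fin P.r → C(Ω, ℝ) =>
      ∑ i, (T.tau (T.Kch P x st N i (gam P st i * (h i * h i)))
        + T.tau (T.Cch P x st N i (h i))) :=
    QF.sum Finset.univ fun i _ =>
      (((hsq i).linear_comp (T.Kch P x st N i)).linear_comp T.tau).add ((hC i).linear_comp T.tau)
  have h5 : QF fun h : Fin P.r → C(Ω, ℝ) =>
      ∑ i, ∑ s, (T.n2 (T.offv (vpm x s) (N i s) (h i)) ^ 2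
        + 2 * T.ip (st.R i s * vpm x s) (T.offv (vpm x s) (N i s) (gam P st i * (h i * h i)))) :=
    QF.sum Finset.univ fun i _ => QF.sum Finset.univ fun s _ => by
      refine QF.add ?_ ((((hsq i).linear_comp (T.offvL (vpm x s) (N i s))).linear_comp
        (T.ipL (st.R i s * vpm x s))).const_mul 2)
      simp only [T.n2_sq]
      exact ((QF.of_bilin T.ipL).comp_linear (T.offvL (vpm x s) (N i s))).comp_linear (π i)
  have key := ((((hJ.const_mul (1 / 2)).sub h2).add (h3.const_mul S.μ)).add
    (h4.const_mul S.μ)).add (h5.const_mul (S.A * S.μ))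
  intro a b
  have := key a b
  simp only [Qsec]
  linarith

end SMasa

namespace GOp

variable {T : SMasa M Ω} {ι κ : Type w}

/-- the action as a linear map -/
def appLin (S : GOp T ι κ) : (κ → C(Ω, ℝ)) →ₗ[ℝ] (ι → C(Ω, ℝ)) where
  toFun := S.app
  map_add' u v := by
    funext i
    ext b
    simp only [Pi.add_apply, ContinuousMap.add_apply, app_apply]
    rw [← List.sum_map_add]
    congr 1
    refine List.map_congr_left fun t _ => ?_
    split_ifs <;> ring
  map_smul' c u := by
    funext i
    ext b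
    simp only [Pi.smul_apply, ContinuousMap.smul_apply, app_apply, RingHom.id_apply, smul_eq_mul,
      ← List.sum_map_mul_left]
    congr 1
    refine List.map_congr_left fun t _ => ?_
    split_ifs <;> ring

@[simp] lemma appLin_apply (S : GOp T ι κ) (u : κ → C(Ω, ℝ)) : S.appLin u = S.app u := rfl

/-- powers of the step operator on bounded functions -/
theorem abs_app_pow_yOp_le {r : ℕ} {Tm : GOp T Unit (Fin r)} {a c B : ℝ} (hTm : Tm.FBd a)
    (hTp : Tm.tp.FBd c) (ha : 0 ≤ a) (hc : 0 ≤ c) (hac : a * c ≤ B) (hB : 0 < B) (n : ℕ)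
    {u : Fin r → C(Ω, ℝ)} (hu : ∀ j w, |u j w| ≤ 1) (i : Fin r) (w : Ω) :
    |((yOp Tm B).pow n).app u i w| ≤ 2 ^ n := by
  have h1 : (mul (tp Tm) Tm).FBd (c * a) := hTp.mul ha hTm
  have h2 : (yOp Tm B).FBd 2 := by
    refine (FBd.one.add (h1.smul (-(1 / B)))).mono ?_
    have h3 : |(-(1 / B))| * (c * a) ≤ 1 := by
      rw [abs_neg, abs_of_pos (by positivity), ← mul_div_right_comm, one_mul,
        div_le_one hB, mul_comm]
      exact hac
    linarith
  have h := abs_app_le (h2.pow (by norm_num) n) zero_le_one hu i w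
  rwa [mul_one] at h

lemma sum_map_flatMap {α β : Type*} (L : List α) (f : α → List β) (g : β → ℝ) :
    ((L.flatMap f).map g).sum = (L.map fun a => ((f a).map g).sum).sum := by
  induction L with
  | nil => simp
  | cons a L ih => simp [List.flatMap_cons, ih]

lemma sum_map_finRange {r : ℕ} (g : Fin r → ℝ) : ((List.finRange r).map g).sum = ∑ j, g j := by
  rw [← List.ofFn_eq_map, List.sum_ofFn]

lemma colMul_nonneg {K : GOp T Unit Unit} (hK : ∀ t ∈ K, 0 ≤ t.coef) {f : C(Ω, ℝ)}
    (hf : ∀ a, 0 ≤ f a) : ∀ t ∈ K.colMul f, 0 ≤ t.coef := by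
  intro t ht
  simp only [colMul, List.mem_map] at ht
  obtain ⟨s, hs, rfl⟩ := ht
  exact fun b => mul_nonneg (hK s hs b) (hf _)

/-- a weight below one does not increase the formal masses -/
lemma app1_colMul_le {K : GOp T Unit Unit} (hK : ∀ t ∈ K, 0 ≤ t.coef) {f : C(Ω, ℝ)}
    (hf : ∀ a, f a ≤ 1) (b : Ω) :
    (K.colMul f).app1 1 b ≤ K.app1 1 b ∧ (K.colMul f).tp.app1 1 b ≤ K.tp.app1 1 b := by
  simp only [app1_apply, colMul, tp, List.map_map]
  constructor <;> refine List.sum_le_sum fun t ht => ?_ <;>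
    simp only [Function.comp_apply, ContinuousMap.mul_apply, ContinuousMap.comp_apply,
      ContinuousMap.one_apply, mul_one]
  · exact mul_le_mul_of_nonneg_right (mul_le_of_le_one_right (hK t ht b) (hf _))
      (idem_nonneg t.g.ran_idem b)
  · exact mul_le_mul_of_nonneg_right (mul_le_of_le_one_right (hK t ht _) (hf _))
      (idem_nonneg t.g.dom_idem b)

/-- formal bounds of the rows of the constraint -/
theorem fbd_rowOp {r : ℕ} {rows : C(Ω, ℝ)} {on c φ : Fin r → C(Ω, ℝ)}
    {K : Fin r → GOp T Unit Unit} {Cc k : ℝ} (hCc : 0 ≤ Cc) (hrows : rows * rows = rows)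
    (hon : ∀ j, on j * on j = on j) (hφ : ∀ j ω, 0 ≤ φ j ω ∧ φ j ω ≤ 1)
    (hc : ∀ j ω, on j ω = 1 → rows ω = 1 → |c j ω| ≤ Cc)
    (hK : ∀ j, ∀ t ∈ K j, 0 ≤ t.coef) (hk : ∀ j ω, (K j).app1 1 ω ≤ k)
    (hk' : ∀ j ω, (K j).tp.app1 1 ω ≤ k) :
    (rowOp rows on c φ K).FBd ((r : ℝ) * (Cc + k)) ∧
      (rowOp rows on c φ K).tp.FBd ((r : ℝ) * (Cc + k)) := by
  have hroot : ∀ j ω, |rows ω * on j ω * c j ω| ≤ Cc := by
    intro j ω
    rcases idem_zero_or_one hrows ω with h | h
    · simpa [h] using hCc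
    rcases idem_zero_or_one (hon j) ω with h' | h'
    · simpa [h'] using hCc
    rw [h, h', one_mul, one_mul]
    exact hc j ω h' h
  have hterm : ∀ j, ∀ t ∈ K j, ∀ ω,
      |(-(rows * φ j * t.coef * (on j).comp t.g.toDom)) ω| ≤ t.coef ω := by
    intro j t ht ω
    have h0 : 0 ≤ t.coef ω := hK j t ht ω
    simp only [ContinuousMap.neg_apply, ContinuousMap.mul_apply, ContinuousMap.comp_apply, abs_neg]
    have h1 : 0 ≤ rows ω := idem_nonneg hrows ω
    have h2 : rows ω ≤ 1 := idem_le_one hrows ω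
    have h3 : 0 ≤ on j (t.g.toDom ω) := idem_nonneg (hon j) _
    have h4 : on j (t.g.toDom ω) ≤ 1 := idem_le_one (hon j) _
    obtain ⟨h5, h6⟩ := hφ j ω
    rw [abs_of_nonneg (by positivity)]
    calc rows ω * φ j ω * t.coef ω * on j (t.g.toDom ω)
        ≤ rows ω * φ j ω * t.coef ω := mul_le_of_le_one_right (by positivity) h4
      _ ≤ t.coef ω := mul_le_of_le_one_left h0 (mul_le_one₀ h2 h5 h6)
  constructor
  · intro u ω
    have hblock : ∀ j, (((⟨(), j, rows * on j * c j, GElt.one T⟩ : Term T Unit (Fin r)) ::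
        (K j).map fun t => ⟨(), j, -(rows * φ j * t.coef * (on j).comp t.g.toDom), t.g⟩).map
          fun t => if t.row = u then |t.coef ω * t.g.ran ω| else 0).sum ≤ Cc + k := by
      intro j
      rw [List.map_cons, List.sum_cons, List.map_map]
      refine add_le_add ?_ ((List.sum_le_sum (g := fun t => t.coef ω * t.g.ran ω) fun t ht => ?_).trans
        (le_trans (le_of_eq ?_) (hk j ω)))
      · simpa [GElt.one] using hroot j ω
      · have h1 : 0 ≤ t.g.ran ω := idem_nonneg t.g.ran_idem ω
        simp only [Function.comp_apply, if_true, abs_mul, abs_of_nonneg h1]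
        exact mul_le_mul_of_nonneg_right (hterm j t ht ω) h1
      · simp [app1_apply]
    simp only [rowMass, rowOp]
    rw [sum_map_flatMap, sum_map_finRange]
    refine (Finset.sum_le_sum fun j _ => hblock j).trans_eq ?_
    rw [Finset.sum_const, Finset.card_univ, Fintype.card_fin, nsmul_eq_mul]
  · intro j₀ ω
    have hblock : ∀ j, ((((⟨(), j, rows * on j * c j, GElt.one T⟩ : Term T Unit (Fin r)) ::
        (K j).map fun t => ⟨(), j, -(rows * φ j * t.coef * (on j).comp t.g.toDom), t.g⟩).map
          fun t => (⟨t.col, t.row, t.coef.comp t.g.toRan, t.g.inv⟩ : Term T (Fin r) Unit)).map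
          fun t => if t.row = j₀ then |t.coef ω * t.g.ran ω| else 0).sum ≤ Cc + k := by
      intro j
      have hk0 : 0 ≤ k := by
        refine le_trans ?_ (hk j ω)
        rw [← rowMass_eq_app1 (hK j)]
        exact rowMass_nonneg _ _ _
      rw [List.map_map, List.map_cons, List.sum_cons, List.map_map]
      refine add_le_add ?_ ((List.sum_le_sum
        (g := fun t => t.coef (t.g.toRan ω) * t.g.dom ω) fun t ht => ?_).trans
        (le_trans (le_of_eq ?_) (hk' j ω)))
      · simp only [Function.comp_apply]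
        split_ifs
        · simpa [GElt.one, GElt.inv] using hroot j ω
        · exact hCc
      · have h1 : 0 ≤ t.g.dom ω := idem_nonneg t.g.dom_idem ω
        have h2 : 0 ≤ t.coef (t.g.toRan ω) := hK j t ht _
        simp only [Function.comp_apply, GElt.inv]
        split_ifs
        · rw [ContinuousMap.comp_apply, abs_mul, abs_of_nonneg h1]
          exact mul_le_mul_of_nonneg_right (hterm j t ht _) h1
        · positivity
      · simp [app1_apply, tp, List.map_map, Function.comp_def, GElt.inv]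
    simp only [rowMass, rowOp, tp]
    rw [List.map_flatMap, sum_map_flatMap, sum_map_finRange]
    have hsum := Finset.sum_le_sum (s := Finset.univ) fun j _ => hblock j
    rw [Finset.sum_const, Finset.card_univ, Fintype.card_fin, nsmul_eq_mul] at hsum
    refine le_trans (le_of_eq ?_) hsum
    exact Finset.sum_congr rfl fun j _ => by congr!

end GOp

end Vale.Agent.P078.T3
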