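import Mathlib
import Vale.Agent.P078.Type3.Step.Decomp
import Vale.Agent.P078.Type3.Step.Basics
import Vale.Agent.P078.Type3.Point.Basic

/-! Bounds on the coefficients of the moves which do not depend on the state. -/

noncomputable section

open scoped ComplexOrder

set_option linter.unusedSectionVars false

namespace Vale.Agent.P078.T3

open Chan
open TMasa (ypm vpm)

universe u v

variable {M : Type u} [CStarAlgebra M] [PartialOrder M] [StarOrderedRing M]
  {Ω : Type v} [TopologicalSpace Ω] [CompactSpace Ω] [T2Space Ω]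

namespace SMasa

section General

variable (T : SMasa M Ω)

lemma abs_tau_le {f : C(Ω, ℝ)} {c : ℝ} (h : ∀ ω, |f ω| ≤ c) : |T.tau f| ≤ c := by
  have e : T.tau (ContinuousMap.const Ω c) = c := by
    rw [show ContinuousMap.const Ω c = c • (1 : C(Ω, ℝ)) by ext; simp, map_smul, T.tau_one,
      smul_eq_mul, mul_one]
  have h1 := T.tau_mono (f := f) (g := ContinuousMap.const Ω c)
    (ContinuousMap.le_def.2 fun ω => (abs_le.1 (h ω)).2)
  have h2 := T.tau_mono (f := -f) (g := ContinuousMap.const Ω c)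
    (ContinuousMap.le_def.2 fun ω => by
      show -(f ω) ≤ c
      linarith [(abs_le.1 (h ω)).1])
  rw [e] at h1 h2
  rw [map_neg] at h2
  exact abs_le.2 ⟨by linarith, h1⟩

/-- the action on a function with values in `[-1, 1]` -/
lemma abs_K_le {X : M} {c : ℝ} (hc : ‖X‖ ≤ c) {h : C(Ω, ℝ)} (hh : ∀ ω, |h ω| ≤ 1) (ω : Ω) :
    |T.K X h ω| ≤ c ^ 2 := by
  have h1 : T.K X h ω ≤ T.K X 1 ω :=
    T.K_mono X (ContinuousMap.le_def.2 fun y => (abs_le.1 (hh y)).2) ω
  have h2 : T.K X (-h) ω ≤ T.K X 1 ω :=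
    T.K_mono X (ContinuousMap.le_def.2 fun y => by
      show -(h y) ≤ 1
      linarith [(abs_le.1 (hh y)).1]) ω
  have h3 := T.K_one_le hc ω
  rw [map_neg, ContinuousMap.neg_apply] at h2
  exact abs_le.2 ⟨by linarith, by linarith⟩

end General

variable {T : SMasa M Ω} {P : Params} {x : M} {S : Smalls} {st : TSt M Ω P.r}
  {N : Fin P.r → Bool → M}

namespace Ctx

variable (C : T.Ctx P x S st N)
include C

lemma norm_Xb_le (i : Fin P.r) (s : Bool) : ‖T.Xb P x st N i s‖ ≤ 1 / S.γ :=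
  (C.band i s).norm_Xp_le (TMasa.vpm_props C.sa C.norm_le s).2.1

lemma abs_Kch_le (i : Fin P.r) {h : C(Ω, ℝ)} (hh : ∀ ω, |h ω| ≤ 1) (ω : Ω) :
    |T.Kch P x st N i h ω| ≤ 2 * (1 / S.γ) ^ 2 := by
  rw [Kch, LinearMap.add_apply, ContinuousMap.add_apply, two_mul]
  exact (abs_add_le _ _).trans (add_le_add (T.abs_K_le (C.norm_Xb_le i true) hh ω)
    (T.abs_K_le (C.norm_Xb_le i false) hh ω))

lemma Cch_bounds (i : Fin P.r) {h : C(Ω, ℝ)} (hh : ‖h‖ ≤ 1) (ω : Ω) :
    0 ≤ T.Cch P x st N i h ω ∧ T.Cch P x st N i h ω ≤ 2 * (1 / S.γ) ^ 3 := by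
  have hone : ∀ s, (0 : ℝ) ≤ T.E (T.Xb P x st N i s * T.emb h * T.Xb P x st N i s * T.emb h
        * T.Xb P x st N i s) ω ∧
      T.E (T.Xb P x st N i s * T.emb h * T.Xb P x st N i s * T.emb h
        * T.Xb P x st N i s) ω ≤ (1 / S.γ) ^ 3 := fun s => by
    refine ⟨T.E_XhXhX_nonneg (C.Xb_nonneg i s) h ω, ?_⟩
    have hX := (C.Xb_sa i s).star_eq
    have hsa : IsSelfAdjoint (T.Xb P x st N i s * T.emb h * T.Xb P x st N i s * T.emb h
        * T.Xb P x st N i s) := by
      simp [IsSelfAdjoint, star_mul, hX, T.star_emb, mul_assoc]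
    refine (le_abs_self _).trans ((T.E_le_norm hsa ω).trans ?_)
    have a := C.norm_Xb_le i s
    have b : ‖T.emb h‖ ≤ 1 := by rwa [T.emb_norm]
    have hγ := C.γ_pos
    calc ‖T.Xb P x st N i s * T.emb h * T.Xb P x st N i s * T.emb h * T.Xb P x st N i s‖
        ≤ ‖T.Xb P x st N i s‖ * ‖T.emb h‖ * ‖T.Xb P x st N i s‖ * ‖T.emb h‖
          * ‖T.Xb P x st N i s‖ := by
          refine (norm_mul_le _ _).trans (mul_le_mul_of_nonneg_right ?_ (norm_nonneg _))
          refine (norm_mul_le _ _).trans (mul_le_mul_of_nonneg_right ?_ (norm_nonneg _))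
          refine (norm_mul_le _ _).trans (mul_le_mul_of_nonneg_right ?_ (norm_nonneg _))
          exact norm_mul_le _ _
      _ ≤ (1 / S.γ) * 1 * (1 / S.γ) * 1 * (1 / S.γ) := by gcongr
      _ = (1 / S.γ) ^ 3 := by ring
  rw [Cch, ContinuousMap.add_apply]
  exact ⟨add_nonneg (hone true).1 (hone false).1, by linarith [(hone true).2, (hone false).2]⟩

lemma abs_Jch_le (i : Fin P.r) {h : C(Ω, ℝ)} (hh : ‖h‖ ≤ 1)
    (hs : ∀ ω, h ω ≠ 0 → st.live ω = 1 ∧ 0 < st.sig i ω) (ω : Ω) :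
    |T.Jch P x st N i h ω| ≤ P.Cc + 2 * (1 / S.γ) ^ 2 := by
  have hh' : ∀ y, |h y| ≤ 1 := fun y => (h.norm_coe_le_norm y).trans hh
  have hφ := Two.phi_bounds C.ε_pos (C.sig0 i ω) (C.sig1 i ω)
  rw [Jch, ContinuousMap.sub_apply, ContinuousMap.mul_apply, ContinuousMap.mul_apply]
  refine (abs_sub _ _).trans (add_le_add ?_ ?_)
  · by_cases h0 : h ω = 0
    · simp [h0]; unfold Params.Cc; have := C.ε_pos; positivity
    · obtain ⟨hl, hσ⟩ := hs ω h0
      rw [abs_mul]
      exact (mul_le_of_le_one_right (abs_nonneg _) (hh' ω)).trans (C.act_facts i ω hl hσ).2.2.2.1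
  · rw [abs_mul]
    refine (mul_le_of_le_one_left (abs_nonneg _) ?_).trans (C.abs_Kch_le i hh' ω)
    show |Two.phi (st.sig i ω)| ≤ 1
    rw [abs_of_nonneg hφ.1]
    linarith [hφ.2.1]

lemma abs_Fq_le (i : Fin P.r) {h : C(Ω, ℝ)} (hh : ‖h‖ ≤ 1)
    (hs : ∀ ω, h ω ≠ 0 → st.live ω = 1 ∧ 0 < st.sig i ω) (ω : Ω) :
    |T.Fq P x st N i h ω| ≤
      100 / P.ε ^ 6 + 2 * (1 / P.ε) + 4 * (1 / S.γ) ^ 2 + 2 * (1 / S.γ) ^ 3 := by
  have hε := C.ε_pos
  have hh' : ∀ y, |h y| ≤ 1 := fun y => (h.norm_coe_le_norm y).trans hh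
  have hφ := Two.phi_bounds hε (C.sig0 i ω) (C.sig1 i ω)
  have hC := C.Cch_bounds i hh ω
  have hK := C.abs_Kch_le i hh' ω
  have e : T.Fq P x st N i h ω = (Two.hpsi P.ε (st.sig i ω) + 2 * T.Asum P x st i ω) * h ω ^ 2
      - Two.dphi (st.sig i ω) * (h ω * T.Kch P x st N i h ω)
      - Two.phi (st.sig i ω) * T.Cch P x st N i h ω := by
    simp only [Fq, cphi2, ContinuousMap.sub_apply, ContinuousMap.add_apply,
      ContinuousMap.mul_apply, ContinuousMap.smul_apply, smul_eq_mul, ContinuousMap.coe_mk,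
      comp1_apply (Two.continuous_hpsiC hε), comp1_apply Two.continuous_dphi, Two.hpsiC, C.min_sig]
    ring
  rw [e]
  refine (abs_sub _ _).trans (add_le_add ((abs_sub _ _).trans (add_le_add ?_ ?_)) ?_)
  · by_cases h0 : h ω = 0
    · simp [h0]; positivity
    · obtain ⟨hl, hσ⟩ := hs ω h0
      obtain ⟨-, hA0, hA1, -, -, -⟩ := C.act_facts i ω hl hσ
      rw [abs_mul, abs_of_nonneg (sq_nonneg (h ω))]
      refine (mul_le_of_le_one_right (abs_nonneg _) ?_).trans ((abs_add_le _ _).trans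
        (add_le_add (Two.abs_hpsi_le hε C.ε_le (C.sig0 i ω) (C.sig1 i ω)) ?_))
      · rw [← sq_abs]; exact pow_le_one₀ (abs_nonneg _) (hh' ω)
      · rw [abs_of_nonneg (by positivity)]; linarith
  · rw [abs_mul, abs_mul]
    calc |Two.dphi (st.sig i ω)| * (|h ω| * |T.Kch P x st N i h ω|)
        ≤ 2 * (1 * (2 * (1 / S.γ) ^ 2)) :=
          mul_le_mul hφ.2.2 (mul_le_mul (hh' ω) hK (abs_nonneg _) zero_le_one) (by positivity)
            two_pos.le
      _ = 4 * (1 / S.γ) ^ 2 := by ring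
  · rw [abs_mul, abs_of_nonneg hφ.1, abs_of_nonneg hC.1]
    exact (mul_le_of_le_one_left hC.1 (by linarith [hφ.2.1])).trans hC.2

end Ctx

variable (T P x)

theorem boundSpec : T.BoundSpec P x := by
  intro hok
  have hε := hok.ε_pos
  have hb : 0 < P.β₀ := by unfold Params.β₀; positivity
  refine ⟨⟨2 / P.ε + 4 / P.β₀, by positivity, fun S st N C i on g hon hon1 hg => ?_⟩,
    fun S hγ hμ hμ1 hA => ?_⟩
  · have hgam : ∀ ω, 0 ≤ gam P st i ω ∧ gam P st i ω ≤ 4 / P.β₀ := fun ω => by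
      refine ⟨C.gam_nonneg i ω, ?_⟩
      rw [C.gam_apply, show 4 / P.β₀ = (P.β₀ / 4)⁻¹ by rw [inv_div]]
      exact inv_anti₀ (by positivity) (le_max_right _ _)
    refine ⟨SMasa.norm_fun_le (by positivity) fun ω => ?_, SMasa.norm_fun_le (by positivity) fun ω => ?_,
      fun ω => (hgam ω).1⟩
    · rw [ContinuousMap.mul_apply, abs_mul, abs_of_nonneg (hgam ω).1]
      refine (mul_le_of_le_one_right (hgam ω).1 (hg ω)).trans ((hgam ω).2.trans ?_)
      linarith [show 0 ≤ 2 / P.ε by positivity]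
    · rw [drift, ContinuousMap.neg_apply, ContinuousMap.mul_apply, ContinuousMap.add_apply,
        abs_neg, abs_mul]
      by_cases h0 : on ω = 0
      · rw [h0, abs_zero, mul_zero]; positivity
      obtain ⟨hl, hσ⟩ := hon ω h0
      obtain ⟨-, hA0, hA1, -, -, -⟩ := C.act_facts i ω hl hσ
      refine (mul_le_of_le_one_right (abs_nonneg _) (hon1 ω)).trans ((abs_add_le _ _).trans
        (add_le_add ?_ ?_))
      · rw [C.beta_apply, show 2 / P.ε = 1 / P.ε + 1 / P.ε by ring]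
        refine (abs_sub _ _).trans (add_le_add ?_ ?_)
        · rwa [abs_of_nonneg hA0]
        · have hm1 := Two.half_le_mOf hε hok.ε_le (C.sig0 i ω) (C.sig1 i ω)
          have hm2 := Two.mOf_le hε (C.sig1 i ω)
          have h10 : P.ε ^ 10 ≤ 1 / 4 :=
            (pow_le_of_le_one hε.le (by linarith [hok.ε_le]) (by norm_num)).trans
              (by linarith [hok.ε_le])
          have h3 : 1 / (3 * P.ε) ≤ 1 / P.ε := one_div_le_one_div_of_le hε (by linarith)
          have := pow_pos hε 10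
          rw [Two.m₁Of, abs_of_nonneg (by linarith)]
          linarith
      · rw [abs_of_nonneg (hgam ω).1]; exact (hgam ω).2
  · obtain ⟨J, hJ⟩ : ∃ J, J = P.Cc + 2 * (1 / S.γ) ^ 2 := ⟨_, rfl⟩
    obtain ⟨F, hF⟩ : ∃ F, F =
        100 / P.ε ^ 6 + 2 * (1 / P.ε) + 4 * (1 / S.γ) ^ 2 + 2 * (1 / S.γ) ^ 3 := ⟨_, rfl⟩
    have hJ0 : 0 ≤ J := by rw [hJ, Params.Cc]; positivity
    have hF0 : 0 ≤ F := by rw [hF]; positivity
    refine ⟨(P.r * J) ^ 2 / 2 + 2 * (P.r * F) + P.r * (2 * (1 / S.γ) ^ 3) + S.A * (P.r * 8),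
      by positivity, fun st N C _ h hh hs => ?_⟩
    have hcard : ∀ (c : ℝ) (f : Fin P.r → ℝ), (∀ i, |f i| ≤ c) → |∑ i, f i| ≤ P.r * c :=
      fun c f hf => (Finset.abs_sum_le_sum_abs _ _).trans
        ((Finset.sum_le_sum fun i _ => hf i).trans (by simp))
    have e22 : ∀ i, T.F22 P x st N 0 i (h i) 0 = T.Fq P x st N i (h i) := fun i => by
      simp [F22, Jch]
    -- the curved part
    have b1 : |T.tau (T.bandSet P x st
        * ((∑ i, T.Jch P x st N i (h i)) * ∑ i, T.Jch P x st N i (h i)))| ≤ (P.r * J) ^ 2 := by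
      refine T.abs_tau_le fun ω => ?_
      have hb1 : |T.bandSet P x st ω| ≤ 1 := by
        have he : T.bandSet P x st * T.bandSet P x st = T.bandSet P x st := by
          rw [bandSet, mul_mul_mul_comm, C.inv.live_idem, mul_mul_mul_comm, T.pos_mul_self,
            T.pos_mul_self]
        rcases idem_zero_or_one he ω with h0 | h0 <;> simp [h0]
      rw [ContinuousMap.mul_apply, ContinuousMap.mul_apply, ContinuousMap.sum_apply, abs_mul,
        abs_mul, pow_two]
      have hs1 := hcard J (fun i => T.Jch P x st N i (h i) ω) fun i =>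
        hJ ▸ C.abs_Jch_le i (hh i) (hs i) ω
      exact (mul_le_of_le_one_left (by positivity) hb1).trans
        (mul_le_mul hs1 hs1 (abs_nonneg _) (by positivity))
    -- the linearised part
    have b2 : |T.tau (T.Lam P x S st * ∑ i, T.F22 P x st N 0 i (h i) 0)| ≤ 2 * (P.r * F) := by
      refine T.abs_tau_le fun ω => ?_
      rw [ContinuousMap.mul_apply, ContinuousMap.sum_apply, abs_mul]
      refine mul_le_mul ?_ (hcard F _ fun i => ?_) (abs_nonneg _) two_pos.le
      · rw [T.Lam_apply]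
        have h0 := Profile.dhub_nonneg (T.xval P x st ω)
        have h1 := Profile.dhub_le_one (T.xval P x st ω)
        rcases idem_zero_or_one C.inv.live_idem ω with hl | hl
        · simp [hl]
        · rw [hl, one_mul, abs_of_nonneg (by linarith)]; linarith
      · rw [e22]; exact hF ▸ C.abs_Fq_le i (hh i) (hs i) ω
    -- the trace part
    have b3 : |∑ i, T.tau (T.Kch P x st N i 0 + T.Cch P x st N i (h i)
        - (0 : ℝ) • T.Bch P x st N i)| ≤ P.r * (2 * (1 / S.γ) ^ 3) := by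
      refine hcard _ _ fun i => T.abs_tau_le fun ω => ?_
      simp only [map_zero, zero_smul, sub_zero, zero_add]
      rw [abs_of_nonneg (C.Cch_bounds i (hh i) ω).1]
      exact (C.Cch_bounds i (hh i) ω).2
    -- the part outside the band
    have b4 : |∑ i, ∑ s, (T.n2 (T.offv (vpm x s) (N i s) (h i)) ^ 2
        + 2 * T.ip (st.R i s * vpm x s)
            (T.offv (vpm x s) (N i s) 0 + (0 : ℝ) • ((1 - N i s) * vpm x s)))| ≤ (P.r : ℝ) * 8 := by
      refine hcard _ _ fun i => ?_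
      have hone : ∀ s, |T.n2 (T.offv (vpm x s) (N i s) (h i)) ^ 2
          + 2 * T.ip (st.R i s * vpm x s)
            (T.offv (vpm x s) (N i s) 0 + (0 : ℝ) • ((1 - N i s) * vpm x s))| ≤ 4 := fun s => by
        have e0 : T.offv (vpm x s) (N i s) 0 = 0 := by simp [offv]
        rw [e0, zero_smul, add_zero, show T.ip (st.R i s * vpm x s) 0 = 0 by simp [ip], mul_zero,
          add_zero, abs_of_nonneg (sq_nonneg _)]
        have hv1 := (TMasa.vpm_props C.sa C.norm_le s).2.1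
        have hn : ‖vpm x s * T.emb (h i) * vpm x s‖ ≤ 1 :=
          (norm_sandwich_le hv1 _).trans (by rw [T.emb_norm]; exact hh i)
        have hN := proj_norm_le (C.band i s).proj
        have : T.n2 (T.offv (vpm x s) (N i s) (h i)) ≤ 2 := by
          refine (T.n2_le_norm _).trans ((norm_mul_le _ _).trans ?_)
          refine (mul_le_of_le_one_right (norm_nonneg _) hv1).trans ?_
          refine (norm_sub_le _ _).trans ?_
          have : ‖N i s * (vpm x s * T.emb (h i) * vpm x s) * N i s‖ ≤ 1 :=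
            (norm_mul_le _ _).trans (mul_le_one₀ ((norm_mul_le _ _).trans
              (mul_le_one₀ hN (norm_nonneg _) hn)) (norm_nonneg _) hN)
          linarith
        calc T.n2 (T.offv (vpm x s) (N i s) (h i)) ^ 2 ≤ 2 ^ 2 :=
              pow_le_pow_left₀ (T.n2_nonneg _) this 2
          _ = 4 := by norm_num
      rw [Fintype.sum_bool]
      exact (abs_add_le _ _).trans (by linarith [hone true, hone false])
    simp only [sec, Pi.zero_apply, map_zero, Finset.sum_const_zero, mul_zero, add_zero]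
    simp only [map_zero] at b2 b3 b4 ⊢
    obtain ⟨l1, u1⟩ := abs_le.1 b1
    obtain ⟨l2, u2⟩ := abs_le.1 b2
    obtain ⟨l3, u3⟩ := abs_le.1 b3
    obtain ⟨l4, u4⟩ := abs_le.1 b4
    have hAμ0 : 0 ≤ S.A * S.μ := mul_nonneg hA hμ.le
    have hAμ1 : S.A * S.μ ≤ S.A := mul_le_of_le_one_right hA hμ1
    have c3 : |S.μ * ∑ i, T.tau (0 + T.Cch P x st N i (h i) - (0 : ℝ) • T.Bch P x st N i)|
        ≤ P.r * (2 * (1 / S.γ) ^ 3) := by
      rw [abs_mul, abs_of_pos hμ]
      exact (mul_le_of_le_one_left (abs_nonneg _) hμ1).trans b3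
    have c4 : |S.A * S.μ * ∑ i, ∑ s, (T.n2 (T.offv (vpm x s) (N i s) (h i)) ^ 2
        + 2 * T.ip (st.R i s * vpm x s)
            (T.offv (vpm x s) (N i s) 0 + (0 : ℝ) • ((1 - N i s) * vpm x s)))| ≤ S.A * (P.r * 8) := by
      rw [abs_mul, abs_of_nonneg hAμ0]
      exact mul_le_mul hAμ1 b4 (abs_nonneg _) hA
    obtain ⟨l3', u3'⟩ := abs_le.1 c3
    obtain ⟨l4', u4'⟩ := abs_le.1 c4
    exact abs_le.2 ⟨by linarith, by linarith⟩

end SMasa

end Vale.Agent.P078.T3
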