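import Mathlib
import Vale.Agent.P078.Type3.Step.Decomp
import Vale.Agent.P078.Type3.Forms.Main
import Vale.Agent.P078.Type3.Point.Gain
import Vale.Agent.P078.Type3.Graph.Fixed

/-! The quadratic forms of one channel summed over pieces: the loss turns the second order into a
positive form, positive forms are monotone in the covariance, and at full covariance the limit of
the diagonal sums is the gain. -/

noncomputable section

open scoped ComplexOrder
open Classical Filter Topology

set_option linter.unusedSectionVars false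

namespace Vale.Agent.P078.T3

open Chan
open TMasa (ypm vpm)

universe u v

variable {M : Type u} [CStarAlgebra M] [PartialOrder M] [StarOrderedRing M]
  {Ω : Type v} [TopologicalSpace Ω] [CompactSpace Ω] [T2Space Ω]

namespace SMasa

variable (T : SMasa M Ω)

lemma chf_EC_sa {X : M} (hX : IsSelfAdjoint X) : T.EC X = T.emb (T.E X) := by
  have e : star ((-Complex.I) • X) = -((-Complex.I) • X) := by
    rw [star_smul, hX.star_eq, star_neg, show star Complex.I = -Complex.I from Complex.conj_I,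
      ← neg_smul]
  have h := T.E_star ((-Complex.I) • X)
  rw [e, map_neg] at h
  have h0 : T.E ((-Complex.I) • X) = 0 := by
    refine ContinuousMap.ext fun ω => ?_
    have := DFunLike.congr_fun h ω
    simp only [ContinuousMap.neg_apply] at this
    simp only [ContinuousMap.zero_apply]
    linarith
  rw [EC, h0, map_zero, smul_zero, add_zero]

lemma chf_smul_tau (c : ℝ) (f : C(Ω, ℝ)) : c * T.tau f = T.tau (c • f) := by
  rw [map_smul, smul_eq_mul]

lemma chf_EC_one : T.EC 1 = 1 := by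
  rw [T.chf_EC_sa (IsSelfAdjoint.one M), T.E_one, map_one]

/-- Cauchy–Schwarz for the action of a self-adjoint element -/
lemma chf_K_sq_le {X : M} (hX : IsSelfAdjoint X) (u : C(Ω, ℝ)) (ω : Ω) :
    T.K X u ω ^ 2 ≤ T.K X 1 ω * T.K X (u * u) ω := by
  have h := T.E_schwarz X (T.emb u * X) ω
  simp only [star_mul, hX.star_eq, T.star_emb] at h
  simp only [K_apply, hX.star_eq, map_one, mul_one, map_mul T.emb]
  simpa only [mul_assoc] using h

/-- the quadratic action is dominated by the linear one -/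
lemma chf_cube_le {X : M} (hX : 0 ≤ X) (u : C(Ω, ℝ)) (ω : Ω) :
    T.E (X * T.emb u * X * T.emb u * X) ω ≤ ‖X‖ * T.K X (u * u) ω := by
  have hs : IsSelfAdjoint X := IsSelfAdjoint.of_nonneg hX
  have h := ContinuousMap.le_def.1
    (T.E_mono (star_left_conjugate_le_conjugate (le_norm_smul hs) (T.emb u * X))) ω
  simp only [star_mul, hs.star_eq, T.star_emb, mul_smul_comm, smul_mul_assoc, mul_one, map_smul,
    ContinuousMap.smul_apply, smul_eq_mul] at h
  simp only [K_apply, hs.star_eq, map_mul T.emb]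
  simpa only [mul_assoc] using h

lemma chf_sum_tau_sq {k : ℕ} {Q : Part Ω} (a R : C(Ω, ℝ))
    (F : Fin k → Fin Q.n → C(Ω, ℝ)) (h : ∀ ω, ∑ j, ∑ e, F j e ω ^ 2 = R ω) :
    ∑ j, ∑ e, T.tau (a * (F j e * F j e)) = T.tau (a * R) := by
  simp only [← map_sum, ← Finset.mul_sum]
  congr 2
  ext ω
  simp only [ContinuousMap.sum_apply, ContinuousMap.mul_apply]
  simpa only [sq] using h ω

/-- positive forms along the images of pieces against the limit at full covariance -/
lemma chf_form_le (F : List (M × M × M)) (G : C(Ω, ℝ) →ₗ[ℝ] ℝ) (hG : ∀ f, 0 ≤ f → 0 ≤ G f)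
    (hF : ∀ u, 0 ≤ form3 T F u u ∧ form3 T F u u ≤ G (u * u)) {L : ℝ}
    (hL : (F.map fun a => T.tr (a.1 * T.EC a.2.1 * a.2.2)).sum = L)
    {k : ℕ} (Sg : GOp T Unit (Fin k)) (hS : OpBd Sg.ker 1) {η : ℝ} (hη : 0 < η) :
    ∀ᶠ Q : Part Ω in atTop,
      ∑ j, ∑ e, form3 T F (Sg.app (Pi.single j (Q.e e)) ()) (Sg.app (Pi.single j (Q.e e)) ())
        ≤ L + η := by
  have h1 := formSpec (T := T) (T3.sepSpec T) F G hG hF Sg hS (η / 2) (half_pos hη)
  have h2 := ((formLimSpec (T := T) F).eventually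
    (ge_mem_nhds (lt_add_of_pos_right _ (half_pos hη))))
  filter_upwards [h1, h2] with Q a b
  rw [← hL]
  linarith

/-! ### the three terms of one sign -/

/-- the terms of one sign in the second order of the constraint -/
def chfList (f g a p : C(Ω, ℝ)) (X : M) : List (M × M × M) :=
  [(T.emb f * X * T.emb (a * p), T.emb p, X), (T.emb (g * p), X * T.emb p, X),
    (T.emb f * X * T.emb p, X * T.emb p, X)]

lemma chfList_form (f g a p : C(Ω, ℝ)) {X : M} (hX : IsSelfAdjoint X) (u : C(Ω, ℝ)) :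
    form3 T (T.chfList f g a p X) u u
      = T.tau (f * (T.K X (a * ((p * u) * (p * u)))
            + T.E (X * T.emb (p * u) * X * T.emb (p * u) * X))
          + g * (p * u) * T.K X (p * u)) := by
  have hh : a * ((p * u) * (p * u)) = a * p * u * p * u := by ring
  rw [mul_add f, map_add, map_add, T.tau_mul_E, T.K_apply, T.K_apply, T.tau_mul_E, T.tau_mul_E,
    hh]
  simp only [form3, chfList, List.map_cons, List.map_nil, List.sum_cons, List.sum_nil, add_zero,
    hX.star_eq, map_mul T.emb, mul_assoc]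
  ring

lemma chf_EC_emb (p : C(Ω, ℝ)) : T.EC (T.emb p) = T.emb p := by
  rw [T.chf_EC_sa (T.emb_selfAdjoint p), T.E_emb]

lemma chfList_lim (f g a p : C(Ω, ℝ)) {X : M} (hX : IsSelfAdjoint X) :
    ((T.chfList f g a p X).map fun b => T.tr (b.1 * T.EC b.2.1 * b.2.2)).sum
      = T.tau (f * (T.K X (a * (p * p)) + T.K X (p * p * T.E X))
          + g * (p * p * (T.E X * T.E X))) := by
  have hEC : T.EC (X * T.emb p) = T.emb (p * T.E X) := by
    rw [frm_EC_mul_emb, T.chf_EC_sa hX, ← map_mul, mul_comm]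
  have e3 : T.tr (T.emb (g * p) * T.emb (p * T.E X) * X)
      = T.tau (g * (p * p * (T.E X * T.E X))) := by
    rw [← map_mul, ← T.tau_mul_E]
    congr 1
    ring
  have e4 : T.tr (T.emb f * X * T.emb p * T.emb (p * T.E X) * X)
      = T.tau (f * T.K X (p * p * T.E X)) := by
    rw [T.K_apply, T.tau_mul_E, hX.star_eq, mul_assoc (T.emb f * X) (T.emb p), ← map_mul,
      ← mul_assoc p p, mul_assoc (T.emb f), mul_assoc (T.emb f)]
  have e2 : T.tr (T.emb f * X * T.emb (a * p) * T.emb p * X) = T.tau (f * T.K X (a * (p * p))) := by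
    rw [T.K_apply, T.tau_mul_E, hX.star_eq, mul_assoc (T.emb f * X) (T.emb (a * p)), ← map_mul,
      mul_assoc a p p, mul_assoc (T.emb f), mul_assoc (T.emb f)]
  simp only [chfList, List.map_cons, List.map_nil, List.sum_cons, List.sum_nil,
    hEC, T.chf_EC_emb, e2, e3, e4, mul_add f, map_add]
  ring

/-- the terms of one sign are bounded by the mass and the linear action -/
lemma chfList_le (f g a : C(Ω, ℝ)) {p : C(Ω, ℝ)} (hp : ∀ y, |p y| ≤ 1) {X : M} (hX : 0 ≤ X)
    {c : ℝ} (hc : ‖f‖ * (‖a‖ + ‖X‖) + ‖g‖ * (1 + ‖X‖ ^ 2) ≤ c) (u : C(Ω, ℝ)) :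
    form3 T (T.chfList f g a p X) u u ≤ c * (T.tau (u * u) + T.tau (T.K X (u * u))) := by
  have hs : IsSelfAdjoint X := IsSelfAdjoint.of_nonneg hX
  rw [T.chfList_form f g a p hs, ← map_add, T.chf_smul_tau]
  refine T.tau_mono (ContinuousMap.le_def.2 fun ω => ?_)
  set v := p * u with hv
  set w := u * u with hw
  have hw0 : 0 ≤ w := fun y => mul_self_nonneg (u y)
  have hvw : v * v ≤ w := ContinuousMap.le_def.2 fun y => by
    show p y * u y * (p y * u y) ≤ u y * u y
    have h := (abs_le_one_iff_mul_self_le_one.1 (hp y))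
    calc p y * u y * (p y * u y) = p y * p y * (u y * u y) := by ring
      _ ≤ _ := mul_le_of_le_one_left (mul_self_nonneg _) h
  set Kw := T.K X w ω with hKw
  have hKw0 : 0 ≤ Kw := T.K_nonneg X hw0 ω
  have hK1 : |T.K X (a * (v * v)) ω| ≤ ‖a‖ * Kw := by
    have hb : ∀ y, |(a * (v * v)) y| ≤ ‖a‖ * w y := fun y => by
      have ha : |a y| ≤ ‖a‖ := a.norm_coe_le_norm y
      rw [ContinuousMap.mul_apply, abs_mul, ContinuousMap.mul_apply, abs_mul_self]
      exact mul_le_mul ha (hvw y) (mul_self_nonneg _) (norm_nonneg a)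
    have h1 := ContinuousMap.le_def.1 (T.K_mono X (f := a * (v * v)) (g := ‖a‖ • w)
      (ContinuousMap.le_def.2 fun y => (abs_le.1 (hb y)).2)) ω
    have h2 := ContinuousMap.le_def.1 (T.K_mono X (f := (-‖a‖) • w) (g := a * (v * v))
      (ContinuousMap.le_def.2 fun y => by
        have := (abs_le.1 (hb y)).1
        rw [ContinuousMap.smul_apply, smul_eq_mul]
        linarith)) ω
    rw [map_smul, ContinuousMap.smul_apply, smul_eq_mul, ← hKw] at h1 h2
    exact abs_le.2 ⟨by linarith, h1⟩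
  have hC : |T.E (X * T.emb v * X * T.emb v * X) ω| ≤ ‖X‖ * Kw := by
    rw [abs_of_nonneg (ContinuousMap.le_def.1 (T.E_XhXhX_nonneg hX v) ω)]
    exact (T.chf_cube_le hX v ω).trans
      (mul_le_mul_of_nonneg_left (T.K_mono X hvw ω) (norm_nonneg X))
  have hK2 : |v ω * T.K X v ω| ≤ w ω + ‖X‖ ^ 2 * Kw := by
    have h1 : T.K X v ω ^ 2 ≤ ‖X‖ ^ 2 * Kw :=
      (T.chf_K_sq_le hs v ω).trans (mul_le_mul (T.K_one_le le_rfl ω) (T.K_mono X hvw ω)
        (T.K_nonneg X (h := v * v) (fun y => mul_self_nonneg (v y)) ω) (sq_nonneg _))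
    have h2 : v ω * v ω ≤ w ω := hvw ω
    rw [abs_le]
    constructor <;>
      nlinarith [sq_nonneg (v ω + T.K X v ω), sq_nonneg (v ω - T.K X v ω)]
  have hf : |f ω| ≤ ‖f‖ := f.norm_coe_le_norm ω
  have hg : |g ω| ≤ ‖g‖ := g.norm_coe_le_norm ω
  simp only [ContinuousMap.add_apply, ContinuousMap.mul_apply, ContinuousMap.smul_apply,
    smul_eq_mul]
  have hw0' : 0 ≤ u ω * u ω := mul_self_nonneg _
  change f ω * (T.K X (a * (v * v)) ω + T.E (X * T.emb v * X * T.emb v * X) ω)
    + g ω * v ω * T.K X v ω ≤ c * (u ω * u ω + Kw)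
  have k1 : f ω * (T.K X (a * (v * v)) ω + T.E (X * T.emb v * X * T.emb v * X) ω)
      ≤ ‖f‖ * ((‖a‖ + ‖X‖) * Kw) := by
    refine (le_abs_self _).trans ?_
    rw [abs_mul]
    exact mul_le_mul hf ((abs_add_le _ _).trans (by linarith)) (abs_nonneg _) (norm_nonneg f)
  have k2 : g ω * v ω * T.K X v ω ≤ ‖g‖ * (u ω * u ω + ‖X‖ ^ 2 * Kw) := by
    rw [mul_assoc]
    refine (le_abs_self _).trans ?_
    rw [abs_mul]
    exact mul_le_mul hg hK2 (abs_nonneg _) (norm_nonneg g)
  have k3 := mul_le_mul_of_nonneg_right hc (add_nonneg hw0' hKw0)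
  have k4 : 0 ≤ ‖f‖ * (‖a‖ + ‖X‖) * (u ω * u ω) := by positivity
  have k5 : 0 ≤ ‖g‖ * ‖X‖ ^ 2 * (u ω * u ω) := by positivity
  have k6 : 0 ≤ ‖g‖ * Kw := by positivity
  linarith

variable (P : Params) (x : M)

/-- the form of the second order of one channel, corrected by the loss -/
lemma chf_main {S : Smalls} {st : TSt M Ω P.r} {N : Fin P.r → Bool → M}
    (C : T.Ctx P x S st N) (i : Fin P.r) (on d : C(Ω, ℝ)) {k : ℕ} (Sg : GOp T Unit (Fin k))
    (hon : ∀ ω, 0 ≤ on ω ∧ on ω ≤ 1) (hon1 : ∀ ω, on ω ≠ 0 → T.ActGood P x st N i ω)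
    (hS : OpBd Sg.ker 1) (hd : ∀ ω, 0 ≤ d ω)
    (hsum : ∀ᶠ Q : Part Ω in atTop, ∀ ω,
      ∑ j, ∑ e, (Sg.app (Pi.single j (Q.e e)) () ω) ^ 2 = 1 - d ω)
    {η : ℝ} (hη : 0 < η) :
    ∀ᶠ Q : Part Ω in atTop,
      pieceSum Q (fun u => -T.tau (T.Lam P x S st
            * (T.Jch P x st N i (gam P st i
                * ((T.pF P x st on i * Sg.app u ()) * (T.pF P x st on i * Sg.app u ())))
              + T.Fq P x st N i (T.pF P x st on i * Sg.app u ()))))
          - T.tau (T.Lam P x S st * (T.Jch P x st N i (T.drift P x st i (T.DF P x st on i))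
              + P.rho S.γ • (cphi2 (st.sig i) * T.Bch P x st N i)))
        ≤ P.kap * T.tau (T.Lam P x S st * d)
          - P.kap / 12 * T.tau (T.Lam P x S st * (on * on * spX P st i)) + η := by
  set Λ := T.Lam P x S st with hΛ
  set f := Λ * cphi2 (st.sig i) with hf
  set g := Λ * comp1 Two.dphi (st.sig i) with hg
  set a := gam P st i with ha
  set p := T.pF P x st on i with hpdef
  set D := T.DF P x st on i with hDdef
  set lc := T.lcF P x st i with hlc
  have hpp : p * p = D := by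
    rw [hpdef, hDdef, pF, DF, mul_mul_mul_comm]
  have hp1 : ∀ y, |p y| ≤ 1 := fun y => by
    obtain ⟨h0, h1⟩ := wF_bounds (T := T) (x := x) (st := st) C.ok i y
    rw [hpdef, pF, ContinuousMap.mul_apply, abs_mul, abs_of_pos h0, abs_of_nonneg (hon y).1]
    exact mul_le_one₀ (hon y).2 h0.le h1
  have hsupp : ∀ y, p y ≠ 0 → T.ActGood P x st N i y := fun y hy =>
    hon1 y fun h0 => hy (by simp [hpdef, pF, h0])
  have hlD : lc * D = P.kap • (on * on) := by
    ext y
    simp only [hlc, hDdef, DF, ContinuousMap.mul_apply, ContinuousMap.smul_apply, smul_eq_mul]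
    rw [mul_left_comm, lcF_mul_wF C.ok, mul_comm]
  set c0 := Λ * (lc - (T.cch P x st i * a
    + (comp1 (Two.hpsiC P.ε) (st.sig i) + (2 : ℝ) • T.Asum P x st i))) with hc0
  set X := T.Xb P x st N i with hX
  have hX0 : ∀ s, 0 ≤ X s := fun s => C.Xb_nonneg i s
  have hXs : ∀ s, IsSelfAdjoint (X s) := fun s => C.Xb_sa i s
  set F : List (M × M × M) := (T.emb (c0 * p), T.emb p, 1) ::
    (T.chfList f g a p (X true) ++ T.chfList f g a p (X false)) with hFd
  have hF : ∀ u, form3 T F u u = T.tau (Λ * (lc * ((p * u) * (p * u))))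
      - T.tau (Λ * (T.Jch P x st N i (a * ((p * u) * (p * u))) + T.Fq P x st N i (p * u))) := by
    intro u
    have e : form3 T F u u = T.tau (c0 * ((p * u) * (p * u)))
        + (form3 T (T.chfList f g a p (X true)) u u
          + form3 T (T.chfList f g a p (X false)) u u) := by
      simp only [hFd, form3, List.map_cons, List.map_append, List.sum_cons, List.sum_append,
        mul_one, tau_apply]
      simp only [← map_mul, mul_assoc]
    rw [e, T.chfList_form f g a p (hXs true), T.chfList_form f g a p (hXs false),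
      ← map_add, ← map_add, ← map_sub]
    congr 1
    ext ω
    simp only [hc0, hf, hg, hX, ha, Jch, Fq, Kch, Cch, ContinuousMap.add_apply,
      ContinuousMap.sub_apply, ContinuousMap.mul_apply, ContinuousMap.smul_apply,
      LinearMap.add_apply, smul_eq_mul]
    ring
  set cg : ℝ := ‖c0‖ + ∑ s : Bool, (‖f‖ * (‖a‖ + ‖X s‖) + ‖g‖ * (1 + ‖X s‖ ^ 2)) with hcg
  set G : C(Ω, ℝ) →ₗ[ℝ] ℝ :=
    cg • ((3 : ℝ) • T.tau + T.tau.comp (T.K (X true)) + T.tau.comp (T.K (X false))) with hGd
  have hcg0 : 0 ≤ cg := by positivity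
  have hG : ∀ w, 0 ≤ w → 0 ≤ G w := fun w hw => by
    simp only [hGd, LinearMap.smul_apply, LinearMap.add_apply, LinearMap.comp_apply, smul_eq_mul]
    have h1 := T.tau_nonneg hw
    have h2 := T.tau_nonneg (T.K_nonneg (X true) hw)
    have h3 := T.tau_nonneg (T.K_nonneg (X false) hw)
    positivity
  have hΛ0 : ∀ ω, 0 ≤ Λ ω := fun ω => (C.Lam_bounds ω).1
  have hbd : ∀ u, 0 ≤ form3 T F u u ∧ form3 T F u u ≤ G (u * u) := fun u => by
    refine ⟨?_, ?_⟩
    · rw [hF, sub_nonneg]
      refine T.tau_mono (ContinuousMap.le_def.2 fun ω => ?_)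
      have h := T.lossSpec P x S st N C i (p * u) (fun y hy =>
        hsupp y fun h0 => hy (by simp [h0])) ω
      simp only [ContinuousMap.mul_apply, ContinuousMap.add_apply] at h ⊢
      refine mul_le_mul_of_nonneg_left (h.trans (le_of_eq ?_)) (hΛ0 ω)
      rw [← hlc, sq]
    · have e : form3 T F u u = form3 T [(T.emb (c0 * p), T.emb p, 1)] u u
          + (form3 T (T.chfList f g a p (X true)) u u
            + form3 T (T.chfList f g a p (X false)) u u) := by
        simp [hFd, form3]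
      have e1 : form3 T [(T.emb (c0 * p), T.emb p, 1)] u u ≤ ‖c0‖ * T.tau (u * u) := by
        simp only [form3, List.map_cons, List.map_nil, List.sum_cons, List.sum_nil, add_zero,
          mul_one, ← map_mul, ← tau_apply]
        rw [T.chf_smul_tau]
        refine T.tau_mono (ContinuousMap.le_def.2 fun ω => ?_)
        simp only [ContinuousMap.mul_apply, ContinuousMap.smul_apply, smul_eq_mul]
        have h1 : c0 ω ≤ ‖c0‖ := (le_abs_self _).trans (c0.norm_coe_le_norm ω)
        calc c0 ω * p ω * u ω * p ω * u ω = c0 ω * (p ω * p ω * (u ω * u ω)) := by ring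
          _ ≤ ‖c0‖ * (p ω * p ω * (u ω * u ω)) :=
              mul_le_mul_of_nonneg_right h1 (mul_nonneg (mul_self_nonneg _) (mul_self_nonneg _))
          _ ≤ _ := mul_le_mul_of_nonneg_left (mul_le_of_le_one_left (mul_self_nonneg _)
              (abs_le_one_iff_mul_self_le_one.1 (hp1 ω))) (norm_nonneg _)
      have hb : ∀ s, form3 T (T.chfList f g a p (X s)) u u
          ≤ cg * (T.tau (u * u) + T.tau (T.K (X s) (u * u))) := fun s => by
        refine T.chfList_le f g a hp1 (hX0 s) ?_ u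
        rw [hcg, Fintype.sum_bool]
        have h1 : 0 ≤ ‖f‖ * (‖a‖ + ‖X true‖) + ‖g‖ * (1 + ‖X true‖ ^ 2) := by positivity
        have h2 : 0 ≤ ‖f‖ * (‖a‖ + ‖X false‖) + ‖g‖ * (1 + ‖X false‖ ^ 2) := by positivity
        cases s <;> linarith [norm_nonneg c0]
      have h1 : ‖c0‖ * T.tau (u * u) ≤ cg * T.tau (u * u) := by
        refine mul_le_mul_of_nonneg_right ?_ (T.tau_nonneg fun ω => mul_self_nonneg (u ω))
        rw [hcg]
        exact le_add_of_nonneg_right (Finset.sum_nonneg fun s _ => by positivity)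
      simp only [hGd, LinearMap.smul_apply, LinearMap.add_apply, LinearMap.comp_apply,
        smul_eq_mul]
      linarith [hb true, hb false]
  have hL : (F.map fun b => T.tr (b.1 * T.EC b.2.1 * b.2.2)).sum
      = T.tau (Λ * (lc * D)) - T.tau (Λ * T.gainFun P x st N (P.rho S.γ) i D)
        + T.tau (Λ * (T.Jch P x st N i (T.drift P x st i D)
          + P.rho S.γ • (cphi2 (st.sig i) * T.Bch P x st N i))) := by
    simp only [hFd, List.map_cons, List.map_append, List.sum_cons, List.sum_append,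
      T.chfList_lim f g a p (hXs true), T.chfList_lim f g a p (hXs false), T.chf_EC_emb,
      mul_one, hpp]
    rw [← map_mul, ← tau_apply, mul_assoc c0, hpp]
    simp only [← map_add, ← map_sub]
    congr 1
    ext ω
    simp only [hc0, hf, hg, hX, ha, gainFun, drift, Jch, Kch, map_add, map_sub, map_neg,
      ContinuousMap.add_apply, ContinuousMap.sub_apply, ContinuousMap.mul_apply,
      ContinuousMap.smul_apply, ContinuousMap.neg_apply,
      LinearMap.add_apply, smul_eq_mul]
    ring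
  have hD01 : ∀ y, 0 ≤ D y ∧ D y ≤ 1 := fun y => by
    rw [← hpp]
    exact ⟨mul_self_nonneg _, abs_le_one_iff_mul_self_le_one.1 (hp1 y)⟩
  have hDs : ∀ y, D y ≠ 0 → T.ActGood P x st N i y := fun y hy =>
    hsupp y fun h0 => hy (by rw [← hpp]; simp [h0])
  have hgain : P.kap / 12 * T.tau (Λ * (on * on * spX P st i))
      ≤ T.tau (Λ * T.gainFun P x st N (P.rho S.γ) i D) := by
    rw [T.chf_smul_tau]
    refine T.tau_mono (ContinuousMap.le_def.2 fun ω => ?_)
    have h := mul_le_mul_of_nonneg_left ((T.gainSpec P x S st N C i D hD01 hDs).1 ω) (hΛ0 ω)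
    simp only [ContinuousMap.mul_apply, ContinuousMap.smul_apply, smul_eq_mul]
    refine le_trans (le_of_eq ?_) h
    simp only [hDdef, DF, ContinuousMap.mul_apply]
    rw [wF_sq C.ok]
    have := (dnF_ge (T := T) (x := x) (st := st) C.ok i ω).2.ne'
    field_simp
  have hdle : T.tau (Λ * (on * on) * d) ≤ T.tau (Λ * d) := by
    refine T.tau_mono (ContinuousMap.le_def.2 fun ω => ?_)
    simp only [ContinuousMap.mul_apply]
    exact mul_le_mul_of_nonneg_right
      (mul_le_of_le_one_right (hΛ0 ω) (mul_le_one₀ (hon ω).2 (hon ω).1 (hon ω).2)) (hd ω)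
  filter_upwards [T.chf_form_le F G hG hbd hL Sg hS hη, hsum] with Q hQ hQ2
  have e2 : ∑ j, ∑ e, T.tau (Λ * (lc * ((p * Sg.app (Pi.single j (Q.e e)) ())
      * (p * Sg.app (Pi.single j (Q.e e)) ()))))
      = P.kap * (T.tau (Λ * (on * on)) - T.tau (Λ * (on * on) * d)) := by
    rw [← map_sub, show Λ * (on * on) - Λ * (on * on) * d = Λ * (on * on) * (1 - d) by ring, T.chf_smul_tau,
      ← smul_mul_assoc, ← mul_smul_comm, ← hlD, ← hpp]
    refine Eq.trans ?_ (T.chf_sum_tau_sq (Λ * (lc * (p * p))) (1 - d)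
      (fun j e => Sg.app (Pi.single j (Q.e e)) ()) fun ω => by simpa using hQ2 ω)
    refine Finset.sum_congr rfl fun j _ => Finset.sum_congr rfl fun e _ => ?_
    congr 1
    ring
  have e3 : T.tau (Λ * (lc * D)) = P.kap * T.tau (Λ * (on * on)) := by
    rw [hlD, mul_smul_comm, map_smul, smul_eq_mul]
  simp only [hF, Finset.sum_sub_distrib, e2] at hQ
  simp only [pieceSum, Finset.sum_neg_distrib]
  rw [e3] at hQ
  have := mul_le_mul_of_nonneg_left hdle (kap_pos C.ok).le
  linarith

/-- the quadratic action of one channel -/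
lemma chf_cube {S : Smalls} {st : TSt M Ω P.r} {N : Fin P.r → Bool → M}
    (C : T.Ctx P x S st N) (i : Fin P.r) (on : C(Ω, ℝ)) {k : ℕ} (Sg : GOp T Unit (Fin k))
    (hon : ∀ ω, 0 ≤ on ω ∧ on ω ≤ 1) (hon1 : ∀ ω, on ω ≠ 0 → T.ActGood P x st N i ω)
    (hS : OpBd Sg.ker 1) {η : ℝ} (hη : 0 < η) :
    ∀ᶠ Q : Part Ω in atTop,
      pieceSum Q (fun u => T.tau (T.Cch P x st N i (T.pF P x st on i * Sg.app u ())))
        ≤ T.tau (T.Kch P x st N i (T.beta P x st i * T.DF P x st on i)) + η := by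
  set p := T.pF P x st on i with hpdef
  set D := T.DF P x st on i with hDdef
  have hpp : p * p = D := by
    rw [hpdef, hDdef, pF, DF, mul_mul_mul_comm]
  have hp1 : ∀ y, |p y| ≤ 1 := fun y => by
    obtain ⟨h0, h1⟩ := wF_bounds (T := T) (x := x) (st := st) C.ok i y
    rw [hpdef, pF, ContinuousMap.mul_apply, abs_mul, abs_of_pos h0, abs_of_nonneg (hon y).1]
    exact mul_le_one₀ (hon y).2 h0.le h1
  have hD01 : ∀ y, 0 ≤ D y ∧ D y ≤ 1 := fun y => by
    rw [← hpp]
    exact ⟨mul_self_nonneg _, abs_le_one_iff_mul_self_le_one.1 (hp1 y)⟩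
  have hDs : ∀ y, D y ≠ 0 → T.ActGood P x st N i y := fun y hy =>
    hon1 y fun h0 => hy (by simp [hDdef, DF, h0])
  set X := T.Xb P x st N i with hX
  have hX0 : ∀ s, 0 ≤ X s := fun s => C.Xb_nonneg i s
  have hXs : ∀ s, IsSelfAdjoint (X s) := fun s => C.Xb_sa i s
  set F : List (M × M × M) := [(X true * T.emb p, X true * T.emb p, X true),
    (X false * T.emb p, X false * T.emb p, X false)] with hFd
  have hF : ∀ u, form3 T F u u = T.tau (T.Cch P x st N i (p * u)) := fun u => by
    simp only [hFd, form3, List.map_cons, List.map_nil, List.sum_cons, List.sum_nil, add_zero,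
      Cch, map_add T.tau, tau_E, ← hX, map_mul T.emb, mul_assoc]
  set G : C(Ω, ℝ) →ₗ[ℝ] ℝ :=
    ‖X true‖ • T.tau.comp (T.K (X true)) + ‖X false‖ • T.tau.comp (T.K (X false)) with hGd
  have hG : ∀ w, 0 ≤ w → 0 ≤ G w := fun w hw => by
    simp only [hGd, LinearMap.smul_apply, LinearMap.add_apply, LinearMap.comp_apply, smul_eq_mul]
    exact add_nonneg (mul_nonneg (norm_nonneg _) (T.tau_nonneg (T.K_nonneg _ hw)))
      (mul_nonneg (norm_nonneg _) (T.tau_nonneg (T.K_nonneg _ hw)))
  have hbd : ∀ u, 0 ≤ form3 T F u u ∧ form3 T F u u ≤ G (u * u) := fun u => by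
    rw [hF]
    refine ⟨T.tau_nonneg (add_nonneg (T.E_XhXhX_nonneg (hX0 true) _)
      (T.E_XhXhX_nonneg (hX0 false) _)), ?_⟩
    simp only [hGd, LinearMap.smul_apply, LinearMap.add_apply, LinearMap.comp_apply, smul_eq_mul]
    rw [T.chf_smul_tau, T.chf_smul_tau, ← map_add]
    refine T.tau_mono (ContinuousMap.le_def.2 fun ω => ?_)
    simp only [Cch, ContinuousMap.add_apply, ContinuousMap.smul_apply, smul_eq_mul, ← hX]
    have hvw : p * u * (p * u) ≤ u * u := ContinuousMap.le_def.2 fun y => by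
      show p y * u y * (p y * u y) ≤ u y * u y
      calc p y * u y * (p y * u y) = p y * p y * (u y * u y) := by ring
        _ ≤ _ := mul_le_of_le_one_left (mul_self_nonneg _)
            (abs_le_one_iff_mul_self_le_one.1 (hp1 y))
    exact add_le_add
      ((T.chf_cube_le (hX0 true) _ ω).trans
        (mul_le_mul_of_nonneg_left (T.K_mono _ hvw ω) (norm_nonneg _)))
      ((T.chf_cube_le (hX0 false) _ ω).trans
        (mul_le_mul_of_nonneg_left (T.K_mono _ hvw ω) (norm_nonneg _)))
  have hEC : ∀ s, T.tr (X s * T.emb p * T.EC (X s * T.emb p) * X s)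
      = T.tau (T.K (X s) (D * T.E (X s))) := fun s => by
    rw [frm_EC_mul_emb, T.chf_EC_sa (hXs s), ← map_mul, mul_assoc (X s), ← map_mul,
      T.K_apply, T.tau_E, (hXs s).star_eq, mul_left_comm p, hpp, mul_comm (T.E (X s))]
  filter_upwards [T.chf_form_le F G hG hbd rfl Sg hS hη] with Q hQ
  simp only [hF] at hQ
  refine hQ.trans (add_le_add ?_ le_rfl)
  simp only [hFd, List.map_cons, List.map_nil, List.sum_cons, List.sum_nil, add_zero, hEC,
    Kch, LinearMap.add_apply, map_add T.tau, ← hX]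
  have hle : ∀ s, D * T.E (X s) ≤ T.beta P x st i * D := fun s => by
    rw [mul_comm (T.beta P x st i)]
    exact ContinuousMap.le_def.2 ((T.gainSpec P x S st N C i D hD01 hDs).2 s)
  exact add_le_add (T.tau_mono (T.K_mono _ (hle true))) (T.tau_mono (T.K_mono _ (hle false)))

/-- the part of a perturbation outside a thin band is small on the images of pieces -/
lemma chf_offv (hx : IsSelfAdjoint x) (hx1 : ‖x‖ ≤ 1) {η : ℝ} (hη : 0 < η) :
    ∃ dd : ℝ, 0 < dd ∧
    ∀ (s : Bool) (N : M), IsStarProjection N → T.tr (vpm x s * (1 - N) * vpm x s) ≤ dd →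
      ∀ (p : C(Ω, ℝ)) {k : ℕ} (Sg : GOp T Unit (Fin k)), (∀ ω, |p ω| ≤ 1) → OpBd Sg.ker 1 →
        (∀ᶠ Q : Part Ω in atTop, ∀ ω, ∑ j, ∑ e, (Sg.app (Pi.single j (Q.e e)) () ω) ^ 2 ≤ 1) →
        ∀ᶠ Q : Part Ω in atTop,
          pieceSum Q (fun u => T.n2 (T.offv (vpm x s) N (p * Sg.app u ())) ^ 2) ≤ η := by
  choose d hd hsm using fun s : Bool =>
    T.small (vpm x s * vpm x s) (η / 8) (by linarith)
  refine ⟨min (min (d true) (d false)) (η / 4),
    lt_min (lt_min (hd true) (hd false)) (by linarith), ?_⟩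
  intro s N hN htr p k Sg hp hS hsum
  obtain ⟨hv, hv1, hvv⟩ := vpm_facts hx hx1 s
  set v := vpm x s with hvdef
  set Q0 := v * (1 - N) * v with hQ0d
  have hQ0 : 0 ≤ Q0 := hv.conjugate_nonneg hN.one_sub.nonneg
  have hQ1 : Q0 ≤ 1 := by
    refine (hv.conjugate_le_conjugate hN.one_sub.le_one).trans ?_
    rw [mul_one, hvv]
    exact TMasa.ypm_le_one hx hx1 s
  have hQs : IsSelfAdjoint Q0 := IsSelfAdjoint.of_nonneg hQ0
  have hvvs : IsSelfAdjoint (v * v) := (hv.commute_iff hv).1 (Commute.refl v)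
  have hQd : T.tr Q0 ≤ d s := by
    cases s
    · exact htr.trans ((min_le_left _ _).trans (min_le_right _ _))
    · exact htr.trans ((min_le_left _ _).trans (min_le_left _ _))
  set F : List (M × M × M) := [(v * v * T.emb p, Q0 * T.emb p, v * v)] with hFd
  have hF : ∀ u, form3 T F u u
      = T.tr (v * v * (T.emb (p * u) * Q0 * T.emb (p * u)) * (v * v)) := fun u => by
    simp [hFd, form3, map_mul T.emb, mul_assoc]
  have hbd : ∀ u, 0 ≤ form3 T F u u ∧ form3 T F u u ≤ (T.tau.comp (T.K (v * v))) (u * u) :=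
    fun u => by
    rw [hF]
    refine ⟨T.tr_nonneg (hvvs.conjugate_nonneg ((T.emb_selfAdjoint _).conjugate_nonneg hQ0)), ?_⟩
    rw [LinearMap.comp_apply, T.K_apply, T.tau_E, hvvs.star_eq]
    refine T.tr_mono (hvvs.conjugate_le_conjugate ?_)
    refine ((T.emb_selfAdjoint _).conjugate_le_conjugate hQ1).trans ?_
    rw [mul_one, ← map_mul]
    refine T.emb_mono (ContinuousMap.le_def.2 fun y => ?_)
    show p y * u y * (p y * u y) ≤ u y * u y
    calc p y * u y * (p y * u y) = p y * p y * (u y * u y) := by ring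
      _ ≤ _ := mul_le_of_le_one_left (mul_self_nonneg _)
          (abs_le_one_iff_mul_self_le_one.1 (hp y))
  have hlim : (F.map fun a => T.tr (a.1 * T.EC a.2.1 * a.2.2)).sum ≤ η / 8 := by
    have hy0 : 0 ≤ p * p * T.E Q0 := fun y => mul_nonneg (mul_self_nonneg (p y)) (T.E_nonneg hQ0 y)
    have hy1 : p * p * T.E Q0 ≤ T.E Q0 :=
      fun y => mul_le_of_le_one_left (T.E_nonneg hQ0 y)
        (abs_le_one_iff_mul_self_le_one.1 (hp y))
    have h1 : p * p * T.E Q0 ≤ 1 := hy1.trans (T.E_one ▸ T.E_mono hQ1)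
    have h := hsm s (T.emb (p * p * T.E Q0)) (T.emb_nonneg hy0) (map_one T.emb ▸ T.emb_mono h1)
      ((T.tau_mono hy1).trans ((T.tau_E Q0).trans_le hQd))
    simp only [← hvdef, hvvs.star_eq] at h
    refine le_trans (le_of_eq ?_) h
    simp only [hFd, List.map_cons, List.map_nil, List.sum_cons, List.sum_nil, add_zero,
      frm_EC_mul_emb, T.chf_EC_sa hQs]
    rw [mul_assoc (v * v) (T.emb p), ← map_mul, ← map_mul, mul_comm (T.E Q0), mul_assoc p p]
  have hQQ : T.tr (Q0 * Q0) ≤ T.tr Q0 := by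
    refine T.tr_mono ?_
    have hc := (Commute.refl Q0).sub_right (Commute.one_right Q0)
    have h := ((Commute.one_right Q0).sub_right (Commute.refl Q0)).mul_nonneg hQ0
      (sub_nonneg.2 hQ1)
    rwa [mul_sub, mul_one, sub_nonneg] at h
  filter_upwards [T.chf_form_le F (T.tau.comp (T.K (v * v)))
    (fun w hw => T.tau_nonneg (T.K_nonneg _ hw)) hbd rfl Sg hS
    (show 0 < η / 8 by linarith), hsum] with Q hQ hQ2
  have hsq : ∀ f : C(Ω, ℝ), T.n2 (T.offv v N f) ^ 2
      ≤ 2 * T.tr (v * v * (T.emb f * Q0 * T.emb f) * (v * v)) + 2 * T.tau (T.K Q0 (f * f)) :=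
    fun f => by
    rw [T.offv_eq]
    refine (pow_le_pow_left₀ (T.n2_nonneg _) (T.n2_add _ _) 2).trans ?_
    have a1 : T.n2 ((1 - N) * (v * T.emb f * (v * v))) ^ 2
        = T.tr (v * v * (T.emb f * Q0 * T.emb f) * (v * v)) := by
      rw [T.n2_sq, ip]
      congr 1
      have e : (1 - N) * (1 - N) = 1 - N := hN.one_sub.isIdempotentElem.eq
      simp only [star_mul, hN.one_sub.isSelfAdjoint.star_eq, hv.star_eq, T.star_emb, hQ0d,
        mul_assoc]
      rw [← mul_assoc (1 - N) (1 - N), e]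
    have a2 : T.n2 (N * (v * T.emb f * Q0)) ^ 2 ≤ T.tau (T.K Q0 (f * f)) := by
      have b1 : T.n2 (N * (v * T.emb f * Q0)) ≤ T.n2 (T.emb f * Q0) := by
        refine (T.n2_mul_left _ _).trans
          ((mul_le_of_le_one_left (T.n2_nonneg _) (proj_norm_le hN)).trans ?_)
        rw [mul_assoc]
        exact (T.n2_mul_left _ _).trans (mul_le_of_le_one_left (T.n2_nonneg _) hv1)
      refine (pow_le_pow_left₀ (T.n2_nonneg _) b1 2).trans (le_of_eq ?_)
      rw [T.n2_sq, ip, T.K_apply, T.tau_E, hQs.star_eq, star_mul, hQs.star_eq, T.star_emb,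
        map_mul T.emb]
      simp only [mul_assoc]
    nlinarith [sq_nonneg (T.n2 ((1 - N) * (v * T.emb f * (v * v)))
      - T.n2 (N * (v * T.emb f * Q0)))]
  have h2 : ∑ j, ∑ e, T.tau (T.K Q0 ((p * Sg.app (Pi.single j (Q.e e)) ())
      * (p * Sg.app (Pi.single j (Q.e e)) ()))) ≤ η / 4 := by
    simp only [← map_sum]
    refine (T.tau_mono (T.K_mono Q0 (g := 1) (ContinuousMap.le_def.2 fun ω => ?_))).trans ?_
    · simp only [ContinuousMap.sum_apply, ContinuousMap.mul_apply, ContinuousMap.one_apply]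
      refine le_trans (Finset.sum_le_sum fun j _ => Finset.sum_le_sum fun e _ => ?_) (hQ2 ω)
      calc p ω * Sg.app (Pi.single j (Q.e e)) () ω * (p ω * Sg.app (Pi.single j (Q.e e)) () ω)
          = p ω * p ω * Sg.app (Pi.single j (Q.e e)) () ω ^ 2 := by ring
        _ ≤ _ := mul_le_of_le_one_left (sq_nonneg _)
            (abs_le_one_iff_mul_self_le_one.1 (hp ω))
    · rw [T.K_apply, T.tau_E, map_one, mul_one, hQs.star_eq]
      exact hQQ.trans (htr.trans (min_le_right _ _))
  simp only [hF] at hQ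
  unfold pieceSum
  refine (Finset.sum_le_sum fun j _ => Finset.sum_le_sum fun e _ => hsq _).trans ?_
  simp only [Finset.sum_add_distrib, ← Finset.mul_sum]
  linarith

/-- the three quadratic forms of one channel, summed over pieces -/
theorem chanFormSpec : T.ChanFormSpec P x :=
  ⟨fun _ _ _ C i on d _ Sg hon hon1 hS hd hsum _ hη =>
      (T.chf_main P x C i on d Sg hon hon1 hS hd hsum hη).and
        (T.chf_cube P x C i on Sg hon hon1 hS hη),
    fun hx hx1 _ hη => T.chf_offv x hx hx1 hη⟩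

end SMasa

end Vale.Agent.P078.T3
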