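import Mathlib
import Vale.Agent.P078.Type3.Step.Formal
import Vale.Agent.P078.Type3.Step.Setup
import Vale.Agent.P078.Type3.Comp.Sum

/-! A finite Neumann series gives weights with bounded column sums outside a small set. -/

noncomputable section

open scoped ComplexOrder
open Classical

set_option linter.unusedSectionVars false

namespace Vale.Agent.P078.T3

universe u v

variable {M : Type u} [CStarAlgebra M] [PartialOrder M] [StarOrderedRing M]
  {Ω : Type v} [TopologicalSpace Ω] [CompactSpace Ω] [T2Space Ω] {T : SMasa M Ω}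

lemma app1_sum (K : GOp T Unit Unit) (F : ℕ → C(Ω, ℝ)) (n : ℕ) :
    K.app1 (∑ k ∈ Finset.range n, F k) = ∑ k ∈ Finset.range n, K.app1 (F k) := by
  ext b
  rw [GOp.app1_apply, ContinuousMap.sum_apply]
  simp only [GOp.app1_apply, ContinuousMap.sum_apply, Finset.mul_sum]
  exact Comp.lsum_finset _ _ _

/-- weights with bounded column sums outside a small set -/
theorem freeze_exists (C0 : GOp T Unit Unit) (hC : ∀ t ∈ C0, 0 ≤ t.coef) (on ψ Λ : C(Ω, ℝ))
    {μ lo hi : ℝ} (hon : on * on = on) (hμ : 0 < μ) (hlo : 0 < lo) (hψ : ∀ ω, lo ≤ ψ ω)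
    (hhi : ∀ ω, on ω = 1 → ψ ω ≤ hi) (hΛ : ∀ ω, 0 ≤ Λ ω ∧ Λ ω ≤ 2)
    (hμΛ : ∀ ω, on ω = 1 → μ ≤ Λ ω)
    (hrow : ∀ b, C0.wgt.app1 (Λ * on * ψ) b ≤ on b * ψ b * Λ b) (n : ℕ) :
    ∃ η X : C(Ω, ℝ), (∀ ω, 1 ≤ η ω) ∧ X * X = X ∧
      T.tau X ≤ (1 / 64) ^ n * (2 * hi ^ 2 / (μ * lo ^ 2)) ∧
      (∀ a, on a = 1 → X a = 0 → C0.tp.app1 (ψ * η) a ≤ 64 * (ψ a * η a)) ∧
      T.tau (Λ * on * (ψ * ψ) * η) ≤ 64 / 63 * T.tau (Λ * on * (ψ * ψ)) := by
  let ψi : C(Ω, ℝ) :=
    ⟨fun ω => (ψ ω)⁻¹, ψ.continuous.inv₀ fun ω => (hlo.trans_le (hψ ω)).ne'⟩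
  have hψ0 : ∀ ω, 0 < ψ ω := fun ω => hlo.trans_le (hψ ω)
  set Mo : C(Ω, ℝ) → C(Ω, ℝ) := fun f => on * ψi * C0.tp.app1 (ψ * f) with hMo
  let R : ℕ → C(Ω, ℝ) := fun k => Nat.rec (1 : C(Ω, ℝ)) (fun _ f => (1 / 64 : ℝ) • Mo f) k
  have hR0 : R 0 = 1 := rfl
  have hRs : ∀ k, R (k + 1) = (1 / 64 : ℝ) • Mo (R k) := fun k => rfl
  have hCt : ∀ t ∈ C0.tp, 0 ≤ t.coef := fun t ht b => by
    obtain ⟨s, hs, rfl⟩ := List.mem_map.1 ht
    show (0 : ℝ) ≤ s.coef (s.g.toRan b)
    exact hC s hs (s.g.toRan b)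
  have happ : ∀ f : C(Ω, ℝ), 0 ≤ f → ∀ a, 0 ≤ C0.tp.app1 (ψ * f) a := fun f hf a => by
    rw [GOp.app1_apply]
    refine Comp.lsum_nonneg fun t ht => ?_
    exact mul_nonneg (mul_nonneg (hCt t ht a) (idem_nonneg t.g.ran_idem a))
      (mul_nonneg (hψ0 _).le (hf _))
  have hR : ∀ k, 0 ≤ R k := by
    intro k
    induction k with
    | zero => exact fun ω => zero_le_one
    | succ k ih =>
      intro ω
      rw [hRs]
      exact mul_nonneg (by norm_num) (mul_nonneg (mul_nonneg (idem_nonneg hon ω)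
        (inv_pos.2 (hψ0 ω)).le) (happ _ ih ω))
  set g := Λ * on * (ψ * ψ) with hg
  have hg0 : ∀ ω, 0 ≤ g ω := fun ω =>
    mul_nonneg (mul_nonneg (hΛ ω).1 (idem_nonneg hon ω)) (mul_self_nonneg _)
  have hstep : ∀ f : C(Ω, ℝ), 0 ≤ f → T.tau (g * Mo f) ≤ T.tau (g * f) := by
    intro f hf
    have e : g * Mo f = Λ * on * ψ * C0.tp.app1 (ψ * f) := by
      ext ω
      simp only [hg, hMo, ψi, ContinuousMap.mul_apply, ContinuousMap.coe_mk]
      have := (hψ0 ω).ne'
      rcases idem_zero_or_one hon ω with h | h <;> rw [h]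
      · ring
      · field_simp
    rw [e, GOp.tau_mul_app1, GOp.app1_wgt_tp_tp]
    refine T.tau_mono (ContinuousMap.le_def.2 fun ω => ?_)
    simp only [hg, ContinuousMap.mul_apply]
    calc ψ ω * f ω * C0.wgt.app1 (Λ * on * ψ) ω ≤ ψ ω * f ω * (on ω * ψ ω * Λ ω) :=
          mul_le_mul_of_nonneg_left (hrow ω) (mul_nonneg (hψ0 ω).le (hf ω))
      _ = _ := by ring
  have hdec : ∀ k, T.tau (g * R k) ≤ (1 / 64) ^ k * T.tau g := by
    intro k
    induction k with
    | zero => rw [hR0, mul_one, pow_zero, one_mul]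
    | succ k ih =>
      rw [hRs, mul_smul_comm, map_smul, smul_eq_mul, pow_succ', mul_assoc (1 / 64 : ℝ)]
      exact mul_le_mul_of_nonneg_left ((hstep _ (hR k)).trans ih)
        (show (0 : ℝ) ≤ 1 / 64 by norm_num)
  set η := ∑ k ∈ Finset.range (n + 1), R k with hη
  have hτg : 0 ≤ T.tau g := T.tau_nonneg fun ω => hg0 ω
  refine ⟨η, T.pos (R (n + 1) - 1) * on, fun ω => ?_, ?_, ?_, fun a ha hX => ?_, ?_⟩
  · rw [hη, ContinuousMap.sum_apply, Finset.sum_range_succ']
    exact le_add_of_nonneg_left (Finset.sum_nonneg fun k _ => hR (k + 1) ω)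
  · exact SMasa.mul_idem (T.pos_mul_self _) hon
  · set X := T.pos (R (n + 1) - 1) * on with hXdef
    have h1 : T.tau ((μ * lo ^ 2) • X) ≤ T.tau (g * R (n + 1)) := by
      refine T.tau_mono (ContinuousMap.le_def.2 fun ω => ?_)
      simp only [ContinuousMap.smul_apply, smul_eq_mul, hXdef, ContinuousMap.mul_apply]
      rcases idem_zero_or_one (T.pos_mul_self (R (n + 1) - 1)) ω with h | h
      · rw [h, zero_mul, mul_zero]; exact mul_nonneg (hg0 ω) (hR (n + 1) ω)
      rcases idem_zero_or_one hon ω with ho | ho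
      · rw [ho, mul_zero, mul_zero]; exact mul_nonneg (hg0 ω) (hR (n + 1) ω)
      have h2 := T.nonneg_of_pos_eq_one h
      simp only [ContinuousMap.sub_apply, ContinuousMap.one_apply] at h2
      rw [h, ho, mul_one, mul_one]
      refine le_trans ?_ (le_mul_of_one_le_right (hg0 ω) (by linarith))
      simp only [hg, ContinuousMap.mul_apply, ho, mul_one, ← sq]
      exact mul_le_mul (hμΛ ω ho) (pow_le_pow_left₀ hlo.le (hψ ω) 2) (sq_nonneg _) (hΛ ω).1
    have h2 : T.tau g ≤ 2 * hi ^ 2 := by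
      refine (T.tau_mono (g := (2 * hi ^ 2) • (1 : C(Ω, ℝ))) (ContinuousMap.le_def.2 fun ω => ?_)).trans
        (le_of_eq (by rw [map_smul, T.tau_one, smul_eq_mul, mul_one]))
      simp only [hg, ContinuousMap.mul_apply, ContinuousMap.smul_apply, ContinuousMap.one_apply,
        smul_eq_mul, mul_one, ← sq]
      rcases idem_zero_or_one hon ω with ho | ho
      · rw [ho, mul_zero, zero_mul]; positivity
      · rw [ho, mul_one]
        exact mul_le_mul (hΛ ω).2 (pow_le_pow_left₀ (hψ0 ω).le (hhi ω ho) 2) (sq_nonneg _) two_pos.le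
    rw [map_smul, smul_eq_mul] at h1
    rw [← mul_div_assoc, le_div_iff₀ (by positivity), mul_comm]
    refine h1.trans ((hdec (n + 1)).trans ?_)
    calc (1 / 64 : ℝ) ^ (n + 1) * T.tau g ≤ (1 / 64) ^ n * T.tau g :=
          mul_le_mul_of_nonneg_right
            (pow_le_pow_of_le_one (by norm_num) (by norm_num) (Nat.le_succ n)) hτg
      _ ≤ _ := mul_le_mul_of_nonneg_left h2 (by positivity)
  · have hlast : R (n + 1) a ≤ 1 := by
      have h3 : T.pos (R (n + 1) - 1) a = 0 := by simpa [ha] using hX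
      have := T.nonpos_of_pos_eq_zero h3
      simp only [ContinuousMap.sub_apply, ContinuousMap.one_apply] at this
      linarith
    have e1 : C0.tp.app1 (ψ * η) a = ∑ k ∈ Finset.range (n + 1), C0.tp.app1 (ψ * R k) a := by
      rw [hη, Finset.mul_sum, app1_sum, ContinuousMap.sum_apply]
    have e2 : ∀ k, C0.tp.app1 (ψ * R k) a = 64 * (ψ a * R (k + 1) a) := fun k => by
      rw [hRs]
      simp only [hMo, ψi, ContinuousMap.smul_apply, ContinuousMap.mul_apply, ha, one_mul,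
        ContinuousMap.coe_mk, smul_eq_mul]
      have := (hψ0 a).ne'
      field_simp
    rw [e1, hη, ContinuousMap.sum_apply]
    simp only [e2, ← Finset.mul_sum]
    refine mul_le_mul_of_nonneg_left (mul_le_mul_of_nonneg_left ?_ (hψ0 a).le)
      (show (0 : ℝ) ≤ 64 by norm_num)
    rw [Finset.sum_range_succ, Finset.sum_range_succ' (fun k => R k a) n, hR0,
      ContinuousMap.one_apply]
    linarith
  · rw [hη, Finset.mul_sum, map_sum]
    refine (Finset.sum_le_sum fun k _ => hdec k).trans ?_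
    rw [← Finset.sum_mul]
    refine mul_le_mul_of_nonneg_right ?_ hτg
    rw [geom_sum_eq (by norm_num), div_le_iff_of_neg (by norm_num)]
    have : (0 : ℝ) ≤ (1 / 64) ^ (n + 1) := by positivity
    linarith

end Vale.Agent.P078.T3
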