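import Mathlib
import Vale.Agent.P078.Type3.Step.Decomp
import Vale.Agent.P078.Type3.Walk.Comp

/-! The constraint in weighted variables: its walk, its row bound and its column bound. -/

noncomputable section

open scoped ComplexOrder
open Classical Filter

set_option linter.unusedSectionVars false

namespace Vale.Agent.P078.T3

open Chan
open Vale.Agent.P078.T3.Comp (lsum)

universe u v

variable {M : Type u} [CStarAlgebra M] [PartialOrder M] [StarOrderedRing M]
  {Ω : Type v} [TopologicalSpace Ω] [CompactSpace Ω] [T2Space Ω]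

namespace SMasa

variable (T : SMasa M Ω) (P : Params) (x : M)

/-- in weighted variables the constraint is the identity minus a twisted walk -/
theorem ker_rowM_twist (st : TSt M Ω P.r) (Z : C(Ω, ℝ)) (q w on u v a0 : Fin P.r → C(Ω, ℝ))
    (K : Fin P.r → GOp T Unit Unit) (W0 : Fin P.r → Walk.W T) (hu : ∀ j, 0 ≤ u j)
    (hv : ∀ j, 0 ≤ v j)
    (hW0 : ∀ j, (W0 j).N
      = (K j).map fun t => { t with coef := a0 j * t.coef * (w j * on j).comp t.g.toDom })
    (hpt : ∀ j b a, (T.bandSet P x st * (1 - Z)) b * cphi2 (st.sig j) b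
        * (q j a * T.onZ P st Z j a)
      = (T.bandSet P x st * (1 - Z) * T.onZ P st Z j * (T.cch P x st j * q j)) b
        * (u j b * a0 j b * (w j a * on j a) * v j a)) (b y : Ω) (j : Fin P.r) :
    (T.rowM P x st Z q K).ker (b, ()) (y, j)
      = (T.bandSet P x st * (1 - Z) * T.onZ P st Z j * (T.cch P x st j * q j)) b
        * ((if b = y then 1 else 0) - Walk.k1 ((W0 j).twist (u j) (v j) (hu j) (hv j)).N b y) := by
  set rows := T.bandSet P x st * (1 - Z) with hrows
  set c : Fin P.r → C(Ω, ℝ) := fun j => rows * T.onZ P st Z j * (T.cch P x st j * q j) with hc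
  have e : T.rowM P x st Z q K = Walk.rowBlk fun j =>
      ⟨(), (), c j, GElt.one T⟩ :: (K j).map fun t =>
        ⟨(), (), -(rows * cphi2 (st.sig j) * (t.coef * (q j).comp t.g.toDom)
          * (T.onZ P st Z j).comp t.g.toDom), t.g⟩ := by
    unfold rowM rowOp Walk.rowBlk
    refine congrArg List.flatten (List.map_congr_left fun j _ => ?_)
    simp [Walk.put, GOp.colMul, hc, hrows, Function.comp_def]
  rw [e, Walk.ker_rowBlk, Walk.k1_cons, Walk.k1_eq, Walk.k1_eq, Walk.W.lsum_twist, hW0 j,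
    Comp.lsum_map, Comp.lsum_map, mul_sub, ← Comp.lsum_mul, sub_eq_add_neg, ← Comp.lsum_neg]
  congr 1
  · by_cases h : b = y <;> simp [h, GElt.one, hc]
  refine Comp.lsum_congr fun t _ => ?_
  have hp := hpt j b (t.g.toDom b)
  simp only [ContinuousMap.mul_apply, ContinuousMap.neg_apply, ContinuousMap.comp_apply] at hp ⊢
  generalize (if t.g.toDom b = y then (1 : ℝ) else 0) = I
  linear_combination (-(t.coef b * t.g.ran b * I)) * hp

end SMasa

namespace Walk.W

variable {T : SMasa M Ω} (P : W T)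

/-- the row bound of a twisted walk -/
theorem row_twist (Λ on ψ sη θ on' : C(Ω, ℝ)) (hu : 0 ≤ on' * sη) (hv : 0 ≤ on' * θ) {z : ℝ}
    (hz : 0 ≤ z) (hθη : ∀ a, θ a * sη a = 1) (hon' : ∀ a, 0 ≤ on' a ∧ on' a ≤ on a)
    (hon : ∀ a, on a ≤ 1) (hΛ : ∀ a, 0 ≤ Λ a) (hψ : ∀ a, 0 ≤ ψ a) (hsη : ∀ a, 0 ≤ sη a)
    (hbase : ∀ a, z * lsum P.N (fun u => u.coef a * u.g.ran a
      * (u.g.dens a * (Λ * on * ψ) (u.g.toDom a))) ≤ on a * ψ a * Λ a) (a : Ω) :
    z * lsum (P.twist (on' * sη) (on' * θ) hu hv).N (fun u => u.coef a * u.g.ran a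
      * (u.g.dens a * (Λ (u.g.toDom a) * (ψ * sη) (u.g.toDom a)))) ≤ Λ a * (ψ * sη) a := by
  have hsum : lsum (P.twist (on' * sη) (on' * θ) hu hv).N (fun u => u.coef a * u.g.ran a
      * (u.g.dens a * (Λ (u.g.toDom a) * (ψ * sη) (u.g.toDom a))))
      ≤ (on' * sη) a * lsum P.N (fun u => u.coef a * u.g.ran a
        * (u.g.dens a * (Λ * on * ψ) (u.g.toDom a))) := by
    rw [Walk.W.lsum_twist, ← Comp.lsum_mul]
    refine Comp.lsum_le fun u hu' => ?_
    simp only [ContinuousMap.mul_apply, ContinuousMap.comp_apply]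
    set b := u.g.toDom a
    have h2 : 0 ≤ on' a * sη a * (u.coef a * u.g.ran a * (u.g.dens a * (Λ b * ψ b))) :=
      mul_nonneg (hu a) (mul_nonneg (mul_nonneg (P.N_nonneg u hu' a)
        (idem_nonneg u.g.ran_idem a)) (mul_nonneg (u.g.dens_pos a).le
          (mul_nonneg (hΛ b) (hψ b))))
    calc _ = on' a * sη a * (u.coef a * u.g.ran a * (u.g.dens a * (Λ b * ψ b)))
          * (on' b * (θ b * sη b)) := by ring
      _ ≤ on' a * sη a * (u.coef a * u.g.ran a * (u.g.dens a * (Λ b * ψ b))) * on b := by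
        rw [hθη, mul_one]; exact mul_le_mul_of_nonneg_left (hon' b).2 h2
      _ = _ := by ring
  refine (mul_le_mul_of_nonneg_left hsum hz).trans ?_
  rw [mul_left_comm]
  refine (mul_le_mul_of_nonneg_left (hbase a) (hu a)).trans ?_
  simp only [ContinuousMap.mul_apply]
  calc on' a * sη a * (on a * ψ a * Λ a) = on' a * on a * (Λ a * (ψ a * sη a)) := by ring
    _ ≤ _ := mul_le_of_le_one_left (mul_nonneg (hΛ a) (mul_nonneg (hψ a) (hsη a)))
        (mul_le_one₀ ((hon' a).2.trans (hon a)) ((hon' a).1.trans (hon' a).2) (hon a))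

/-- the column bound of the first records of a twisted walk -/
theorem col_twist (ψ η sη θ on' : C(Ω, ℝ)) (hu : 0 ≤ on' * sη) (hv : 0 ≤ on' * θ) {z β : ℝ}
    (hz : 0 ≤ z) (hβ : 0 ≤ β) (hθη : ∀ a, θ a * sη a = 1) (hsη : ∀ a, sη a * sη a = η a)
    (hsη0 : ∀ a, 0 ≤ sη a) (hon' : ∀ a, 0 ≤ on' a ∧ on' a ≤ 1) (hψ : ∀ a, 0 ≤ ψ a) {n k : ℕ}
    (hk : k ≤ n)
    (hcol : ∀ a, on' a ≠ 0 →
      ((P.scale z hz).Csum n).tp.app1 (ψ * η) a ≤ β * (ψ a * η a))
    (y : Ω) (s : Finset Ω) :
    ∑ b ∈ s, k1 (((P.twist (on' * sη) (on' * θ) hu hv).scale z hz).Csum k) b y * (ψ * sη) b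
      ≤ β * (ψ * sη) y := by
  set C0 := (P.scale z hz).Csum n with hC0
  have hη0 : ∀ a, 0 ≤ η a := fun a => by rw [← hsη a]; exact mul_self_nonneg _
  have hdom : ∀ b, k1 (((P.twist (on' * sη) (on' * θ) hu hv).scale z hz).Csum k) b y
      ≤ (on' * sη) b * (on' * θ) y * k1 C0.tp y b := by
    intro b
    rw [show k1 C0.tp y b = k1 C0 b y from FormKer.ker_tp _ _ _, hC0, Csum, Csum, k1_range,
      k1_range, Finset.mul_sum]
    refine le_trans (Finset.sum_le_sum fun l _ => ?_)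
      (Finset.sum_le_sum_of_subset_of_nonneg (Finset.range_subset_range.2 hk) fun l _ _ =>
        mul_nonneg (mul_nonneg (hu b) (hv y)) (k1_nonneg (Cop_nonneg _ l) b y))
    rw [k1_Cop_scale _ hz, k1_Cop_scale _ hz, mul_left_comm _ (z ^ (l + 1))]
    refine mul_le_mul_of_nonneg_left (P.k1_Cop_twist_le (fun a => ?_) l b y) (pow_nonneg hz _)
    simp only [ContinuousMap.mul_apply]
    calc on' a * sη a * (on' a * θ a) = on' a * on' a * (θ a * sη a) := by ring
      _ ≤ 1 := by
        rw [hθη, mul_one]; exact mul_le_one₀ (hon' a).2 (hon' a).1 (hon' a).2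
  have hCt : ∀ t ∈ C0.tp, 0 ≤ t.coef := fun t ht b => by
    obtain ⟨u, hu', rfl⟩ := List.mem_map.1 ht
    show (0 : ℝ) ≤ u.coef (u.g.toRan b)
    exact Csum_nonneg _ n u hu' (u.g.toRan b)
  refine (Finset.sum_le_sum fun b _ => mul_le_mul_of_nonneg_right (hdom b)
    (mul_nonneg (hψ b) (hsη0 b))).trans ?_
  calc ∑ b ∈ s, (on' * sη) b * (on' * θ) y * k1 C0.tp y b * (ψ * sη) b
      ≤ ∑ b ∈ s, (on' * θ) y * (k1 C0.tp y b * (ψ * η) b) := by
        refine Finset.sum_le_sum fun b _ => ?_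
        have h0 : 0 ≤ (on' * θ) y * (k1 C0.tp y b * (ψ b * η b)) :=
          mul_nonneg (hv y) (mul_nonneg (k1_nonneg hCt y b) (mul_nonneg (hψ b) (hη0 b)))
        refine le_trans (le_of_eq ?_) (mul_le_of_le_one_left h0 (hon' b).2)
        simp only [ContinuousMap.mul_apply]
        rw [← hsη b]
        ring
    _ ≤ (on' * θ) y * C0.tp.app1 (ψ * η) y := by
        rw [← Finset.mul_sum, GOp.app1_apply]
        exact mul_le_mul_of_nonneg_left
          (k1_sum_le hCt (fun b => mul_nonneg (hψ b) (hη0 b)) y s) (hv y)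
    _ ≤ β * (ψ * sη) y := by
        simp only [ContinuousMap.mul_apply]
        by_cases h : on' y = 0
        · rw [h, zero_mul, zero_mul]
          exact mul_nonneg hβ (mul_nonneg (hψ y) (hsη0 y))
        have hθ0 : 0 ≤ θ y :=
          nonneg_of_mul_nonneg_left (by rw [hθη]; exact zero_le_one) (lt_of_le_of_ne (hsη0 y)
            fun h' => by simpa [← h'] using hθη y)
        have e : θ y * (β * (ψ y * η y)) = β * (ψ y * sη y) := by
          rw [← hsη y]
          linear_combination β * ψ y * sη y * hθη y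
        refine (mul_le_mul_of_nonneg_left (hcol y h) (mul_nonneg (hon' y).1 hθ0)).trans ?_
        rw [mul_assoc, e]
        exact mul_le_of_le_one_left (mul_nonneg hβ (mul_nonneg (hψ y) (hsη0 y))) (hon' y).2

end Walk.W

end Vale.Agent.P078.T3
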