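import Mathlib
import Vale.Agent.P078.Type3.Step.Decomp
import Vale.Agent.P078.Type3.Step.Freeze
import Vale.Agent.P078.Type3.Step.Twist
import Vale.Agent.P078.Type3.Walk.Comp
import Vale.Agent.P078.Type3.Rank.Linear
import Vale.Agent.P078.Type3.Graph.Ops
import Vale.Agent.P078.Type3.Point.Gain

/-! The loss of the linear constraint against the gain of the switched-on sites. -/

noncomputable section

open scoped ComplexOrder
open Classical Filter

set_option linter.unusedSectionVars false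

namespace Vale.Agent.P078.T3

open Chan
open TMasa (ypm vpm)

universe u v

variable {M : Type u} [CStarAlgebra M] [PartialOrder M] [StarOrderedRing M]
  {Ω : Type v} [TopologicalSpace Ω] [CompactSpace Ω] [T2Space Ω]

namespace GOp

variable {T : SMasa M Ω}

lemma app1_wgt_mono {K : GOp T Unit Unit} (hK : ∀ t ∈ K, 0 ≤ t.coef) {f g : C(Ω, ℝ)}
    (h : ∀ a, f a ≤ g a) (b : Ω) : K.wgt.app1 f b ≤ K.wgt.app1 g b := by
  rw [app1_apply, app1_apply]
  refine List.sum_le_sum fun t ht => ?_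
  simp only [wgt, List.mem_map] at ht
  obtain ⟨s, hs, rfl⟩ := ht
  exact mul_le_mul_of_nonneg_left (h _)
    (mul_nonneg (mul_nonneg (hK s hs _) (s.g.dens_pos _).le) (idem_nonneg s.g.ran_idem _))

lemma app1_wgt_smul (K : GOp T Unit Unit) (c : ℝ) (f : C(Ω, ℝ)) (b : Ω) :
    K.wgt.app1 (c • f) b = c * K.wgt.app1 f b := by
  rw [app1_apply, app1_apply, ← List.sum_map_mul_left]
  congr 1
  refine List.map_congr_left fun t _ => ?_
  simp only [ContinuousMap.smul_apply, smul_eq_mul]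
  ring

lemma app1_wgt_eq (K : GOp T Unit Unit) (f : C(Ω, ℝ)) (b : Ω) :
    K.wgt.app1 f b = Comp.lsum K fun t => t.coef b * t.g.ran b * (t.g.dens b * f (t.g.toDom b)) := by
  rw [app1_apply, wgt, List.map_map]
  refine congrArg List.sum (List.map_congr_left fun t _ => ?_)
  simp only [Function.comp_apply, ContinuousMap.mul_apply]
  ring

end GOp

namespace Params

lemma Ok.β₀_pos {P : Params} (h : P.Ok) : 0 < P.β₀ := by
  have := h.ε_pos
  unfold Params.β₀
  positivity

lemma Ok.Cl_pos {P : Params} (h : P.Ok) : 0 < P.Cl := by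
  have := h.ε_pos
  unfold Params.Cl
  positivity

lemma Ok.Cc_ge {P : Params} (h : P.Ok) : 1 ≤ P.Cc := by
  have := h.ε_pos
  unfold Params.Cc
  rw [le_div_iff₀ (by positivity), one_mul]
  exact (pow_le_one₀ this.le (by linarith [h.ε_le])).trans (by norm_num)

lemma Ok.phlo_pos {P : Params} (h : P.Ok) : 0 < P.phlo := by
  have := h.ε_pos
  unfold Params.phlo
  positivity

lemma Ok.phhi_pos {P : Params} (h : P.Ok) : 0 < P.phhi := by
  have := h.ε_pos
  unfold Params.phhi
  positivity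

end Params

namespace SMasa

variable {T : SMasa M Ω} {P : Params} {x : M} {S : Smalls} {st : TSt M Ω P.r}
  {N : Fin P.r → Bool → M} {K : Fin P.r → GOp T Unit Unit}

lemma Ctx.on_sum_eq (C : T.Ctx P x S st N) {ω : Ω} (hl : st.live ω = 1)
    (hz : T.Zf P x S st N K ω = 0) :
    ∑ i, T.onf P x S st N K i ω = ∑ i, T.act P st i ω := by
  refine Finset.sum_congr rfl fun i _ => ?_
  simp [onf, aS, hl, hz]

lemma Ctx.on_actGood (C : T.Ctx P x S st N) (i : Fin P.r) {ω : Ω} (hl : st.live ω = 1)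
    (hz : T.Zf P x S st N K ω = 0) (ha : T.act P st i ω = 1) : T.ActGood P x st N i ω := by
  refine ⟨hl, (C.sig_of_act i hl ha).2, ?_⟩
  rcases idem_zero_or_one (SMasa.good_idem T P x st N i) ω with g | g
  · have h := (C.Zf_eq_zero hz i).2
    simp [badf, aS, hl, ha, g] at h
  · exact g

/-- the profiles add up to a part of the target where the constraint is large -/
lemma Ctx.profile_sum_ge (C : T.Ctx P x S st N) {ω : Ω} (hl : st.live ω = 1)
    (hz : T.Zf P x S st N K ω = 0) (hx : T.xval P x st ω ≤ 3 / 2) :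
    P.L / 8 ≤ ∑ i, T.onf P x S st N K i ω * spX P st i ω := by
  have h1 : ∀ i, T.fval P x st i ω + P.β₀ * (1 - T.act P st i ω)
      ≤ 3 / 2 * (T.onf P x S st N K i ω * spX P st i ω) + P.β₀ := fun i => by
    have hb := C.β₀_pos
    have e : T.onf P x S st N K i ω = T.act P st i ω := by simp [onf, aS, hl, hz]
    rw [e]
    rcases idem_zero_or_one (T.act_idem st i) ω with ha | ha
    · have h0 := C.sig_eq_zero i ha
      have hf := T.fval_le C.ε_pos C.γ_pos C.inv i ω
      rw [ha]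
      linarith
    · obtain ⟨-, hσ, hg⟩ := C.on_actGood i hl hz ha
      obtain ⟨e1, -, e3, -⟩ := C.sp_facts i ω hl hσ hg
      rw [ha, e1]
      linarith
  have h2 := Finset.sum_le_sum (s := Finset.univ) fun i _ => h1 i
  simp only [Finset.sum_add_distrib, ← Finset.mul_sum, Finset.sum_const, Finset.card_univ,
    Fintype.card_fin, nsmul_eq_mul] at h2
  simp only [xval, Fval, ContinuousMap.sub_apply, ContinuousMap.const_apply,
    ContinuousMap.add_apply, ContinuousMap.sum_apply, ContinuousMap.smul_apply,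
    ContinuousMap.one_apply, smul_eq_mul] at hx
  linarith [C.ok.zeros, C.ok.L_ge]

lemma Ctx.rows_le (C : T.Ctx P x S st N) :
    P.L / 8 * T.tau (T.Lam P x S st * T.rowsf P x S st N K)
      ≤ T.tau (T.Lam P x S st * ∑ i, T.onf P x S st N K i * spX P st i) := by
  rw [← smul_eq_mul, ← map_smul]
  refine T.tau_mono (ContinuousMap.le_def.2 fun ω => ?_)
  simp only [ContinuousMap.smul_apply, ContinuousMap.mul_apply, ContinuousMap.sum_apply,
    smul_eq_mul]
  have hon : 0 ≤ ∑ i, T.onf P x S st N K i ω * spX P st i ω := Finset.sum_nonneg fun i _ =>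
    mul_nonneg (idem_nonneg (C.onf_idem K i) ω) (spX_bounds C.ok i ω).1.le
  rcases idem_zero_or_one (C.rowsf_idem K) ω with h | h
  · rw [h]
    have := mul_nonneg (C.Lam_bounds ω).1 hon
    linarith
  · obtain ⟨hb, hz⟩ := (mul_eq_one (bandSet_idem C.inv.live_idem)
      (one_sub_idem (C.Zf_idem K))).1 h
    obtain ⟨hl, hp⟩ := (mul_eq_one C.inv.live_idem (mul_idem (T.pos_mul_self _)
      (T.pos_mul_self _))).1 hb
    have hx : T.xval P x st ω ≤ 3 / 2 := by
      have := T.nonneg_of_pos_eq_one ((mul_eq_one (T.pos_mul_self _) (T.pos_mul_self _)).1 hp).2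
      simp only [ContinuousMap.sub_apply, ContinuousMap.const_apply] at this
      linarith
    rw [h, mul_one, mul_comm]
    exact mul_le_mul_of_nonneg_left (C.profile_sum_ge hl (one_sub_eq_one.1 hz) hx)
      (C.Lam_bounds ω).1

/-- the gain is bounded below by the live mass -/
lemma Ctx.mass_ge (C : T.Ctx P x S st N) :
    S.μ * (P.L / 8) * (T.tau st.live - T.tau (T.Zf P x S st N K)
        - 2 * T.tau (st.live * chub2 (T.xval P x st)))
      ≤ T.tau (T.Lam P x S st * ∑ i, T.onf P x S st N K i * spX P st i) := by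
  simp only [← smul_eq_mul, ← map_smul, ← map_sub]
  refine T.tau_mono (ContinuousMap.le_def.2 fun ω => ?_)
  simp only [ContinuousMap.smul_apply, ContinuousMap.mul_apply, ContinuousMap.sub_apply,
    ContinuousMap.sum_apply, smul_eq_mul]
  have hL := C.Lam_bounds ω
  have hz0 : 0 ≤ T.Zf P x S st N K ω := idem_nonneg (C.Zf_idem K) ω
  have hh : 0 ≤ chub2 (T.xval P x st) ω := Profile.hub_nonneg _
  have hm : 0 ≤ S.μ * (P.L / 8) := mul_nonneg C.μ_pos.le (by linarith [C.ok.L_ge])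
  have hon : 0 ≤ T.Lam P x S st ω * ∑ i, T.onf P x S st N K i ω * spX P st i ω :=
    mul_nonneg hL.1 (Finset.sum_nonneg fun i _ =>
      mul_nonneg (idem_nonneg (C.onf_idem K i) ω) (spX_bounds C.ok i ω).1.le)
  rcases idem_zero_or_one C.inv.live_idem ω with hl | hl
  · rw [hl]
    linarith [mul_nonneg hm hz0]
  rcases idem_zero_or_one (C.Zf_idem K) ω with hz | hz
  · rw [hl, hz]
    rcases le_total (T.xval P x st ω) (3 / 2) with hx | hx
    · have h1 := C.profile_sum_ge (K := K) hl hz hx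
      have h2 := mul_le_mul (hL.2.2 hl) h1 (by linarith [C.ok.L_ge]) hL.1
      linarith [mul_nonneg hm hh]
    · have h1 : 1 / 2 ≤ chub2 (T.xval P x st) ω := Profile.half_le_hub (by linarith)
      linarith [mul_le_mul_of_nonneg_left h1 hm]
  · rw [hl, hz]
    linarith [mul_nonneg hm hh]

/-- the normalised profile and the weight at a site of the covariance -/
lemma Ctx.prof_bounds (C : T.Ctx P x S st N) (i : Fin P.r) {ω : Ω}
    (h : T.ActGood P x st N i ω) {q : ℝ} (hq : q * T.wF P x st i ω = cphi2 (st.sig i) ω) :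
    P.phlo ≤ q ∧ q ≤ P.phhi ∧ q ^ 2 ≤ 16 / P.kap * spX P st i ω ∧
      3 * spX P st i ω ≤ q ^ 2 * P.kap := by
  obtain ⟨hl, hσ, hg⟩ := h
  have hε := C.ε_pos
  have hκ := kap_pos C.ok
  obtain ⟨hw0, -⟩ := wF_bounds (T := T) (x := x) (st := st) C.ok i ω
  obtain ⟨e1, e2, -, e4⟩ := C.sp_facts i ω hl hσ hg
  have hw := wF_sq (T := T) (x := x) (st := st) C.ok i ω
  obtain ⟨hs0, -, hs1⟩ := spX_bounds (st := st) C.ok i ω
  have hd0 := (dnF_ge (T := T) (x := x) (st := st) C.ok i ω).2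
  have hf : P.β₀ ≤ T.fval P x st i ω := (C.clean i ω hl).resolve_left hσ.ne'
  rw [C.fval_apply] at hf
  have h1 := (C.good_facts i ω hg hσ true).2.2
  have h2 := (C.good_facts i ω hg hσ false).2.2
  have h3 := C.Asum_ge i ω
  have hA : 2 * (Two.mOf P.ε (st.sig i ω) - P.ε ^ 10) ≤ T.Asum P x st i ω := by
    rw [Two.m₁Of] at h1 h2
    linarith
  have hge := Two.weight_ge hε (C.sig0 i ω) (C.sig1 i ω)
    (T.Asum P x st i ω - 2 * Two.m₁Of P.ε (st.sig i ω))
  have hle := Two.weight_le hε C.ε_le (C.sig0 i ω) (C.sig1 i ω) (pow_nonneg hε.le 10) le_rfl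
    (by linarith [C.β₀_pos]) hA
  simp only [Two.m₁Of] at hge e4
  have hφ : cphi2 (st.sig i) ω = Two.phi (st.sig i ω) := rfl
  rw [hφ] at hq
  have hq0 : 0 ≤ q := by
    have := (Two.phi_bounds hε (C.sig0 i ω) (C.sig1 i ω)).1
    rw [← hq] at this
    exact (mul_nonneg_iff_of_pos_right hw0).1 this
  have hq2 : q ^ 2 * (P.kap * spX P st i ω)
      = Two.phi (st.sig i ω) ^ 2 * T.dnF P x st i ω := by
    rw [← hq, mul_pow, sq (T.wF P x st i ω), hw]
    field_simp
  rw [← e4, ← hq2, ← e1] at hge hle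
  have hlo : 3 * spX P st i ω ≤ q ^ 2 * P.kap :=
    le_of_mul_le_mul_right (by linarith) hs0
  have hhi : q ^ 2 * P.kap ≤ 16 * spX P st i ω :=
    le_of_mul_le_mul_right (by linarith) hs0
  refine ⟨?_, ?_, ?_, hlo⟩
  · refine (pow_le_pow_iff_left₀ C.ok.phlo_pos.le hq0 two_ne_zero).1 ?_
    refine le_of_mul_le_mul_right (le_trans ?_ hlo) hκ
    rw [e1]
    refine le_trans ?_ (mul_le_mul_of_nonneg_left e2 three_pos.le)
    rw [Params.phlo, Params.kap, Params.β₀]
    have : (1 / (15 * P.ε)) ^ 2 * P.ε ^ 4 = P.ε ^ 2 / 225 := by field_simp; ring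
    rw [this]
    linarith [sq_nonneg P.ε]
  · refine (pow_le_pow_iff_left₀ hq0 C.ok.phhi_pos.le two_ne_zero).1 ?_
    refine le_of_mul_le_mul_right (hhi.trans ?_) hκ
    have : P.phhi ^ 2 * P.kap = 9 := by
      rw [Params.phhi, Params.kap]; field_simp; ring
    rw [this]
    linarith
  · rw [div_mul_eq_mul_div, le_div_iff₀ hκ]
    exact hhi

/-- the gain survives the weights and the larger exceptional set -/
theorem Ctx.gain_twist (C : T.Ctx P x S st N) {Z : C(Ω, ℝ)} {θ η sη ψ : Fin P.r → C(Ω, ℝ)}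
    {δ : ℝ} (hZ01 : Z * Z = Z) (hZf : ∀ ω, T.Zf P x S st N K ω = 1 → Z ω = 1)
    (hδ0 : T.tau Z ≤ T.tau (T.Zf P x S st N K) + P.r * δ)
    (hη1 : ∀ i ω, 1 ≤ η i ω) (hsη : ∀ i ω, 1 ≤ sη i ω ∧ sη i ω * sη i ω = η i ω)
    (hθη : ∀ i ω, θ i ω * sη i ω = 1)
    (hon : ∀ i ω, T.onf P x S st N K i ω = 1 → st.live ω = 1 ∧
      ψ i ω * T.wF P x st i ω = cphi2 (st.sig i) ω ∧ ψ i ω ≤ P.phhi ∧
      ψ i ω ^ 2 ≤ 16 / P.kap * spX P st i ω ∧ 3 * spX P st i ω ≤ ψ i ω ^ 2 * P.kap)
    (hητ : ∀ i, T.tau (T.Lam P x S st * T.onf P x S st N K i * (ψ i * ψ i) * η i)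
      ≤ 64 / 63 * T.tau (T.Lam P x S st * T.onf P x S st N K i * (ψ i * ψ i))) :
    9 / 10 * T.tau (T.Lam P x S st * ∑ i, T.onf P x S st N K i * spX P st i) - P.r * (P.r * δ)
      ≤ T.tau (T.Lam P x S st
        * ∑ i, T.onZ P st Z i * θ i * (T.onZ P st Z i * θ i) * spX P st i) := by
  have hκ := kap_pos C.ok
  set Λ := T.Lam P x S st with hΛdef
  set on := T.onf P x S st N K with hondef
  have hΛ0 : ∀ ω, 0 ≤ Λ ω := fun ω => (C.Lam_bounds ω).1
  have hZ' : ∀ i, T.onZ P st Z i * T.onZ P st Z i = T.onZ P st Z i := fun i =>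
    mul_idem (C.aS_idem i) (one_sub_idem hZ01)
  have key : ∀ i, T.tau (Λ * (on i * spX P st i))
      - P.kap / 3 * (T.tau (Λ * on i * (ψ i * ψ i) * η i) - T.tau (Λ * on i * (ψ i * ψ i)))
      - T.tau (Z - T.Zf P x S st N K)
      ≤ T.tau (Λ * (T.onZ P st Z i * θ i * (T.onZ P st Z i * θ i) * spX P st i)) := by
    intro i
    rw [← map_sub, ← smul_eq_mul (P.kap / 3), ← map_smul, ← map_sub, ← map_sub]
    refine T.tau_mono (ContinuousMap.le_def.2 fun ω => ?_)
    simp only [ContinuousMap.sub_apply, ContinuousMap.mul_apply, ContinuousMap.smul_apply,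
      smul_eq_mul]
    obtain ⟨hs0, -, hs1⟩ := spX_bounds (st := st) C.ok i ω
    obtain ⟨hL0, hL2, -⟩ := C.Lam_bounds ω
    have hd : 0 ≤ Z ω - T.Zf P x S st N K ω := by
      rcases idem_zero_or_one (C.Zf_idem K) ω with a | a
      · rw [a, sub_zero]; exact idem_nonneg hZ01 ω
      · rw [a, hZf ω a, sub_self]
    have hrhs : 0 ≤ Λ ω * (T.onZ P st Z i ω * θ i ω * (T.onZ P st Z i ω * θ i ω)
        * spX P st i ω) := mul_nonneg hL0 (mul_nonneg (mul_self_nonneg _) hs0.le)
    rcases idem_zero_or_one (C.onf_idem K i) ω with h | h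
    · rw [show on i ω = 0 from h]
      simp only [mul_zero, zero_mul, sub_zero, zero_sub]
      linarith
    obtain ⟨-, -, -, -, hsp⟩ := hon i ω h
    have hη := hη1 i ω
    rw [show on i ω = 1 from h]
    have h1 : Λ ω * spX P st i ω * (η i ω - 1)
        ≤ P.kap / 3 * (Λ ω * (ψ i ω * ψ i ω)) * (η i ω - 1) := by
      refine mul_le_mul_of_nonneg_right ?_ (by linarith)
      have := mul_le_mul_of_nonneg_left hsp hL0
      linarith
    rcases idem_zero_or_one (hZ' i) ω with h' | h'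
    · have hbad : T.Zf P x S st N K ω = 0 ∧ Z ω = 1 := by
        obtain ⟨ha, hb⟩ := (mul_eq_one (C.aS_idem i) (one_sub_idem (C.Zf_idem K))).1 h
        refine ⟨one_sub_eq_one.1 hb, (idem_zero_or_one hZ01 ω).resolve_left fun hz' => ?_⟩
        simp [onZ, ha, hz'] at h'
      rw [h', hbad.1, hbad.2]
      have h2 : Λ ω * spX P st i ω ≤ 2 * (1 / 3) := mul_le_mul hL2 hs1 hs0.le two_pos.le
      have h3 : 0 ≤ Λ ω * spX P st i ω * (η i ω - 1) :=
        mul_nonneg (mul_nonneg hL0 hs0.le) (by linarith)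
      linarith
    · rw [h']
      have e2 : θ i ω * θ i ω * η i ω = 1 := by
        rw [← (hsη i ω).2, show θ i ω * θ i ω * (sη i ω * sη i ω)
          = (θ i ω * sη i ω) * (θ i ω * sη i ω) by ring, hθη, one_mul]
      have h4 : 2 - η i ω ≤ θ i ω * θ i ω := by
        have := mul_nonneg (mul_self_nonneg (θ i ω)) (mul_self_nonneg (η i ω - 1))
        linear_combination this + (η i ω - 2) * e2
      have h5 := mul_le_mul_of_nonneg_left h4 (mul_nonneg hL0 hs0.le)
      linarith
  have hsum := Finset.sum_le_sum fun i (_ : i ∈ Finset.univ) => key i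
  simp only [Finset.mul_sum, map_sum]
  refine le_trans ?_ hsum
  simp only [Finset.sum_sub_distrib, Finset.sum_const, Finset.card_univ, Fintype.card_fin,
    nsmul_eq_mul, ← Finset.mul_sum]
  have h2 : T.tau (Z - T.Zf P x S st N K) ≤ P.r * δ := by rw [map_sub]; linarith
  have h3 : ∀ i, T.tau (Λ * on i * (ψ i * ψ i)) ≤ 16 / P.kap * T.tau (Λ * (on i * spX P st i)) :=
    fun i => by
      rw [← smul_eq_mul (16 / P.kap), ← map_smul]
      refine T.tau_mono (ContinuousMap.le_def.2 fun ω => ?_)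
      simp only [ContinuousMap.smul_apply, ContinuousMap.mul_apply, smul_eq_mul]
      rcases idem_zero_or_one (C.onf_idem K i) ω with h | h
      · simp [show on i ω = 0 from h]
      · rw [show on i ω = 1 from h]
        have := mul_le_mul_of_nonneg_left (hon i ω h).2.2.2.1 (hΛ0 ω)
        linarith
  have h4 : P.kap / 3 * ((∑ i, T.tau (Λ * on i * (ψ i * ψ i) * η i))
      - ∑ i, T.tau (Λ * on i * (ψ i * ψ i)))
      ≤ 16 / 189 * ∑ i, T.tau (Λ * (on i * spX P st i)) := by
    rw [← Finset.sum_sub_distrib, Finset.mul_sum, Finset.mul_sum]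
    refine Finset.sum_le_sum fun i _ => ?_
    calc P.kap / 3 * (T.tau (Λ * on i * (ψ i * ψ i) * η i) - T.tau (Λ * on i * (ψ i * ψ i)))
        ≤ P.kap / 3 * (1 / 63 * (16 / P.kap * T.tau (Λ * (on i * spX P st i)))) :=
          mul_le_mul_of_nonneg_left (by linarith [hητ i, h3 i]) (by positivity)
      _ = _ := by field_simp; ring
  have h5 : 0 ≤ ∑ i, T.tau (Λ * (on i * spX P st i)) := Finset.sum_nonneg fun i _ =>
    T.tau_nonneg fun ω => mul_nonneg (hΛ0 ω)
      (mul_nonneg (idem_nonneg (C.onf_idem K i) ω) (spX_bounds C.ok i ω).1.le)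
  have h6 := mul_le_mul_of_nonneg_left h2 (Nat.cast_nonneg P.r : (0 : ℝ) ≤ P.r)
  linarith

/-- weights and an exceptional set for which the loss of the constraint is a small part of the
gain of the switched-on sites -/
theorem Ctx.frozen (C : T.Ctx P x S st N) (hact : T.ActSpec P x) (hbig : P.Big)
    (hKn : ∀ i, ∀ t ∈ K i, 0 ≤ t.coef) (Nc nη : ℕ) :
    ∃ (Z : C(Ω, ℝ)) (θ : Fin P.r → C(Ω, ℝ)), Z * Z = Z ∧
      (∀ ω, T.Zf P x S st N K ω = 1 → Z ω = 1) ∧ (∀ i ω, 0 < θ i ω ∧ θ i ω ≤ 1) ∧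
      T.tau Z ≤ T.tau (T.Zf P x S st N K)
        + P.r * ((1 / 64) ^ nη * (2 * P.phhi ^ 2 / (S.μ * P.phlo ^ 2))) ∧
      (9 / 10 * T.tau (T.Lam P x S st * ∑ i, T.onf P x S st N K i * spX P st i)
          - P.r * (P.r * ((1 / 64) ^ nη * (2 * P.phhi ^ 2 / (S.μ * P.phlo ^ 2))))
        ≤ T.tau (T.Lam P x S st
          * ∑ i, T.onZ P st Z i * θ i * (T.onZ P st Z i * θ i) * spX P st i)) ∧
      ∀ (B : ℝ) (n m : ℕ) (d : Fin P.r → C(Ω, ℝ)), 0 < B →
        OpBd (T.rowM P x st Z (fun i => T.wF P x st i * θ i) K).ker (Real.sqrt B) →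
        (∀ i b, d i b = (GOp.levOp (T.rowM P x st Z (fun i => T.wF P x st i * θ i) K) B n).ker
          (b, i) (b, i)) →
        P.kap * T.tau (T.Lam P x S st * ∑ i, d i)
          ≤ P.kap / 48 * T.tau (T.Lam P x S st * ∑ i, T.onf P x S st N K i * spX P st i)
            + P.kap * ((4 * (1 + 64) * ((m : ℝ) / B)
                * (P.r * (P.Cc * (1 - S.μ / (4 * P.Cc)) ^ (Nc + 1))) ^ 2
              + 3 * ((1 - S.μ / (4 * P.Cc)) ^ (Nc + 1)) ^ 2 + 2 * n / (m + 1)) * P.r * 2) := by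
  have hμ := C.μ_pos
  have hε := C.ok.ε_pos
  have hCc := C.ok.Cc_ge
  have hκ := kap_pos C.ok
  have hφ := C.ok.phlo_pos
  have hhi := C.ok.phhi_pos
  have hβ := C.β₀_pos
  set Λ := T.Lam P x S st with hΛdef
  set on := T.onf P x S st N K with hondef
  set w := T.wF P x st with hwdef
  have hw : ∀ i ω, 0 < w i ω ∧ w i ω ≤ 1 := fun i ω => wF_bounds C.ok i ω
  have hΛ0 : ∀ ω, 0 ≤ Λ ω := fun ω => (C.Lam_bounds ω).1
  set δ : ℝ := (1 / 64) ^ nη * (2 * P.phhi ^ 2 / (S.μ * P.phlo ^ 2)) with hδ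
  set m0 : ℝ := S.μ / (4 * P.Cc) with hm0
  have hm1 : m0 < 1 := by
    rw [hm0, div_lt_one (by linarith)]; linarith [C.μ_le]
  have hm2 : 0 ≤ m0 := by positivity
  set z : ℝ := (1 - m0)⁻¹ with hz
  have hz1 : 1 ≤ z := by
    rw [hz, one_le_inv₀ (by linarith)]; linarith
  have hz0 : 0 ≤ z := zero_le_one.trans hz1
  have hzm : z * (1 - m0) = 1 := inv_mul_cancel₀ (by linarith)
  set cmin : ℝ := S.μ / 4 * (P.ε * P.β₀ / P.phhi) with hcmin
  have hcmin0 : 0 < cmin := by positivity
  let ψ : Fin P.r → C(Ω, ℝ) := fun i =>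
    ⟨fun ω => max (cphi2 (st.sig i) ω / w i ω) P.phlo,
      ((cphi2 (st.sig i)).continuous.div (w i).continuous fun ω => (hw i ω).1.ne').max
        continuous_const⟩
  have hψlo : ∀ i ω, P.phlo ≤ ψ i ω := fun i ω => le_max_right _ _
  have hψ0 : ∀ i ω, 0 < ψ i ω := fun i ω => hφ.trans_le (hψlo i ω)
  have hon : ∀ i ω, on i ω = 1 → st.live ω = 1 ∧ ψ i ω * w i ω = cphi2 (st.sig i) ω ∧
      ψ i ω ≤ P.phhi ∧ ψ i ω ^ 2 ≤ 16 / P.kap * spX P st i ω ∧
      3 * spX P st i ω ≤ ψ i ω ^ 2 * P.kap := by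
    intro i ω h
    obtain ⟨hA, -⟩ := C.on_facts hact hKn i h
    obtain ⟨p1, p2, p3, p4⟩ := C.prof_bounds i hA
      (q := cphi2 (st.sig i) ω / w i ω) (div_mul_cancel₀ _ (hw i ω).1.ne')
    have e : ψ i ω = cphi2 (st.sig i) ω / w i ω := max_eq_left p1
    exact ⟨hA.1, by rw [e, div_mul_cancel₀ _ (hw i ω).1.ne'], e ▸ p2, e ▸ p3, e ▸ p4⟩
  have hc : ∀ i ω, on i ω = 1 → cmin ≤ T.cch P x st i ω * w i ω ∧
      0 ≤ T.cch P x st i ω ∧ T.cch P x st i ω ≤ P.Cc ∧ 0 < Λ ω ∧
      (K i).wgt.app1 (T.Wf P x S st i) ω ≤ (1 - m0) * (T.cch P x st i ω * Λ ω) := by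
    intro i ω h
    obtain ⟨-, -, -, hL0, hc1, hc2, hc3, hst⟩ := C.on_facts hact hKn i h
    have hc0 : 0 ≤ T.cch P x st i ω := le_trans (by linarith) hc1
    have hwlo : P.ε * P.β₀ / P.phhi ≤ w i ω := by
      rw [div_le_iff₀ hhi]
      refine hc3.trans ?_
      rw [← (hon i ω h).2.1, mul_comm]
      exact mul_le_mul_of_nonneg_left (hon i ω h).2.2.1 (hw i ω).1.le
    refine ⟨mul_le_mul hc1 hwlo (by positivity) hc0, hc0, hc2, hL0, ?_⟩
    have h2 : m0 * (T.cch P x st i ω * Λ ω) ≤ S.μ / 2 := by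
      calc _ ≤ m0 * (P.Cc * 2) := mul_le_mul_of_nonneg_left
            (mul_le_mul hc2 (C.Lam_bounds ω).2.1 (hΛ0 ω) (by linarith)) hm2
        _ = _ := by rw [hm0]; field_simp; ring
    linarith
  let a0 : Fin P.r → C(Ω, ℝ) := fun i =>
    on i * ⟨fun ω => cphi2 (st.sig i) ω / max (T.cch P x st i ω * w i ω) cmin,
      (cphi2 (st.sig i)).continuous.div
        (((T.cch P x st i).continuous.mul (w i).continuous).max continuous_const)
        fun ω => (hcmin0.trans_le (le_max_right _ _)).ne'⟩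
  have ha0 : ∀ i ω, 0 ≤ a0 i ω := fun i ω => mul_nonneg (idem_nonneg (C.onf_idem K i) ω)
    (div_nonneg (C.phi_bounds i ω).1 (hcmin0.le.trans (le_max_right _ _)))
  let P0 : Fin P.r → Walk.W T := fun i =>
    { N := (K i).map fun t => { t with coef := a0 i * t.coef * (w i * on i).comp t.g.toDom }
      Λ := Λ
      μ := S.μ
      G := 256
      μ_pos := hμ
      G_ge := by norm_num
      N_nonneg := fun t ht b => by
        obtain ⟨k, hk, rfl⟩ := List.mem_map.1 ht
        exact mul_nonneg (mul_nonneg (ha0 i b) (hKn i k hk b))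
          (mul_nonneg (hw i _).1.le (idem_nonneg (C.onf_idem K i) _))
      start := fun t ht b hb => by
        obtain ⟨k, -, rfl⟩ := List.mem_map.1 ht
        refine (C.Lam_bounds b).2.2 (hon i b ?_).1
        refine (idem_zero_or_one (C.onf_idem K i) b).resolve_left fun h0 => hb ?_
        simp [a0, hondef, h0] }
  have hbase : ∀ i a, z * Comp.lsum (P0 i).N (fun u => u.coef a * u.g.ran a
      * (u.g.dens a * (Λ * on i * ψ i) (u.g.toDom a))) ≤ on i a * ψ i a * Λ a := by
    intro i a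
    have e : Comp.lsum (P0 i).N (fun u => u.coef a * u.g.ran a
        * (u.g.dens a * (Λ * on i * ψ i) (u.g.toDom a)))
        = a0 i a * (K i).wgt.app1 (w i * on i * (Λ * on i * ψ i)) a := by
      rw [GOp.app1_wgt_eq, ← Comp.lsum_mul, show (P0 i).N
        = (K i).map fun t => { t with coef := a0 i * t.coef * (w i * on i).comp t.g.toDom } from rfl,
        Comp.lsum_map]
      refine Comp.lsum_congr fun t _ => ?_
      simp only [ContinuousMap.mul_apply, ContinuousMap.comp_apply]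
      ring
    rw [e]
    rcases idem_zero_or_one (C.onf_idem K i) a with h | h
    · simp [a0, hondef, h]
    obtain ⟨hc1, hc0, -, hL0, hst⟩ := hc i a h
    have hmono : (K i).wgt.app1 (w i * on i * (Λ * on i * ψ i)) a
        ≤ (K i).wgt.app1 (T.Wf P x S st i) a := by
      refine GOp.app1_wgt_mono (hKn i) (fun b => ?_) a
      simp only [ContinuousMap.mul_apply]
      rcases idem_zero_or_one (C.onf_idem K i) b with hb | hb
      · rw [show on i b = 0 from hb]; simpa using hμ.le.trans (C.Wf_bounds i b).1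
      · rw [show on i b = 1 from hb]
        refine le_trans (le_of_eq ?_) (C.Wf_bounds i b).2
        rw [← (hon i b hb).2.1]
        ring
    refine (mul_le_mul_of_nonneg_left (mul_le_mul_of_nonneg_left (hmono.trans hst) (ha0 i a))
      hz0).trans (le_of_eq ?_)
    have hcw : T.cch P x st i a * w i a ≠ 0 := (hcmin0.trans_le hc1).ne'
    simp only [a0, ContinuousMap.mul_apply, ContinuousMap.coe_mk, show on i a = 1 from h, one_mul,
      max_eq_left hc1, ← (hon i a h).2.1]
    rw [show z * (ψ i a * w i a / (T.cch P x st i a * w i a)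
        * ((1 - m0) * (T.cch P x st i a * Λ a)))
      = z * (1 - m0) * (ψ i a * Λ a) * (T.cch P x st i a * w i a / (T.cch P x st i a * w i a)) by
        ring, div_self hcw, hzm]
    ring
  set C0 : Fin P.r → GOp T Unit Unit := fun i => ((P0 i).scale z hz0).Csum (Nc + 1) with hC0
  have hrow0 : ∀ i b, (C0 i).wgt.app1 (Λ * on i * ψ i) b ≤ on i b * ψ i b * Λ b := by
    intro i b
    rw [GOp.app1_wgt_eq]
    refine (Walk.W.Csum_le _ (V := fun a => (Λ * on i * ψ i) a) (fun a =>
      mul_nonneg (mul_nonneg (hΛ0 a) (idem_nonneg (C.onf_idem K i) a)) (hψ0 i a).le)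
      (fun a => ?_) (Nc + 1) b).trans (le_of_eq (by simp only [ContinuousMap.mul_apply]; ring))
    show Comp.lsum ((P0 i).N.smul z) _ ≤ _
    rw [GOp.smul, Comp.lsum_map]
    refine le_trans (le_of_eq ?_)
      ((hbase i a).trans (le_of_eq (by simp only [ContinuousMap.mul_apply]; ring)))
    rw [← Comp.lsum_mul]
    refine Comp.lsum_congr fun t _ => ?_
    simp only [ContinuousMap.smul_apply, smul_eq_mul]
    ring
  choose η X hη1 hX01 hXτ hXcol hητ using fun i =>
    freeze_exists (C0 i) (Walk.W.Csum_nonneg _ (Nc + 1)) (on i) (ψ i) Λ (C.onf_idem K i) hμ hφ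
      (hψlo i) (fun ω h => (hon i ω h).2.2.1) (fun ω => ⟨hΛ0 ω, (C.Lam_bounds ω).2.1⟩)
      (fun ω h => (C.Lam_bounds ω).2.2 (hon i ω h).1) (hrow0 i) nη
  let sη : Fin P.r → C(Ω, ℝ) := fun i =>
    ⟨fun ω => Real.sqrt (η i ω), (η i).continuous.sqrt⟩
  have hsη : ∀ i ω, 1 ≤ sη i ω ∧ sη i ω * sη i ω = η i ω := fun i ω =>
    ⟨Real.one_le_sqrt.2 (hη1 i ω), Real.mul_self_sqrt (zero_le_one.trans (hη1 i ω))⟩
  let θ : Fin P.r → C(Ω, ℝ) := fun i =>
    ⟨fun ω => (sη i ω)⁻¹, (sη i).continuous.inv₀ fun ω => (one_pos.trans_le (hsη i ω).1).ne'⟩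
  have hθ : ∀ i ω, 0 < θ i ω ∧ θ i ω ≤ 1 := fun i ω =>
    ⟨inv_pos.2 (one_pos.trans_le (hsη i ω).1), inv_le_one_of_one_le₀ (hsη i ω).1⟩
  have hθη : ∀ i ω, θ i ω * sη i ω = 1 := fun i ω =>
    inv_mul_cancel₀ (one_pos.trans_le (hsη i ω).1).ne'
  set U : C(Ω, ℝ) := (1 - T.Zf P x S st N K) * ∏ i, (1 - X i) with hU
  have hU01 : U * U = U := mul_idem (one_sub_idem (C.Zf_idem K)) (by
    rw [← Finset.prod_mul_distrib]
    exact Finset.prod_congr rfl fun i _ => one_sub_idem (hX01 i))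
  set Z : C(Ω, ℝ) := 1 - U with hZdef
  have hZ01 : Z * Z = Z := one_sub_idem hU01
  have hZf : ∀ ω, T.Zf P x S st N K ω = 1 → Z ω = 1 := fun ω h => by simp [hZdef, hU, h]
  have hZX : ∀ ω, Z ω = 0 → T.Zf P x S st N K ω = 0 ∧ ∀ i, X i ω = 0 := by
    intro ω h
    simp only [hZdef, hU, ContinuousMap.sub_apply, ContinuousMap.one_apply,
      ContinuousMap.mul_apply, ContinuousMap.prod_apply, sub_eq_zero] at h
    have h0 := h.symm
    rcases idem_zero_or_one (C.Zf_idem K) ω with a | a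
    swap
    · simp [a] at h0
    refine ⟨a, fun i => (idem_zero_or_one (hX01 i) ω).resolve_right fun hi => ?_⟩
    rw [Finset.prod_eq_zero (Finset.mem_univ i) (by rw [hi, sub_self]), mul_zero] at h0
    exact zero_ne_one h0
  have hon' : ∀ i ω, T.onZ P st Z i ω = 1 → on i ω = 1 ∧ X i ω = 0 := by
    intro i ω h
    obtain ⟨h1, h2⟩ := (mul_eq_one (C.aS_idem i) (one_sub_idem hZ01)).1 h
    obtain ⟨h3, h4⟩ := hZX ω (one_sub_eq_one.1 h2)
    exact ⟨(mul_eq_one (C.aS_idem i) (one_sub_idem (C.Zf_idem K))).2 ⟨h1, one_sub_eq_one.2 h3⟩,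
      h4 i⟩
  have hZ' : ∀ i, T.onZ P st Z i * T.onZ P st Z i = T.onZ P st Z i := fun i =>
    mul_idem (C.aS_idem i) (one_sub_idem hZ01)
  have hδ0 : T.tau Z ≤ T.tau (T.Zf P x S st N K) + P.r * δ := by
    have hle : Z ≤ T.Zf P x S st N K + ∑ i, X i := ContinuousMap.le_def.2 fun ω => by
      simp only [ContinuousMap.add_apply, ContinuousMap.sum_apply]
      have hz0' : 0 ≤ T.Zf P x S st N K ω := idem_nonneg (C.Zf_idem K) ω
      have hs : 0 ≤ ∑ i, X i ω := Finset.sum_nonneg fun i _ => idem_nonneg (hX01 i) ω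
      rcases idem_zero_or_one hZ01 ω with h | h
      · rw [h]; linarith
      rw [h]
      rcases idem_zero_or_one (C.Zf_idem K) ω with a | a
      swap
      · rw [a]; linarith
      obtain ⟨i, hi⟩ : ∃ i, X i ω = 1 := by
        by_contra hne
        simp only [not_exists] at hne
        simp only [hZdef, hU, ContinuousMap.sub_apply, ContinuousMap.one_apply,
          ContinuousMap.mul_apply, ContinuousMap.prod_apply, a, sub_zero, one_mul] at h
        rw [Finset.prod_eq_one fun j _ => by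
          rw [(idem_zero_or_one (hX01 j) ω).resolve_right (hne j), sub_zero]] at h
        norm_num at h
      have := Finset.single_le_sum (f := fun j => X j ω) (fun j _ => idem_nonneg (hX01 j) ω)
        (Finset.mem_univ i)
      linarith
    refine (T.tau_mono hle).trans ?_
    rw [map_add, map_sum]
    refine add_le_add le_rfl ((Finset.sum_le_sum fun i _ => hXτ i).trans (le_of_eq ?_))
    simp [hδ]
  refine ⟨Z, θ, hZ01, hZf, hθ, hδ0, ?_, ?_⟩
  · exact C.gain_twist hZ01 hZf hδ0 hη1 hsη hθη hon hητ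
  · -- the loss
    intro B n m d hB hTm hd
    set rows' := T.bandSet P x st * (1 - Z) with hrows'
    set q : Fin P.r → C(Ω, ℝ) := fun i => w i * θ i with hq
    set on' := T.onZ P st Z with hon'def
    set c : Fin P.r → C(Ω, ℝ) := fun i => rows' * on' i * (T.cch P x st i * q i) with hcdef
    have hon0 : ∀ i ω, 0 ≤ on' i ω ∧ on' i ω ≤ 1 := fun i ω =>
      ⟨idem_nonneg (hZ' i) ω, idem_le_one (hZ' i) ω⟩
    have hu : ∀ i, 0 ≤ on' i * sη i := fun i ω =>
      mul_nonneg (hon0 i ω).1 (zero_le_one.trans (hsη i ω).1)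
    have hv : ∀ i, 0 ≤ on' i * θ i := fun i ω => mul_nonneg (hon0 i ω).1 (hθ i ω).1.le
    set W : Fin P.r → Walk.W T := fun i => (P0 i).twist (on' i * sη i) (on' i * θ i) (hu i) (hv i)
      with hW
    have hsub : ∀ j a, 0 ≤ on' j a ∧ on' j a ≤ on j a := fun j a => ⟨(hon0 j a).1, by
      rcases idem_zero_or_one (hZ' j) a with h | h
      · rw [show on' j a = 0 from h]; exact idem_nonneg (C.onf_idem K j) a
      · rw [show on' j a = 1 from h, (hon' j a h).1]⟩
    have hcol : ∀ j a, on' j a ≠ 0 →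
        (((P0 j).scale z hz0).Csum (Nc + 1)).tp.app1 (ψ j * η j) a ≤ 64 * (ψ j a * η j a) :=
      fun j a h => by
        obtain ⟨h1, h2⟩ := hon' j a ((idem_zero_or_one (hZ' j) a).resolve_left h)
        exact hXcol j a h1 h2
    set ψ' : Fin P.r → C(Ω, ℝ) := fun i => ψ i * sη i with hψ'
    have hrows01 : rows' * rows' = rows' :=
      mul_idem (bandSet_idem C.inv.live_idem) (one_sub_idem hZ01)
    have hlive : ∀ ω, rows' ω = 1 → st.live ω = 1 ∧ Z ω = 0 := fun ω h => by
      obtain ⟨hb, hz'⟩ := (mul_eq_one (bandSet_idem C.inv.live_idem) (one_sub_idem hZ01)).1 h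
      exact ⟨((mul_eq_one C.inv.live_idem (mul_idem (T.pos_mul_self _) (T.pos_mul_self _))).1
        hb).1, one_sub_eq_one.1 hz'⟩
    have hpt : ∀ j b a, rows' b * cphi2 (st.sig j) b * (q j a * on' j a)
        = c j b * ((on' j * sη j) b * a0 j b * (w j a * on j a) * (on' j * θ j) a) := by
      intro j b a
      simp only [hcdef, hq, a0, ContinuousMap.mul_apply, ContinuousMap.coe_mk]
      have hsub : on' j a * on j a = on' j a := by
        rcases idem_zero_or_one (hZ' j) a with h | h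
        · rw [show on' j a = 0 from h, zero_mul]
        · rw [show on' j a = 1 from h, (hon' j a h).1, one_mul]
      rcases idem_zero_or_one hrows01 b with hr | hr
      · simp [hr]
      rcases idem_zero_or_one (hZ' j) b with ho | ho
      · have hsig : cphi2 (st.sig j) b = 0 := by
          obtain ⟨hl, hz'⟩ := hlive b hr
          have ha : T.act P st j b = 0 := by
            change (T.onZ P st Z j) b = 0 at ho
            simpa [onZ, aS, hl, hz'] using ho
          show Two.phi (st.sig j b) = 0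
          simp [C.sig_eq_zero j ha, Two.phi]
        rw [show on' j b = 0 from ho, hsig]
        ring
      have honb := (hon' j b ho).1
      obtain ⟨hc1, -⟩ := hc j b honb
      have hcw : T.cch P x st j b * w j b ≠ 0 := (hcmin0.trans_le hc1).ne'
      have hc' : T.cch P x st j b ≠ 0 := left_ne_zero_of_mul hcw
      have hw' : w j b ≠ 0 := right_ne_zero_of_mul hcw
      rw [hr, show on' j b = 1 from ho, show on j b = 1 from honb, max_eq_left hc1,
        show θ j b = (sη j b)⁻¹ from rfl]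
      have := (one_pos.trans_le (hsη j b).1).ne'
      field_simp
      linear_combination (-(cphi2 (st.sig j) b * w j a * θ j a)) * hsub
    have hcb : ∀ j a, |c j a| ≤ P.Cc := fun j a => by
      simp only [hcdef, hq, ContinuousMap.mul_apply]
      rcases idem_zero_or_one hrows01 a with hr | hr
      · rw [hr]; simp; linarith
      rcases idem_zero_or_one (hZ' j) a with ho | ho
      · rw [show on' j a = 0 from ho]; simp; linarith
      obtain ⟨-, hc0, hc2, -⟩ := hc j a (hon' j a ho).1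
      rw [hr, show on' j a = 1 from ho, one_mul, one_mul, abs_mul, abs_of_nonneg hc0,
        abs_of_nonneg (mul_nonneg (hw j a).1.le (hθ j a).1.le)]
      exact (mul_le_of_le_one_right hc0 (mul_le_one₀ (hw j a).2 (hθ j a).1.le (hθ j a).2)).trans hc2
    have hcr : ∀ j a, rows' a * c j a = c j a := fun j a => by
      simp only [hcdef, ContinuousMap.mul_apply]
      have h := DFunLike.congr_fun hrows01 a
      simp only [ContinuousMap.mul_apply] at h
      linear_combination (on' j a * (T.cch P x st j a * q j a)) * h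
    obtain ⟨H, Cm, E, Tb, Tres, hH, hE, hres, hid, hTb, hrec, hC⟩ :=
      Walk.compensate (densSpec T) (T.rowM P x st Z q K) rows' Λ c ψ' W (μ := S.μ) (G := 256)
        (Cc := P.Cc) (z := z) (β := 64) Nc (fun j => ⟨rfl, rfl, rfl⟩) hμ (by norm_num) hz1
        (by linarith) (by norm_num) (by norm_num) hΛ0
        (fun a h => (C.Lam_bounds a).2.2 (hlive a h).1) hrows01 hcb hcr
        (fun j a => mul_pos (hψ0 j a) (one_pos.trans_le (hsη j a).1))
        (fun b y j => T.ker_rowM_twist P x st Z q w on (fun i => on' i * sη i) (fun i => on' i * θ i)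
          a0 K P0 hu hv (fun j => rfl) hpt b y j) (fun j a => (P0 j).row_twist Λ (on j) (ψ j) (sη j)
          (θ j) (on' j) (hu j) (hv j) hz0 (hθη j) (hsub j) (fun a => idem_le_one (C.onf_idem K j) a)
          hΛ0 (fun a => (hψ0 j a).le) (fun a => zero_le_one.trans (hsη j a).1) (hbase j) a)
        (fun j k hk y s => (P0 j).col_twist (ψ j) (η j) (sη j) (θ j) (on' j) (hu j) (hv j) hz0
          (by norm_num) (hθη j) (fun a => (hsη j a).2) (fun a => zero_le_one.trans (hsη j a).1)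
          (hon0 j) (fun a => (hψ0 j a).le) hk (hcol j) y s)
    have h := Rank.rank_linear (sepSpec T) (densSpec T) (T.rowM P x st Z q K) H Cm E Tb Tres
      rows' Λ n m d hB (show (1 : ℝ) ≤ 2 * 256 by norm_num)
      (mul_nonneg (Nat.cast_nonneg _) (mul_nonneg (by linarith) (inv_nonneg.2 (pow_nonneg hz0 _))))
      (inv_nonneg.2 (pow_nonneg hz0 _)) (show (0 : ℝ) ≤ 64 by norm_num) hrows01 hΛ0 hTm hH hE
      hres hid hTb hrec hC hd
    have hzi : (z ^ (Nc + 1))⁻¹ = (1 - m0) ^ (Nc + 1) := by rw [hz, inv_pow, inv_inv]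
    rw [hzi] at h
    have hΛ2 : T.tau Λ ≤ 2 := by
      have h' : Λ ≤ (2 : ℝ) • (1 : C(Ω, ℝ)) := fun ω => by simpa using (C.Lam_bounds ω).2.1
      simpa [T.tau_one] using T.tau_mono h'
    have hle : T.tau (Λ * rows') ≤ T.tau (Λ * T.rowsf P x S st N K) := by
      refine T.tau_mono (ContinuousMap.le_def.2 fun ω => ?_)
      simp only [ContinuousMap.mul_apply]
      refine mul_le_mul_of_nonneg_left ?_ (hΛ0 ω)
      simp only [hrows', rowsf, ContinuousMap.mul_apply]
      refine mul_le_mul_of_nonneg_left ?_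
        (idem_nonneg (bandSet_idem C.inv.live_idem) ω)
      rcases idem_zero_or_one (C.Zf_idem K) ω with a | a
      · simp only [ContinuousMap.sub_apply, ContinuousMap.one_apply, a]
        linarith [show (0 : ℝ) ≤ Z ω from idem_nonneg hZ01 ω]
      · simp [a, hZf ω a]
    have hn : 0 ≤ T.tau (Λ * T.rowsf P x S st N K) :=
      T.tau_nonneg fun ω => mul_nonneg (hΛ0 ω) (idem_nonneg (C.rowsf_idem K) ω)
    have h1 := C.rows_le (K := K)
    have hb : 2000000000 ≤ P.L := hbig
    have a1 : 120 * (1 + 64) * (2 * 256) * T.tau (Λ * rows')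
        ≤ 1 / 48 * T.tau (Λ * ∑ i, on i * spX P st i) := by
      linarith [mul_le_mul_of_nonneg_right hb hn]
    have a2 : (4 * (1 + 64) * ((m : ℝ) / B) * (P.r * (P.Cc * (1 - m0) ^ (Nc + 1))) ^ 2
          + 3 * ((1 - m0) ^ (Nc + 1)) ^ 2 + 2 * n / (m + 1)) * P.r * T.tau Λ
        ≤ (4 * (1 + 64) * ((m : ℝ) / B) * (P.r * (P.Cc * (1 - m0) ^ (Nc + 1))) ^ 2
          + 3 * ((1 - m0) ^ (Nc + 1)) ^ 2 + 2 * n / (m + 1)) * P.r * 2 :=
      mul_le_mul_of_nonneg_left hΛ2 (by positivity)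
    calc P.kap * T.tau (Λ * ∑ i, d i)
        ≤ P.kap * (1 / 48 * T.tau (Λ * ∑ i, on i * spX P st i) + _) :=
          mul_le_mul_of_nonneg_left (h.trans (add_le_add a1 a2)) hκ.le
      _ = _ := by ring

end SMasa

end Vale.Agent.P078.T3
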