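import Mathlib
import Vale.Agent.P078.Type3.Step.Rank

/-! The order of choice of the small constants of one step. -/

noncomputable section

open scoped ComplexOrder
open Classical Filter

set_option linter.unusedSectionVars false

namespace Vale.Agent.P078.T3

open Chan
open TMasa (ypm vpm)

universe u v

variable {M : Type u} [CStarAlgebra M] [PartialOrder M] [StarOrderedRing M]
  {Ω : Type v} [TopologicalSpace Ω] [CompactSpace Ω] [T2Space Ω]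

namespace SMasa

variable (T : SMasa M Ω) (P : Params) (x : M)

/-- the constants of one step -/
structure StepConst (ηf A₀ Cb : ℝ) where
  S : Smalls
  e : ℝ
  ω₁ : ℝ
  ζ : ℝ
  θ : ℝ
  η₁ : ℝ
  η₂ : ℝ
  η : ℝ
  B : ℝ
  k : ℝ
  n : ℕ
  m : ℕ
  Nc : ℕ
  nη : ℕ
  μ_pos : 0 < S.μ
  μ_le : S.μ ≤ 1
  γ_pos : 0 < S.γ
  γ_le : S.γ ≤ 1 / 4
  A₀_le : A₀ ≤ S.A
  A_pos : 0 < S.A
  hub : S.μ * P.K₀ ≤ ηf / 8
  e_pos : 0 < e
  e_eq : P.ε ^ 4 / 24 * (S.μ * (P.L / 8) * (ηf / 2)) = 8 * e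
  ω₁_pos : 0 < ω₁
  η_pos : 0 < η
  η₁_pos : 0 < η₁
  η₂_pos : 0 < η₂
  θ_pos : 0 < θ
  θ_le : θ ≤ 1
  Rv : P.K₀ / S.A ≤ θ ^ 2
  band : 2 * S.γ * P.K₀ ≤ θ
  band' : Real.sqrt (2 * S.γ * P.K₀) ≤ θ
  rho_le : P.rho S.γ ≤ η₁
  Zsmall : 2 * ω₁ / S.μ + P.r * (34 * θ / Two.tol P.ε) ≤ ζ
  ζ_le : ζ ≤ ηf / 4
  Asmall : S.A * (4 * P.r * η₁) ≤ ω₁ / 2
  freeze : P.r * ((1 / 64) ^ nη * (2 * P.phhi ^ 2 / (S.μ * P.phlo ^ 2))) ≤ ζ
  freeze' : P.kap * (P.r * (P.r * ((1 / 64) ^ nη * (2 * P.phhi ^ 2 / (S.μ * P.phlo ^ 2))))) ≤ e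
  var : (P.r : ℝ) ^ 2 * (2 * P.Cc / S.μ ^ 2) * (ω₁ + 2 * P.Cc * (2 * ζ)) ≤ e
  atom : 22 * (P.r : ℝ) ^ 2 * η ≤ e
  Rsmall : S.A * (2 * P.r * η₂ + 8 * P.r * η₁ * Cb + 4 * P.r * η₁) ≤ e
  k_eq : k = 2 / S.γ ^ 2
  B_eq : B = (P.r * (P.Cc + k)) * (P.r * (P.Cc + k))
  B_pos : 0 < B
  curv : B / (2 * n + 1) ≤ e
  rank : P.kap * ((4 * (1 + 64) * ((m : ℝ) / B)
        * (P.r * (P.Cc * (1 - S.μ / (4 * P.Cc)) ^ (Nc + 1))) ^ 2
      + 3 * ((1 - S.μ / (4 * P.Cc)) ^ (Nc + 1)) ^ 2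
      + 2 * (2 * n : ℕ) / (m + 1)) * P.r * 2) ≤ e
  off : ∀ (s : Bool) (N : M), IsStarProjection N →
    T.tr (vpm x s * (1 - N) * vpm x s) ≤ 2 * S.γ * P.K₀ →
      ∀ f : C(Ω, ℝ), T.n2 (T.offv (vpm x s) N f) ≤ η₁ * ‖f‖
  offSq : ∀ (s : Bool) (N : M), IsStarProjection N →
    T.tr (vpm x s * (1 - N) * vpm x s) ≤ 2 * S.γ * P.K₀ →
      ∀ (p : C(Ω, ℝ)) {k : ℕ} (Sg : GOp T Unit (Fin k)), (∀ ω, |p ω| ≤ 1) → OpBd Sg.ker 1 →
        (∀ᶠ Q : Part Ω in atTop, ∀ ω, ∑ j, ∑ e, (Sg.app (Pi.single j (Q.e e)) () ω) ^ 2 ≤ 1) →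
        ∀ᶠ Q : Part Ω in atTop,
          pieceSum Q (fun u => T.n2 (T.offv (vpm x s) N (p * Sg.app u ())) ^ 2) ≤ η₂

theorem exists_stepConst (hok : P.Ok) (hx : IsSelfAdjoint x) (hx1 : ‖x‖ ≤ 1)
    (hform : T.ChanFormSpec P x) {ηf Cb : ℝ} (hf : 0 < ηf) (A₀ : ℝ) (hCb : 0 ≤ Cb) :
    Nonempty (T.StepConst P x ηf A₀ Cb) := by
  have hε := hok.ε_pos
  have hr : (1 : ℝ) ≤ P.r := by exact_mod_cast hok.r_pos
  have hK : 1 ≤ P.K₀ := by unfold Params.K₀; linarith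
  have hCc := hok.Cc_ge
  have hCl := kap_pos hok
  have hhi := hok.phhi_pos
  have hφ := hok.phlo_pos
  have hL : 0 < P.L := by linarith [hok.L_ge]
  have htol : 0 < Two.tol P.ε := pow_pos hε 13
  obtain ⟨μ, hμ, hμ1, hμ2⟩ : ∃ μ : ℝ, 0 < μ ∧ μ ≤ 1 ∧ μ * P.K₀ ≤ ηf / 8 :=
    ⟨min 1 (ηf / 8 / P.K₀), lt_min one_pos (by positivity), min_le_left _ _,
      (le_div_iff₀ (by linarith)).1 (min_le_right _ _)⟩
  set e := P.ε ^ 4 / 24 * (μ * (P.L / 8) * (ηf / 2)) / 8 with he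
  have he0 : 0 < e := by positivity
  set ζ := min (ηf / 4) (e * μ ^ 2 / (10 * (P.r : ℝ) ^ 2 * P.Cc ^ 2)) with hζ
  have hζ0 : 0 < ζ := lt_min (by linarith) (by positivity)
  set ω₁ := μ * ζ / 4 with hω
  have hω0 : 0 < ω₁ := by positivity
  set θ := min 1 (ζ * Two.tol P.ε / (68 * P.r)) with hθ
  have hθ0 : 0 < θ := lt_min one_pos (by positivity)
  set A := max (max A₀ 1) (P.K₀ / θ ^ 2) with hA
  have hA0 : 0 < A := lt_of_lt_of_le one_pos ((le_max_right _ _).trans (le_max_left _ _))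
  set η₁ := min (ω₁ / (8 * A * P.r)) (e / (24 * A * P.r * (Cb + 1))) with hη₁
  have hη₁0 : 0 < η₁ := lt_min (by positivity) (by positivity)
  set η₂ := e / (6 * A * P.r) with hη₂
  have hη₂0 : 0 < η₂ := by positivity
  set η := e / (22 * (P.r : ℝ) ^ 2) with hη
  have hη0 : 0 < η := by positivity
  obtain ⟨d₁, hd₁, hoff⟩ := T.exists_offv_small x hx hx1 hη₁0
  obtain ⟨d₂, hd₂, hoff2⟩ := hform.2 hx hx1 η₂ hη₂0
  set γ := min (min (1 / 4) (η₁ * P.ε ^ 10 / 1000000))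
    (min (min d₁ d₂) (min θ (θ ^ 2)) / (2 * P.K₀)) with hγ
  have hγ0 : 0 < γ := lt_min (lt_min (by norm_num) (by positivity))
    (div_pos (lt_min (lt_min hd₁ hd₂) (lt_min hθ0 (by positivity))) (by linarith))
  have hb : 2 * γ * P.K₀ ≤ min (min d₁ d₂) (min θ (θ ^ 2)) := by
    rw [mul_assoc, mul_comm γ, ← mul_assoc, mul_comm]
    exact (le_div_iff₀ (by linarith)).1 (min_le_right _ _)
  set k := 2 / γ ^ 2 with hk
  set B := (P.r * (P.Cc + k)) * (P.r * (P.Cc + k)) with hB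
  have hk0 : 0 < k := by positivity
  have hB0 : 0 < B := by positivity
  obtain ⟨n, hn⟩ := exists_nat_gt (B / e)
  rw [div_lt_iff₀ he0] at hn
  obtain ⟨m, hm⟩ := exists_nat_gt (P.kap * (2 * (2 * n : ℕ) * P.r * 2) * 2 / e)
  rw [div_lt_iff₀ he0] at hm
  set q := P.kap * ((4 * (1 + 64) * ((m : ℝ) / B) * (P.r * P.Cc) ^ 2 + 3) * P.r * 2) with hq
  have hq0 : 0 ≤ q := by positivity
  have hb0 : 0 ≤ 1 - μ / (4 * P.Cc) := by
    rw [sub_nonneg, div_le_one (by linarith)]; linarith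
  have hb1 : 1 - μ / (4 * P.Cc) < 1 := sub_lt_self _ (by positivity)
  obtain ⟨Nc, hNc⟩ := exists_pow_lt_of_lt_one (show 0 < e / 2 / (q + 1) by positivity) hb1
  rw [lt_div_iff₀ (by linarith)] at hNc
  set D₀ := (P.r : ℝ) * (2 * P.phhi ^ 2 / (μ * P.phlo ^ 2)) with hD₀
  have hD₀0 : 0 < D₀ := by positivity
  obtain ⟨nη, hnη⟩ := exists_pow_lt_of_lt_one
    (show 0 < min ζ (e / (P.kap * P.r)) / D₀ from
      div_pos (lt_min hζ0 (by positivity)) hD₀0) (show (1 / 64 : ℝ) < 1 by norm_num)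
  rw [lt_div_iff₀ hD₀0, hD₀] at hnη
  refine ⟨{
    S := ⟨μ, γ, A⟩, e := e, ω₁ := ω₁, ζ := ζ, θ := θ, η₁ := η₁, η₂ := η₂, η := η, B := B,
    k := k, n := n, m := m, Nc := Nc, nη := nη
    μ_pos := hμ, μ_le := hμ1, γ_pos := hγ0
    γ_le := (min_le_left _ _).trans (min_le_left _ _)
    A₀_le := (le_max_left _ _).trans (le_max_left _ _), A_pos := hA0, hub := hμ2
    e_pos := he0, e_eq := by rw [he]; ring
    ω₁_pos := hω0, η_pos := hη0, η₁_pos := hη₁0, η₂_pos := hη₂0, θ_pos := hθ0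
    θ_le := min_le_left _ _, Rv := ?_, band := hb.trans ((min_le_right _ _).trans (min_le_left _ _))
    band' := (Real.sqrt_le_left hθ0.le).2 (hb.trans ((min_le_right _ _).trans (min_le_right _ _)))
    rho_le := ?_, Zsmall := ?_, ζ_le := min_le_left _ _, Asmall := ?_, freeze := ?_, freeze' := ?_, var := ?_, atom := ?_
    Rsmall := ?_, k_eq := rfl, B_eq := rfl, B_pos := hB0, curv := ?_, rank := ?_
    off := fun s N hN ht => hoff s N hN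
      (ht.trans (hb.trans ((min_le_left _ _).trans (min_le_left _ _))))
    offSq := fun s N hN ht => hoff2 s N hN
      (ht.trans (hb.trans ((min_le_left _ _).trans (min_le_right _ _)))) }⟩
  · have := le_max_right (max A₀ 1) (P.K₀ / θ ^ 2)
    rw [div_le_iff₀ hA0]
    rw [← hA, div_le_iff₀ (by positivity)] at this
    linarith [mul_comm A (θ ^ 2)]
  · have : γ ≤ η₁ * P.ε ^ 10 / 1000000 := (min_le_left _ _).trans (min_le_right _ _)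
    rw [Params.rho, div_le_iff₀ (by positivity)]
    linarith
  · have h1 : 2 * ω₁ / μ = ζ / 2 := by rw [hω]; field_simp; ring
    have h2 : P.r * (34 * θ / Two.tol P.ε) ≤ ζ / 2 := by
      have := min_le_right (1 : ℝ) (ζ * Two.tol P.ε / (68 * P.r))
      rw [← hθ, le_div_iff₀ (by positivity)] at this
      rw [mul_div_assoc', div_le_iff₀ htol]
      linarith
    show 2 * ω₁ / μ + _ ≤ ζ
    linarith
  · have := min_le_left (ω₁ / (8 * A * P.r)) (e / (24 * A * P.r * (Cb + 1)))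
    rw [← hη₁, le_div_iff₀ (by positivity)] at this
    show A * (4 * P.r * η₁) ≤ ω₁ / 2
    linarith
  · show P.r * ((1 / 64) ^ nη * (2 * P.phhi ^ 2 / (μ * P.phlo ^ 2))) ≤ ζ
    linarith [min_le_left ζ (e / (P.kap * P.r))]
  · show P.kap * (P.r * (P.r * ((1 / 64) ^ nη * (2 * P.phhi ^ 2 / (μ * P.phlo ^ 2))))) ≤ e
    have h1 := hnη.le.trans (min_le_right _ _)
    rw [le_div_iff₀ (by positivity)] at h1
    linarith
  · have hz := min_le_right (ηf / 4) (e * μ ^ 2 / (10 * (P.r : ℝ) ^ 2 * P.Cc ^ 2))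
    rw [← hζ, le_div_iff₀ (by positivity)] at hz
    have h1 : ω₁ + 2 * P.Cc * (2 * ζ) ≤ 5 * P.Cc * ζ := by
      have := mul_le_mul (hμ1.trans hCc) le_rfl hζ0.le (by linarith)
      rw [hω]
      linarith
    show (P.r : ℝ) ^ 2 * (2 * P.Cc / μ ^ 2) * (ω₁ + 2 * P.Cc * (2 * ζ)) ≤ e
    refine (mul_le_mul_of_nonneg_left h1 (by positivity)).trans ?_
    rw [show (P.r : ℝ) ^ 2 * (2 * P.Cc / μ ^ 2) * (5 * P.Cc * ζ)
      = ζ * (10 * (P.r : ℝ) ^ 2 * P.Cc ^ 2) / μ ^ 2 by ring, div_le_iff₀ (by positivity)]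
    linarith
  · show 22 * (P.r : ℝ) ^ 2 * η ≤ e
    rw [hη, mul_div_cancel₀ _ (by positivity)]
  · have h1 : η₂ * (6 * A * P.r) = e := div_mul_cancel₀ _ (by positivity)
    have h2 := min_le_right (ω₁ / (8 * A * P.r)) (e / (24 * A * P.r * (Cb + 1)))
    rw [← hη₁, le_div_iff₀ (by positivity)] at h2
    show A * (2 * P.r * η₂ + 8 * P.r * η₁ * Cb + 4 * P.r * η₁) ≤ e
    have : 0 ≤ A * P.r * η₁ * Cb := by positivity
    have : 0 ≤ A * P.r * η₁ := by positivity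
    linarith
  · show B / (2 * (n : ℝ) + 1) ≤ e
    rw [div_le_iff₀ (by positivity)]
    have : 0 ≤ (n : ℝ) * e := by positivity
    linarith
  · show P.kap * ((4 * (1 + 64) * ((m : ℝ) / B)
        * (P.r * (P.Cc * (1 - μ / (4 * P.Cc)) ^ (Nc + 1))) ^ 2
      + 3 * ((1 - μ / (4 * P.Cc)) ^ (Nc + 1)) ^ 2
      + 2 * (2 * n : ℕ) / (m + 1)) * P.r * 2) ≤ e
    set b := 1 - μ / (4 * P.Cc)
    have h1 : P.kap * (2 * (2 * n : ℕ) / (m + 1) * P.r * 2) ≤ e / 2 := by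
      rw [show P.kap * (2 * ((2 * n : ℕ) : ℝ) / (m + 1) * P.r * 2)
        = P.kap * (2 * ((2 * n : ℕ) : ℝ) * P.r * 2) / ((m : ℝ) + 1) by ring,
        div_le_iff₀ (by positivity)]
      linarith
    have hbN : (b ^ (Nc + 1)) ^ 2 ≤ b ^ Nc := by
      rw [← pow_mul]
      exact pow_le_pow_of_le_one hb0 hb1.le (by omega)
    have h2 : q * (b ^ (Nc + 1)) ^ 2 ≤ e / 2 := by
      have := mul_le_mul_of_nonneg_left hbN hq0
      have := pow_nonneg hb0 Nc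
      linarith
    rw [hq] at h2
    linarith

end SMasa

end Vale.Agent.P078.T3
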