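import Mathlib
import Vale.Agent.P078.Type3.Step.Const

/-! The total second order of the random move over the pieces of a fine partition is negative. -/

noncomputable section

open scoped ComplexOrder
open Classical Filter

set_option linter.unusedSectionVars false

namespace Vale.Agent.P078.T3

open Chan
open TMasa (ypm vpm)

universe u v

variable {M : Type u} [CStarAlgebra M] [PartialOrder M] [StarOrderedRing M]
  {Ω : Type v} [TopologicalSpace Ω] [CompactSpace Ω] [T2Space Ω]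

namespace SMasa

variable {T : SMasa M Ω} {P : Params} {x : M} {S : Smalls} {st : TSt M Ω P.r}
  {N : Fin P.r → Bool → M}

lemma pieceSum_tau (T : SMasa M Ω) {r : ℕ} (Q : Part Ω)
    (F : (Fin r → C(Ω, ℝ)) → C(Ω, ℝ)) :
    pieceSum Q (fun u => T.tau (F u)) = T.tau (∑ j, ∑ e, F (Pi.single j (Q.e e))) := by
  simp only [pieceSum, map_sum]

lemma pieceSum_sum {r : ℕ} {ι : Type*} [Fintype ι] (Q : Part Ω)
    (F : ι → (Fin r → C(Ω, ℝ)) → ℝ) :
    pieceSum Q (fun u => ∑ i, F i u) = ∑ i, pieceSum Q (F i) := by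
  simp only [pieceSum]
  rw [Finset.sum_comm (s := (Finset.univ : Finset ι))]
  exact Finset.sum_congr rfl fun j _ => Finset.sum_comm

lemma tau_mul_sum (T : SMasa M Ω) {ι : Type*} [Fintype ι] (f : C(Ω, ℝ)) (g : ι → C(Ω, ℝ)) :
    T.tau (f * ∑ i, g i) = ∑ i, T.tau (f * g i) := by
  rw [Finset.mul_sum, map_sum]

/-- the rotating square terms of the potential cost at most `η` per channel -/
lemma Ctx.mu_terms_le (C : T.Ctx P x S st N) (i : Fin P.r) {on : C(Ω, ℝ)} {η : ℝ}
    (hβ : ∀ ω, 0 ≤ on ω * T.beta P x st i ω) (hg : ∀ ω, 0 ≤ gam P st i ω) {r : ℕ} (Q : Part Ω)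
    (h : (Fin r → C(Ω, ℝ)) → C(Ω, ℝ))
    (hsq : ∀ ω, ∑ j, ∑ e, h (Pi.single j (Q.e e)) ω ^ 2 ≤ on ω)
    (hC : pieceSum Q (fun u => T.tau (T.Cch P x st N i (h u)))
      ≤ T.tau (T.Kch P x st N i (T.beta P x st i * on)) + η) (ρ : ℝ) (hρ : 0 ≤ ρ) :
    pieceSum Q (fun u => T.tau (gam P st i * (h u * h u))) + T.tau (T.drift P x st i on) ≤ 0 ∧
    pieceSum Q (fun u => T.tau (T.Kch P x st N i (gam P st i * (h u * h u)))
        + T.tau (T.Cch P x st N i (h u)))
      + (T.tau (T.Kch P x st N i (T.drift P x st i on)) - ρ * T.tau (T.Bch P x st N i)) ≤ η := by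
  set g := ∑ j, ∑ e, gam P st i * (h (Pi.single j (Q.e e)) * h (Pi.single j (Q.e e))) with hgdef
  have hg1 : g ≤ gam P st i * on := by
    refine ContinuousMap.le_def.2 fun ω => ?_
    simp only [hgdef, ContinuousMap.sum_apply, ContinuousMap.mul_apply, ← Finset.mul_sum]
    refine mul_le_mul_of_nonneg_left ?_ (hg ω)
    simpa [sq] using hsq ω
  have e1 : pieceSum Q (fun u => T.tau (gam P st i * (h u * h u))) = T.tau g := by
    rw [pieceSum_tau]
  have e2 : pieceSum Q (fun u => T.tau (T.Kch P x st N i (gam P st i * (h u * h u))))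
      = T.tau (T.Kch P x st N i g) := by
    rw [pieceSum_tau]
    congr 1
    simp only [hgdef, map_sum]
  refine ⟨?_, ?_⟩
  · rw [e1, ← map_add]
    have : g + T.drift P x st i on ≤ 0 := ContinuousMap.le_def.2 fun ω => by
      have a : g ω ≤ (gam P st i * on) ω := hg1 ω
      have b := hβ ω
      simp only [drift, ContinuousMap.add_apply, ContinuousMap.neg_apply, ContinuousMap.mul_apply,
        ContinuousMap.zero_apply] at a ⊢
      linarith
    simpa using T.tau_mono this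
  · have hsplit : pieceSum Q (fun u => T.tau (T.Kch P x st N i (gam P st i * (h u * h u)))
        + T.tau (T.Cch P x st N i (h u))) = T.tau (T.Kch P x st N i g)
          + pieceSum Q (fun u => T.tau (T.Cch P x st N i (h u))) := by
      rw [← e2]
      simp only [pieceSum, Finset.sum_add_distrib]
    have hd : T.Kch P x st N i (T.drift P x st i on)
        = -(T.Kch P x st N i (T.beta P x st i * on)) - T.Kch P x st N i (gam P st i * on) := by
      rw [drift, map_neg, add_mul, map_add]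
      abel
    have hB : 0 ≤ T.tau (T.Bch P x st N i) := T.tau_nonneg (add_nonneg
      (T.E_nonneg ((C.band i true).Bop_nonneg (TMasa.isSelfAdjoint_vpm x true)))
      (T.E_nonneg ((C.band i false).Bop_nonneg (TMasa.isSelfAdjoint_vpm x false))))
    have hmono := T.tau_mono (T.Kch_mono (x := x) st N i hg1)
    rw [hsplit, hd, map_sub, map_neg]
    linarith [mul_nonneg hρ hB]

/-- the terms of the perturbation outside the band -/
lemma Ctx.R_terms_le (C : T.Ctx P x S st N) {θ η₁ η₂ Cb ρ : ℝ} (hθ : 0 ≤ θ) (hθ1 : θ ≤ 1)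
    (hη₁ : 0 ≤ η₁) (hρ : 0 ≤ ρ) (hρ1 : ρ ≤ η₁)
    (hoff : ∀ i s f, T.n2 (T.offv (vpm x s) (N i s) f) ≤ η₁ * ‖f‖)
    (hR : ∀ i s, T.n2 (st.R i s * vpm x s) ≤ θ)
    (htr : ∀ i s, T.tr (vpm x s * (1 - N i s) * vpm x s) ≤ θ ^ 2)
    (Q : Part Ω) (h : Fin P.r → (Fin P.r → C(Ω, ℝ)) → C(Ω, ℝ)) (on : Fin P.r → C(Ω, ℝ))
    (hsq : ∀ i s, pieceSum Q (fun u => T.n2 (T.offv (vpm x s) (N i s) (h i u)) ^ 2) ≤ η₂)
    (hg : ∀ i, ‖(∑ j, ∑ e, gam P st i * (h i (Pi.single j (Q.e e)) * h i (Pi.single j (Q.e e))))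
      + T.drift P x st i (on i)‖ ≤ 2 * Cb) :
    pieceSum Q (fun u => ∑ i, ∑ s, (T.n2 (T.offv (vpm x s) (N i s) (h i u)) ^ 2
        + 2 * T.ip (st.R i s * vpm x s) (T.offv (vpm x s) (N i s) (gam P st i * (h i u * h i u)))))
      + ∑ i, ∑ s, 2 * T.ip (st.R i s * vpm x s)
          (T.offv (vpm x s) (N i s) (T.drift P x st i (on i)) + ρ • ((1 - N i s) * vpm x s))
      ≤ 2 * P.r * η₂ + 8 * P.r * η₁ * Cb + 4 * P.r * η₁ := by
  have key : ∀ i s, pieceSum Q (fun u => T.n2 (T.offv (vpm x s) (N i s) (h i u)) ^ 2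
        + 2 * T.ip (st.R i s * vpm x s) (T.offv (vpm x s) (N i s) (gam P st i * (h i u * h i u))))
      + 2 * T.ip (st.R i s * vpm x s)
          (T.offv (vpm x s) (N i s) (T.drift P x st i (on i)) + ρ • ((1 - N i s) * vpm x s))
      ≤ η₂ + 2 * (θ * (η₁ * (2 * Cb))) + 2 * (θ * (η₁ * 1)) := by
    intro i s
    set v := vpm x s with hv
    let Lin : C(Ω, ℝ) →ₗ[ℝ] ℝ :=
      { toFun := fun f => T.ip (st.R i s * v) (T.offv v (N i s) f)
        map_add' := fun f g => by rw [T.offv_add, T.ip_add_right]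
        map_smul' := fun c f => by
          rw [T.offv_smul, T.ip_smul_right, RingHom.id_apply, smul_eq_mul] }
    set g := (∑ j, ∑ e, gam P st i * (h i (Pi.single j (Q.e e)) * h i (Pi.single j (Q.e e))))
      + T.drift P x st i (on i) with hgdef
    have e : pieceSum Q (fun u => T.n2 (T.offv v (N i s) (h i u)) ^ 2
          + 2 * T.ip (st.R i s * v) (T.offv v (N i s) (gam P st i * (h i u * h i u))))
        + 2 * T.ip (st.R i s * v)
            (T.offv v (N i s) (T.drift P x st i (on i)) + ρ • ((1 - N i s) * v))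
        = pieceSum Q (fun u => T.n2 (T.offv v (N i s) (h i u)) ^ 2) + 2 * Lin g
          + 2 * (ρ * T.ip (st.R i s * v) ((1 - N i s) * v)) := by
      have hl : Lin g = (∑ j, ∑ e,
          Lin (gam P st i * (h i (Pi.single j (Q.e e)) * h i (Pi.single j (Q.e e)))))
          + Lin (T.drift P x st i (on i)) := by
        rw [hgdef, map_add, map_sum]
        simp only [map_sum]
      rw [hl, T.ip_add_right, T.ip_smul_right]
      simp only [pieceSum, Finset.sum_add_distrib, ← Finset.mul_sum, Lin, LinearMap.coe_mk,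
        AddHom.coe_mk]
      ring
    rw [e]
    have b1 : Lin g ≤ θ * (η₁ * (2 * Cb)) := (le_abs_self _).trans ((T.abs_ip_le _ _).trans
      (mul_le_mul (hR i s) ((hoff i s _).trans (mul_le_mul_of_nonneg_left (hg i) hη₁))
        (T.n2_nonneg _) hθ))
    have hP := (C.band i s).proj.one_sub
    have hn : T.n2 ((1 - N i s) * v) ≤ 1 := by
      refine le_trans ((pow_le_pow_iff_left₀ (T.n2_nonneg _) hθ two_ne_zero).1 ?_) hθ1
      rw [T.n2_sq, ip, star_mul, hP.isSelfAdjoint.star_eq,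
        (TMasa.isSelfAdjoint_vpm x s).star_eq, mul_assoc, ← mul_assoc (1 - N i s) (1 - N i s),
        hP.isIdempotentElem.eq, ← mul_assoc]
      exact htr i s
    have b2 : ρ * T.ip (st.R i s * v) ((1 - N i s) * v) ≤ θ * (η₁ * 1) := by
      calc ρ * T.ip (st.R i s * v) ((1 - N i s) * v)
          ≤ ρ * (θ * 1) := mul_le_mul_of_nonneg_left ((le_abs_self _).trans
            ((T.abs_ip_le _ _).trans (mul_le_mul (hR i s) hn (T.n2_nonneg _) hθ))) hρ
        _ ≤ η₁ * (θ * 1) := mul_le_mul_of_nonneg_right hρ1 (by linarith)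
        _ = _ := by ring
    linarith [hsq i s]
  have hsum : pieceSum Q (fun u => ∑ i, ∑ s, (T.n2 (T.offv (vpm x s) (N i s) (h i u)) ^ 2
        + 2 * T.ip (st.R i s * vpm x s) (T.offv (vpm x s) (N i s) (gam P st i * (h i u * h i u)))))
      + ∑ i, ∑ s, 2 * T.ip (st.R i s * vpm x s)
          (T.offv (vpm x s) (N i s) (T.drift P x st i (on i)) + ρ • ((1 - N i s) * vpm x s))
      ≤ ∑ _i : Fin P.r, ∑ _s : Bool, (η₂ + 2 * (θ * (η₁ * (2 * Cb))) + 2 * (θ * (η₁ * 1))) := by
    rw [pieceSum_sum]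
    simp only [pieceSum_sum]
    rw [← Finset.sum_add_distrib]
    refine Finset.sum_le_sum fun i _ => ?_
    rw [← Finset.sum_add_distrib]
    exact Finset.sum_le_sum fun s _ => key i s
  refine hsum.trans ?_
  simp only [Finset.sum_const, Finset.card_univ, Fintype.card_bool, Fintype.card_fin,
    nsmul_eq_mul]
  push_cast
  have hCb : 0 ≤ Cb := by
    have := (norm_nonneg _).trans (hg ⟨0, C.ok.r_pos⟩)
    linarith
  have hr : (0 : ℝ) ≤ P.r := Nat.cast_nonneg _
  have q1 := mul_le_mul_of_nonneg_left hθ1 (mul_nonneg hr (mul_nonneg hη₁ hCb))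
  have q2 := mul_le_mul_of_nonneg_left hθ1 (mul_nonneg hr hη₁)
  linarith

end SMasa

end Vale.Agent.P078.T3
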