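import Mathlib
import Vale.Agent.P078.Type3.Step.Total
import Vale.Agent.P078.Type3.Step.Algebra
import Vale.Agent.P078.Type3.Point.Gain
import Vale.Agent.P078.Type3.Point.Bad
import Vale.Agent.P078.Type3.Moves.Move
import Vale.Agent.P078.Type3.Moves.Lower

/-! One step of the trace-free walk. -/

noncomputable section

open scoped ComplexOrder
open Classical Filter

set_option linter.unusedSectionVars false

namespace Vale.Agent.P078.T3

open Chan
open TMasa (ypm vpm)

universe u v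

variable {M : Type u} [CStarAlgebra M] [PartialOrder M] [StarOrderedRing M]
  {Ω : Type v} [TopologicalSpace Ω] [CompactSpace Ω] [T2Space Ω]

namespace SMasa

variable {T : SMasa M Ω} {P : Params} {x : M} {S : Smalls} {st : TSt M Ω P.r}
  {N : Fin P.r → Bool → M}

lemma exists_ctx (hok : P.Ok) (hx : IsSelfAdjoint x) (hx1 : ‖x‖ ≤ 1) (hE : T.E x = 0)
    (hμ : 0 < S.μ) (hμ1 : S.μ ≤ 1) (hγ : 0 < S.γ) (hA : 0 ≤ S.A) (hinv : T.Inv P x S st)
    (hclean : T.Clean P x st) : ∃ N : Fin P.r → Bool → M, T.Ctx P x S st N := by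
  choose N hNp hNc hNl hNh using fun i s => T.exists_spectralProjection
    (Res.isSelfAdjoint_of_gap hγ.le (hinv.gap i s)) (2 * S.γ)
  exact ⟨N, hok, hx, hx1, hE, hinv, hclean,
    fun i s => ⟨hNp i s, (hNc i s _ (Commute.refl _)).symm, hNl i s, hNh i s, hinv.gap i s, hγ⟩,
    hμ, hμ1, hA⟩

lemma Ctx.Kch_one_le (C : T.Ctx P x S st N) (i : Fin P.r) (ω : Ω) :
    T.Kch P x st N i 1 ω ≤ 2 / S.γ ^ 2 := by
  have hv := fun s => (vpm_facts (x := x) C.sa C.norm_le s).2.1
  have h1 := T.K_one_le ((C.band i true).norm_Xp_le (hv true)) ω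
  have h2 := T.K_one_le ((C.band i false).norm_Xp_le (hv false)) ω
  rw [div_pow, one_pow] at h1 h2
  show T.K (T.Xb P x st N i true) 1 ω + T.K (T.Xb P x st N i false) 1 ω ≤ _
  rw [show (2 : ℝ) / S.γ ^ 2 = 1 / S.γ ^ 2 + 1 / S.γ ^ 2 by ring]
  exact add_le_add h1 h2

/-- A step of size `t` along a move with linear part at most `-a` and second order at most `b`. -/
lemma move_le (C : T.Ctx P x S st N) {ρ t a b c : ℝ} {h h2 : Fin P.r → C(Ω, ℝ)} {Cm : ℝ}
    (hγ : 0 < S.γ)
    (hmv : (∀ i, 0 ≤ (T.move P x st N ρ t h h2).sig i) ∧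
        (∀ i ω, (T.move P x st N ρ t h h2).sig i ω ≤ 1 - P.ε) ∧
        (∀ i s, IsSelfAdjoint ((T.move P x st N ρ t h h2).R i s)) ∧
        (∀ i s, S.γ • (1 : M) ≤ T.Zop P x (T.move P x st N ρ t h h2) i s) ∧
        (∀ ω, st.live ω = 0 →
          ∃ i, (T.move P x st N ρ t h h2).sig i ω = 1 - 2 * P.ε ∧
            ∀ j, j ≠ i → (T.move P x st N ρ t h h2).sig j ω = 0) ∧
        T.Vpot P x S (T.move P x st N ρ t h h2) ≤
          T.Vpot P x S st + t * T.lin P x S st N h + t ^ 2 * T.sec P x S st N ρ h h2 + Cm * t ^ 3)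
    (ht : 0 ≤ t) (hlin : T.lin P x S st N h ≤ a) (hsec : T.sec P x S st N ρ h h2 ≤ b)
    (hc : t * a + t ^ 2 * b + Cm * t ^ 3 ≤ -c) :
    ∃ st', T.Inv P x S st' ∧ T.Vpot P x S st' ≤ T.Vpot P x S st - c := by
  obtain ⟨h0, h1, h2', h3, h4, h5⟩ := hmv
  obtain ⟨st', hi, hv⟩ := Moves.assignSpec T P x C.ok S (T.move P x st N ρ t h h2) C.μ_pos.le hγ
    C.A_nonneg C.sa C.norm_le C.inv.live_idem h0 h1 h2' h3 h4
  refine ⟨st', hi, hv.trans (h5.trans ?_)⟩
  linarith [mul_le_mul_of_nonneg_left hlin ht, mul_le_mul_of_nonneg_left hsec (sq_nonneg t)]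

/-- the hypotheses on the modules -/
structure Modules (T : SMasa M Ω) (P : Params) (x : M) : Prop where
  atom : AtomSpec T
  sym : SymSpec T
  schur : SchurSpec T
  lev : LevSpec T
  forms : T.ChanFormSpec P x
  var : T.VarSpec P x
  bound : T.BoundSpec P x

theorem stepSpec_of_modules (hmod : T.Modules P x) (hok : P.Ok) (hbig : P.Big)
    (hx : IsSelfAdjoint x) (hx1 : ‖x‖ ≤ 1) (hE : T.E x = 0) : T.StepSpec P x := by
  intro ηf A₀ hηf
  obtain ⟨⟨Cb, hCb0, hCb⟩, hCsec⟩ := hmod.bound hok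
  obtain ⟨c⟩ := T.exists_stepConst P x hok hx hx1 hmod.forms hηf A₀ hCb0
  obtain ⟨Cs, hCs0, hCs⟩ := hCsec c.S c.γ_pos c.μ_pos c.μ_le c.A_pos.le
  set H : ℝ := (2 : ℝ) ^ c.n + (((2 : ℝ) ^ c.n) ^ 2 * Cb + Cb) + 1 with hH
  have hH0 : 0 ≤ H := by positivity
  have hρ0 : 0 ≤ P.rho c.S.γ := by
    have := c.γ_pos
    have := hok.ε_pos
    unfold Params.rho
    positivity
  obtain ⟨Cm, t₀, hCm0, ht₀, hmove⟩ := Moves.moveSpec T P x hok c.S H (P.rho c.S.γ) c.μ_pos.le c.μ_le
    c.γ_pos c.A_pos.le hH0 hρ0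
  have hω := c.ω₁_pos
  have he := c.e_pos
  set t := min (min t₀ 1) (min (c.ω₁ / (4 * (Cs + Cm + 1))) (c.e / (2 * (Cm + 1)))) with ht
  have ht0 : 0 < t := lt_min (lt_min ht₀ one_pos) (lt_min (by positivity) (by positivity))
  have ht1 : t ≤ t₀ := (min_le_left _ _).trans (min_le_left _ _)
  have htone : t ≤ 1 := (min_le_left _ _).trans (min_le_right _ _)
  have htA : t * (4 * (Cs + Cm + 1)) ≤ c.ω₁ := (le_div_iff₀ (by positivity)).1
    ((min_le_right _ _).trans (min_le_left _ _))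
  have htB : t * (2 * (Cm + 1)) ≤ c.e := (le_div_iff₀ (by positivity)).1
    ((min_le_right _ _).trans (min_le_right _ _))
  refine ⟨c.S, min (t * c.ω₁ / 4) (t ^ 2 * c.e / 2), c.μ_pos, c.μ_le, c.γ_pos, c.γ_le, c.A₀_le,
    c.A_pos, lt_min (by positivity) (by positivity), fun st₀ hinv₀ hV₀ hlive₀ => ?_⟩
  obtain ⟨st, hinv, hVle, hliveEq, hclean⟩ :=
    Moves.cleanSpec T P x hok c.S st₀ c.μ_pos.le c.γ_pos c.A_pos.le hx hx1 hinv₀
  rw [← hliveEq] at hlive₀
  suffices hstep : ∃ st', T.Inv P x c.S st' ∧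
      T.Vpot P x c.S st' ≤ T.Vpot P x c.S st - min (t * c.ω₁ / 4) (t ^ 2 * c.e / 2) by
    obtain ⟨st', a, b⟩ := hstep
    exact ⟨st', a, b.trans (by linarith)⟩
  obtain ⟨N, C⟩ := exists_ctx hok hx hx1 hE c.μ_pos c.μ_le c.γ_pos c.A_pos.le hinv hclean
  obtain ⟨hhub, hAs, hR2⟩ :=
    T.Vpot_components hok c.μ_pos c.γ_pos c.A_pos hinv (hVle.trans hV₀)
  have hR : ∀ i s, T.n2 (st.R i s * vpm x s) ≤ c.θ := fun i s =>
    Ctx.n2_Rv_le c.θ_pos.le (hR2.trans c.Rv) i s
  have hband : ∀ i s, T.tr (vpm x s * (1 - N i s) * vpm x s) ≤ 2 * c.S.γ * P.K₀ := fun i s =>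
    C.trace_band_le (T.badSpec P x) hAs i s
  have hoff : ∀ i s f, T.n2 (T.offv (vpm x s) (N i s) f) ≤ c.η₁ * ‖f‖ := fun i s f =>
    c.off s (N i s) (C.band i s).proj (hband i s) f
  obtain ⟨K, hK⟩ := exists_atom hmod.atom hmod.sym C c.η_pos
  set Lsum := ∑ i, (T.tau (T.Sf P x c.S st K i * T.ef P x c.S st K i)
    + c.S.μ / 2 * T.tau (T.Sf P x c.S st K i)) with hLsum
  rcases le_total c.ω₁ Lsum with hcase | hcase
  · -- lowering the sites which are not stationary
    set h : Fin P.r → C(Ω, ℝ) := fun i => -T.Sf P x c.S st K i with hh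
    have hh1 : ∀ i, ‖h i‖ ≤ 1 := fun i => by
      rw [hh, norm_neg]
      refine norm_fun_le zero_le_one fun ω => ?_
      rcases idem_zero_or_one (C.Sf_idem K i) ω with a | a <;> rw [a] <;> simp
    have hsupp : ∀ i ω, h i ω ≠ 0 → st.live ω = 1 ∧ 0 < st.sig i ω := fun i ω hne => by
      have h1 : T.Sf P x c.S st K i ω = 1 :=
        (idem_zero_or_one (C.Sf_idem K i) ω).resolve_left fun a => hne (by simp [hh, a])
      obtain ⟨-, ha⟩ := (mul_eq_one (T.pos_mul_self _) (C.aS_idem i)).1 h1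
      obtain ⟨hl, hact⟩ := (mul_eq_one C.inv.live_idem (T.act_idem st i)).1 ha
      exact ⟨hl, (C.sig_of_act i hl hact).2⟩
    have hlin : T.lin P x c.S st N h ≤ -(c.ω₁ / 2) := by
      refine (lin_neg_S_le C hK.le hK.tp_wgt).trans ?_
      have hRl : T.Rlin P x st N h ≤ 4 * P.r * c.η₁ := by
        refine (le_abs_self _).trans ((abs_Rlin_le c.θ_pos.le c.η₁_pos.le h hh1 hR hoff).trans ?_)
        calc 4 * (P.r : ℝ) * c.θ * c.η₁ * 1 ≤ 4 * P.r * 1 * c.η₁ * 1 := by
              have := c.η₁_pos.le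
              gcongr
              exact c.θ_le
          _ = _ := by ring
      have h1 : c.S.A * c.S.μ * T.Rlin P x st N h ≤ c.S.A * (4 * P.r * c.η₁) := by
        calc c.S.A * c.S.μ * T.Rlin P x st N h ≤ c.S.A * c.S.μ * (4 * P.r * c.η₁) :=
              mul_le_mul_of_nonneg_left hRl (mul_nonneg c.A_pos.le c.μ_pos.le)
          _ = c.S.μ * (c.S.A * (4 * P.r * c.η₁)) := by ring
          _ ≤ _ := mul_le_of_le_one_left (by
              have := c.A_pos
              have := c.η₁_pos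
              positivity) c.μ_le
      linarith [c.Asmall]
    have hsec : T.sec P x c.S st N 0 h 0 ≤ Cs := (le_abs_self _).trans
      (hCs st N C (fun i s => (hR i s).trans c.θ_le) h hh1 hsupp)
    refine move_le C c.γ_pos (hmove st N C 0 t h 0 le_rfl hρ0 ht0.le ht1
      (fun i => (hh1 i).trans (by
        have : 0 ≤ (2 : ℝ) ^ c.n + (((2 : ℝ) ^ c.n) ^ 2 * Cb + Cb) := by positivity
        rw [hH]; linarith))
      (fun i => by simpa using hH0) fun i ω hω0 => ⟨by_contra fun hne => ?_, rfl⟩)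
      ht0.le hlin hsec (le_trans ?_ (neg_le_neg (min_le_left _ _)))
    · obtain ⟨hl, hσ⟩ := hsupp i ω hne
      rcases hω0 with a | a
      · rw [a] at hσ; exact lt_irrefl 0 hσ
      · rw [a] at hl; exact zero_ne_one hl
    · have a1 : t ^ 2 * Cs + Cm * t ^ 3 ≤ t * (t * (Cs + Cm)) := by
        have : t ^ 3 ≤ t ^ 2 := pow_le_pow_of_le_one ht0.le htone (by norm_num)
        linarith [mul_le_mul_of_nonneg_left this hCm0]
      have a2 : t * (t * (Cs + Cm)) ≤ t * (c.ω₁ / 4) :=
        mul_le_mul_of_nonneg_left (by linarith) ht0.le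
      linarith
  · -- a random move along the constraint
    have hact := T.actSpec P x
    obtain ⟨Z, θ, hZ01, hZf, hθ, hZτ, hX', hloss⟩ :=
      C.frozen hact hbig hK.coef_nonneg c.Nc c.nη
    set onI := T.onZ P st Z with honI
    set on : Fin P.r → C(Ω, ℝ) := fun i => onI i * θ i with hondef
    set q : Fin P.r → C(Ω, ℝ) := fun i => T.wF P x st i * θ i with hqdef
    set φ : Fin P.r → C(Ω, ℝ) := fun i => cphi2 (st.sig i) with hφdef
    set Tm := T.rowM P x st Z q K with hTm
    set p : Fin P.r → C(Ω, ℝ) := fun i => T.pF P x st (on i) i with hp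
    set D : Fin P.r → C(Ω, ℝ) := fun i => T.DF P x st (on i) i with hD
    have hw := fun i ω => wF_bounds (T := T) (x := x) (st := st) hok i ω
    set Sop := (GOp.yOp Tm c.B).pow c.n with hSop
    have hμ := c.μ_pos
    have hoi : ∀ i, onI i * onI i = onI i := fun i => mul_idem (C.aS_idem i) (one_sub_idem hZ01)
    have honf : ∀ i ω, onI i ω = 1 → T.onf P x c.S st N K i ω = 1 := fun i ω h => by
      obtain ⟨h1, h2⟩ := (mul_eq_one (C.aS_idem i) (one_sub_idem hZ01)).1 h
      refine (mul_eq_one (C.aS_idem i) (one_sub_idem (C.Zf_idem K))).2 ⟨h1, one_sub_eq_one.2 ?_⟩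
      refine (idem_zero_or_one (C.Zf_idem K) ω).resolve_right fun h3 => ?_
      rw [one_sub_eq_one, hZf ω h3] at h2
      exact one_ne_zero h2
    have hon := fun i ω (h : onI i ω = 1) =>
      C.on_facts hact hK.coef_nonneg i (ω := ω) (K := K) (honf i ω h)
    have hq01 : ∀ i ω, 0 ≤ q i ω ∧ q i ω ≤ 1 := fun i ω =>
      ⟨mul_nonneg (hw i ω).1.le (hθ i ω).1.le, mul_le_one₀ (hw i ω).2 (hθ i ω).1.le (hθ i ω).2⟩
    have hon01 : ∀ i ω, 0 ≤ on i ω ∧ on i ω ≤ 1 := fun i ω =>
      ⟨mul_nonneg (idem_nonneg (hoi i) ω) (hθ i ω).1.le,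
        mul_le_one₀ (idem_le_one (hoi i) ω) (hθ i ω).1.le (hθ i ω).2⟩
    have honne : ∀ i ω, on i ω ≠ 0 → onI i ω = 1 := fun i ω h =>
      (idem_zero_or_one (hoi i) ω).resolve_left fun h0 => h (mul_eq_zero_of_left h0 _)
    have hpe : ∀ i, p i = onI i * q i := fun i => by
      simp only [hp, pF, hondef, hqdef]
      ring
    have hSe0 : ∀ i, 0 ≤ T.tau (T.Sf P x c.S st K i * T.ef P x c.S st K i) := fun i =>
      T.tau_nonneg (Sf_ef_nonneg C i)
    have hS0 : ∀ i, 0 ≤ T.tau (T.Sf P x c.S st K i) := fun i =>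
      T.tau_nonneg (idem_nonneg (C.Sf_idem K i))
    rw [hLsum, Finset.sum_add_distrib, ← Finset.mul_sum] at hcase
    have hSe : (∑ i, T.tau (T.Sf P x c.S st K i * T.ef P x c.S st K i)) ≤ c.ω₁ := by
      have := mul_nonneg (show 0 ≤ c.S.μ / 2 by linarith)
        (Finset.sum_nonneg fun i (_ : i ∈ Finset.univ) => hS0 i)
      linarith
    have hZ : T.tau (T.Zf P x c.S st N K) ≤ c.ζ := by
      refine (tau_Zf_le C (T.badSpec P x) hAs c.band c.band' hR).trans (le_trans ?_ c.Zsmall)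
      refine add_le_add ?_ le_rfl
      rw [le_div_iff₀ hμ]
      linarith [Finset.sum_nonneg fun i (_ : i ∈ Finset.univ) => hSe0 i]
    have hZ2 : T.tau Z ≤ 2 * c.ζ := by linarith [c.freeze]
    -- the operator
    have hk0 : 0 ≤ c.k := by rw [c.k_eq]; have := c.γ_pos; positivity
    have hCc0 : 0 ≤ P.Cc := by linarith [hok.Cc_ge]
    have ha0 : 0 ≤ (P.r : ℝ) * (P.Cc + c.k) := by positivity
    have hKone : ∀ i ω, (K i).app1 1 ω ≤ c.k := fun i ω => by
      rw [c.k_eq]
      exact (hK.le i 1 zero_le_one ω).trans (C.Kch_one_le i ω)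
    obtain ⟨hFa, hFc⟩ := GOp.fbd_rowOp (c := fun i => T.cch P x st i * q i)
      (K := fun i => (K i).colMul (q i)) hCc0
      (mul_idem (bandSet_idem C.inv.live_idem) (one_sub_idem hZ01)) hoi
      (fun j ω => ⟨(C.phi_bounds j ω).1, (C.phi_bounds j ω).2.trans (by norm_num)⟩)
      (fun j ω ho _ => by
        obtain ⟨⟨hl, hσ, -⟩, -⟩ := hon j ω ho
        rw [ContinuousMap.mul_apply, abs_mul, abs_of_nonneg (hq01 j ω).1]
        exact (mul_le_of_le_one_right (abs_nonneg _) (hq01 j ω).2).trans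
          (hact _ _ _ C j ω hl hσ).2.2.2.1)
      (fun j => GOp.colMul_nonneg (hK.coef_nonneg j) fun a => (hq01 j a).1)
      (fun i ω => (GOp.app1_colMul_le (hK.coef_nonneg i) (fun a => (hq01 i a).2) ω).1.trans
        (hKone i ω))
      (fun i ω => (GOp.app1_colMul_le (hK.coef_nonneg i) (fun a => (hq01 i a).2) ω).2.trans
        (by rw [hK.tp_app]; exact hKone i ω))
    have hTmB : OpBd Tm.ker (Real.sqrt c.B) := by
      rw [c.B_eq]
      exact hmod.schur Tm _ _ ha0 ha0 hFa hFc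
    obtain ⟨hrow, d, hd, hd01, hev⟩ := hmod.lev Tm c.B c.n c.B_pos hTmB
    set hU : Fin P.r → (Fin P.r → C(Ω, ℝ)) → C(Ω, ℝ) := fun i u => p i * Sop.app u i with hhU
    have hSapp : ∀ i u, hU i u = p i * (Sop.rowSel i).app u () := fun i u => by
      rw [hhU, GOp.app_rowSel]
    have hActG : ∀ i ω, on i ω ≠ 0 → T.ActGood P x st N i ω := fun i ω h =>
      (hon i ω (honne i ω h)).1
    have hsupp : ∀ i ω, on i ω ≠ 0 → st.live ω = 1 ∧ 0 < st.sig i ω := fun i ω h => by
      obtain ⟨a, b, -⟩ := hActG i ω h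
      exact ⟨a, b⟩
    have hon1 : ∀ i ω, |on i ω| ≤ 1 := fun i ω => by
      rw [abs_of_nonneg (hon01 i ω).1]; exact (hon01 i ω).2
    have hp01 : ∀ i ω, |p i ω| ≤ 1 ∧ 0 ≤ D i ω ∧ D i ω ≤ 1 ∧ p i ω ^ 2 = D i ω := fun i ω => by
      obtain ⟨a, b⟩ := hw i ω
      obtain ⟨h0, h1⟩ := hon01 i ω
      have e1 : p i ω = on i ω * T.wF P x st i ω := rfl
      have e2 : D i ω = on i ω * on i ω * (T.wF P x st i ω * T.wF P x st i ω) := rfl
      rw [e1, e2]
      refine ⟨?_, by positivity, mul_le_one₀ (mul_le_one₀ h1 h0 h1) (by positivity)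
        (mul_le_one₀ b a.le b), by ring⟩
      rw [abs_of_nonneg (mul_nonneg h0 a.le)]
      exact mul_le_one₀ h1 a.le b
    have hDs : ∀ i ω, D i ω ≠ 0 → T.ActGood P x st N i ω := fun i ω h => hActG i ω
      fun h0 => h (mul_eq_zero_of_left (mul_eq_zero_of_left h0 _) _)
    have hDs' : ∀ i ω, D i ω ≠ 0 → st.live ω = 1 ∧ 0 < st.sig i ω := fun i ω h =>
      ⟨(hDs i ω h).1, (hDs i ω h).2.1⟩
    have hD1 : ∀ i ω, |D i ω| ≤ 1 := fun i ω => by
      rw [abs_of_nonneg (hp01 i ω).2.1]; exact (hp01 i ω).2.2.1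
    have hgam : ∀ i ω, 0 ≤ gam P st i ω := fun i ω =>
      (hCb c.S st N C i (on i) 0 (hsupp i) (hon1 i) (fun _ => by simp)).2.2 ω
    have hβ : ∀ i ω, 0 ≤ D i ω * T.beta P x st i ω := fun i ω =>
      le_trans (mul_nonneg (hp01 i ω).2.1
          (T.E_nonneg ((C.band i true).Xp_nonneg (TMasa.isSelfAdjoint_vpm x true)) ω))
        ((T.gainSpec P x c.S st N C i (D i) (fun y => ⟨(hp01 i y).2.1, (hp01 i y).2.2.1⟩)
          (hDs i)).2 true ω)
    have hevsq : ∀ᶠ Q : Part Ω in atTop, ∀ i ω,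
        ∑ j, ∑ e, ((Sop.rowSel i).app (Pi.single j (Q.e e)) () ω) ^ 2 = 1 - d i ω := by
      filter_upwards [hev] with Q hQ i ω
      simp only [GOp.app_rowSel]
      exact hQ.1 i ω
    -- the estimates on a fine partition
    have hform : ∀ i, ∀ᶠ Q : Part Ω in atTop, _ := fun i => hmod.forms.1 c.S st N C i (on i) (d i)
      (Sop.rowSel i) (hon01 i) (hActG i) (hrow i) (fun ω => (hd01 i ω).1)
      (hevsq.mono fun Q hQ => hQ i) c.η c.η_pos
    have hoffS : ∀ i s, ∀ᶠ Q : Part Ω in atTop, _ := fun i s =>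
      c.offSq s (N i s) (C.band i s).proj (hband i s) (p i) (Sop.rowSel i)
        (fun ω => (hp01 i ω).1)
        (hrow i) (hevsq.mono fun Q hQ ω => by rw [hQ i ω]; linarith [(hd01 i ω).1])
    have hvar := hmod.var c.S st N C K Z q c.η c.B c.ω₁ (2 * c.ζ) c.n hZ01 hZf hq01 c.η_pos hK
      c.B_pos hTmB hSe hZ2
    simp only [← honI, ← hpe] at hvar
    obtain ⟨Q, hQsq, hQf, hQo, hQv⟩ := (hevsq.and ((eventually_all.2 hform).and
      ((eventually_all.2 fun i => eventually_all.2 (hoffS i)).and hvar))).exists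
    have hsq : ∀ i ω, ∑ j, ∑ e, hU i (Pi.single j (Q.e e)) ω ^ 2 ≤ D i ω := fun i ω => by
      simp only [hSapp, ContinuousMap.mul_apply, mul_pow, ← Finset.mul_sum]
      rw [hQsq i ω, (hp01 i ω).2.2.2]
      exact mul_le_of_le_one_right (hp01 i ω).2.1 (by linarith [(hd01 i ω).1])
    have hg2 : ∀ i, ‖(∑ j, ∑ e, gam P st i *
        (hU i (Pi.single j (Q.e e)) * hU i (Pi.single j (Q.e e))))
          + T.drift P x st i (D i)‖ ≤ 2 * Cb := fun i => by
      set g := ∑ j, ∑ e, hU i (Pi.single j (Q.e e)) * hU i (Pi.single j (Q.e e)) with hgdef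
      have hg : ∀ ω, |g ω| ≤ 1 := fun ω => by
        have h1 : g ω = ∑ j, ∑ e, hU i (Pi.single j (Q.e e)) ω ^ 2 := by
          simp [hgdef, sq]
        rw [h1, abs_of_nonneg (Finset.sum_nonneg fun _ _ => Finset.sum_nonneg fun _ _ =>
          sq_nonneg _)]
        exact (hsq i ω).trans ((le_abs_self _).trans (hD1 i ω))
      obtain ⟨b1, b2, -⟩ := hCb c.S st N C i (D i) g (hDs' i) (hD1 i) hg
      rw [hgdef] at b1
      simp only [Finset.mul_sum] at b1
      exact (norm_add_le _ _).trans (by linarith)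
    -- signs
    let L : (Fin P.r → C(Ω, ℝ)) →ₗ[ℝ] (Fin P.r → C(Ω, ℝ)) :=
      LinearMap.pi fun i => (LinearMap.mulLeft ℝ (p i)).comp
        ((LinearMap.proj i).comp Sop.appLin)
    have hL : ∀ u, L u = fun i => hU i u := fun u => rfl
    set u0 : Fin P.r × Fin Q.n → (Fin P.r → C(Ω, ℝ)) := fun k => Pi.single k.1 (Q.e k.2) with hu0
    obtain ⟨sg, hsg, hQle⟩ := ((T.qf_Qsec P x c.S st N).comp_linear L).exists_sign u0 Finset.univ
    set w := ∑ k, sg k • u0 k with hw
    have hw1 : ∀ j ω, |w j ω| ≤ 1 := fun j ω => by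
      have e : w j ω = ∑ e, sg (j, e) * Q.e e ω := by
        rw [hw, Finset.sum_apply, ContinuousMap.sum_apply, Fintype.sum_prod_type,
          Finset.sum_eq_single j]
        · simp [hu0]
        · intro b _ hb
          exact Finset.sum_eq_zero fun e _ => by simp [hu0, Pi.single_eq_of_ne hb.symm]
        · simp
      rw [e]
      refine (Finset.abs_sum_le_sum_abs _ _).trans ((Finset.sum_le_sum (g := fun e => Q.e e ω)
        fun e _ => ?_).trans (le_of_eq ?_))
      · have h0 : 0 ≤ Q.e e ω := idem_nonneg (Q.isPartition.idem e) ω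
        rw [abs_mul, abs_of_nonneg h0]
        exact mul_le_of_le_one_left h0 (hsg _)
      · simpa using DFunLike.congr_fun Q.isPartition.sum_one ω
    have hpiece : ∑ k, T.Qsec P x c.S st N (L (u0 k))
        = pieceSum Q (fun u => T.Qsec P x c.S st N fun i => hU i u) := by
      rw [pieceSum, Fintype.sum_prod_type]
      simp only [hL, hu0]
    -- the total second order
    have hsum : pieceSum Q (fun u => T.Qsec P x c.S st N fun i => hU i u)
        + T.Dsec P x c.S st N (P.rho c.S.γ) D ≤ -c.e := by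
      have t1 : pieceSum Q (fun u => T.tau (T.bandSet P x st
            * ((∑ i, T.Jch P x st N i (hU i u)) * ∑ i, T.Jch P x st N i (hU i u))) / 2)
          ≤ c.e + c.e + 20 * (P.r : ℝ) ^ 2 * c.η :=
        hQv.trans (by linarith [c.curv, c.var])
      have t2 : ∑ i, (pieceSum Q (fun u => -T.tau (T.Lam P x c.S st
              * (T.Jch P x st N i (gam P st i * (hU i u * hU i u)) + T.Fq P x st N i (hU i u))))
            - T.tau (T.Lam P x c.S st * (T.Jch P x st N i (T.drift P x st i (D i))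
              + P.rho c.S.γ • (cphi2 (st.sig i) * T.Bch P x st N i))))
          ≤ P.kap * T.tau (T.Lam P x c.S st * ∑ i, d i)
            - P.kap / 12 * T.tau (T.Lam P x c.S st * ∑ i, on i * on i * spX P st i)
            + P.r * c.η := by
        refine (Finset.sum_le_sum (g := fun i => P.kap * T.tau (T.Lam P x c.S st * d i)
          - P.kap / 12 * T.tau (T.Lam P x c.S st * (on i * on i * spX P st i)) + c.η)
            fun i _ => ?_).trans (le_of_eq ?_)
        · simp only [hSapp]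
          exact (hQf i).1
        · rw [tau_mul_sum, tau_mul_sum, Finset.sum_add_distrib, Finset.sum_sub_distrib,
            ← Finset.mul_sum, ← Finset.mul_sum]
          simp
      have t3 := fun i => C.mu_terms_le i (η := c.η) (hβ i) (hgam i) Q (hU i) (hsq i)
        (by simp only [hSapp]; exact (hQf i).2) (P.rho c.S.γ) hρ0
      have t4 := C.R_terms_le (θ := c.θ) (η₁ := c.η₁) (η₂ := c.η₂) (Cb := Cb) c.θ_pos.le c.θ_le
        c.η₁_pos.le hρ0 c.rho_le hoff hR (fun i s => (hband i s).trans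
          ((Real.sqrt_le_left c.θ_pos.le).1 c.band')) Q hU D
        (fun i s => by simp only [hSapp]; exact hQo i s) hg2
      have hrankb := hloss c.B (2 * c.n) c.m d c.B_pos hTmB hd
      have hmass := C.mass_ge (K := K)
      have hgain : 8 * c.e
          ≤ P.kap / 24 * T.tau (T.Lam P x c.S st
            * ∑ i, T.onf P x c.S st N K i * spX P st i) := by
        rw [← c.e_eq, show P.kap = P.ε ^ 4 from rfl]
        refine mul_le_mul_of_nonneg_left (le_trans ?_ hmass) (by positivity)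
        refine mul_le_mul_of_nonneg_left ?_
          (mul_nonneg hμ.le (by linarith [hok.L_ge]))
        linarith [c.hub, c.ζ_le]
      have m1 := mul_nonpos_of_nonneg_of_nonpos hμ.le
        (Finset.sum_nonpos fun i (_ : i ∈ Finset.univ) => (t3 i).1)
      have m2 : c.S.μ * ∑ i, (pieceSum Q (fun u =>
            T.tau (T.Kch P x st N i (gam P st i * (hU i u * hU i u)))
              + T.tau (T.Cch P x st N i (hU i u)))
          + (T.tau (T.Kch P x st N i (T.drift P x st i (D i)))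
              - P.rho c.S.γ * T.tau (T.Bch P x st N i))) ≤ P.r * c.η := by
        calc _ ≤ c.S.μ * ((P.r : ℝ) * c.η) := mul_le_mul_of_nonneg_left
              ((Finset.sum_le_sum fun i _ => (t3 i).2).trans (le_of_eq (by simp))) hμ.le
          _ ≤ _ := mul_le_of_le_one_left (mul_nonneg (Nat.cast_nonneg _) c.η_pos.le) c.μ_le
      have hR0 : 0 ≤ c.S.A
          * (2 * P.r * c.η₂ + 8 * P.r * c.η₁ * Cb + 4 * P.r * c.η₁) := by
        have := c.A_pos
        have := c.η₁_pos
        have := c.η₂_pos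
        positivity
      have m3 : c.S.A * c.S.μ * (pieceSum Q (fun u => ∑ i, ∑ s,
            (T.n2 (T.offv (vpm x s) (N i s) (hU i u)) ^ 2 + 2 * T.ip (st.R i s * vpm x s)
              (T.offv (vpm x s) (N i s) (gam P st i * (hU i u * hU i u)))))
          + ∑ i, ∑ s, 2 * T.ip (st.R i s * vpm x s)
              (T.offv (vpm x s) (N i s) (T.drift P x st i (D i))
                + P.rho c.S.γ • ((1 - N i s) * vpm x s))) ≤ c.e := by
        calc _ ≤ c.S.A * c.S.μ
              * (2 * P.r * c.η₂ + 8 * P.r * c.η₁ * Cb + 4 * P.r * c.η₁) :=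
              mul_le_mul_of_nonneg_left t4 (mul_nonneg c.A_pos.le hμ.le)
          _ = c.S.μ * (c.S.A * (2 * P.r * c.η₂ + 8 * P.r * c.η₁ * Cb + 4 * P.r * c.η₁)) := by
              ring
          _ ≤ 1 * (c.S.A * (2 * P.r * c.η₂ + 8 * P.r * c.η₁ * Cb + 4 * P.r * c.η₁)) :=
              mul_le_mul_of_nonneg_right c.μ_le hR0
          _ ≤ _ := by rw [one_mul]; exact c.Rsmall
      have hr1 : (1 : ℝ) ≤ P.r := by exact_mod_cast hok.r_pos
      have hrη : (P.r : ℝ) * c.η ≤ (P.r : ℝ) ^ 2 * c.η :=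
        mul_le_mul_of_nonneg_right (le_self_pow₀ hr1 two_ne_zero) c.η_pos.le
      have expand : pieceSum Q (fun u => T.Qsec P x c.S st N fun i => hU i u)
          + T.Dsec P x c.S st N (P.rho c.S.γ) D =
        pieceSum Q (fun u => T.tau (T.bandSet P x st
            * ((∑ i, T.Jch P x st N i (hU i u)) * ∑ i, T.Jch P x st N i (hU i u))) / 2)
        + ∑ i, (pieceSum Q (fun u => -T.tau (T.Lam P x c.S st
              * (T.Jch P x st N i (gam P st i * (hU i u * hU i u)) + T.Fq P x st N i (hU i u))))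
            - T.tau (T.Lam P x c.S st * (T.Jch P x st N i (T.drift P x st i (D i))
              + P.rho c.S.γ • (cphi2 (st.sig i) * T.Bch P x st N i))))
        + c.S.μ * (∑ i, (pieceSum Q (fun u => T.tau (gam P st i * (hU i u * hU i u)))
            + T.tau (T.drift P x st i (D i))))
        + c.S.μ * ∑ i, (pieceSum Q (fun u =>
              T.tau (T.Kch P x st N i (gam P st i * (hU i u * hU i u)))
                + T.tau (T.Cch P x st N i (hU i u)))
            + (T.tau (T.Kch P x st N i (T.drift P x st i (D i)))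
                - P.rho c.S.γ * T.tau (T.Bch P x st N i)))
        + c.S.A * c.S.μ * (pieceSum Q (fun u => ∑ i, ∑ s,
              (T.n2 (T.offv (vpm x s) (N i s) (hU i u)) ^ 2 + 2 * T.ip (st.R i s * vpm x s)
                (T.offv (vpm x s) (N i s) (gam P st i * (hU i u * hU i u)))))
            + ∑ i, ∑ s, 2 * T.ip (st.R i s * vpm x s)
                (T.offv (vpm x s) (N i s) (T.drift P x st i (D i))
                  + P.rho c.S.γ • ((1 - N i s) * vpm x s))) := by
        simp only [Qsec, Dsec, tau_mul_sum, sub_eq_add_neg, ← Finset.sum_neg_distrib]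
        simp only [Finset.sum_add_distrib, ← Finset.sum_neg_distrib]
        simp only [← pieceSum_sum]
        simp only [pieceSum, Finset.sum_add_distrib, ← Finset.mul_sum, mul_add,
          Finset.sum_neg_distrib]
        ring
      rw [expand]
      have hg := mul_le_mul_of_nonneg_left hX' (show 0 ≤ P.kap / 12 by linarith [kap_pos hok])
      linarith [c.atom, c.rank, c.freeze', c.curv, c.var]
    obtain ⟨w', hw'1, hQw', hlin⟩ : ∃ w' : Fin P.r → C(Ω, ℝ), (∀ j ω, |w' j ω| ≤ 1) ∧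
        T.Qsec P x c.S st N (L w') ≤ ∑ k, T.Qsec P x c.S st N (L (u0 k)) ∧
        T.lin P x c.S st N (L w') ≤ 0 := by
      rcases le_total (T.lin P x c.S st N (L w)) 0 with hl | hl
      · exact ⟨w, hw1, hQle, hl⟩
      · refine ⟨-w, fun j ω => by simpa using hw1 j ω, ?_, ?_⟩
        · rw [map_neg, (T.qf_Qsec P x c.S st N).map_neg]
          exact hQle
        · have e : T.lin P x c.S st N (L (-w)) = -T.lin P x c.S st N (L w) := by
            rw [map_neg]
            have eoff : ∀ i s, T.offv (vpm x s) (N i s) (-(L w i))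
                = -T.offv (vpm x s) (N i s) (L w i) := fun i s => by
              rw [← neg_one_smul ℝ (L w i), T.offv_smul, neg_one_smul]
            have eip : ∀ a b : M, T.ip a (-b) = -T.ip a b := fun a b => by simp [ip]
            have ej : ∀ i, T.Jch P x st N i (-(L w i)) = -T.Jch P x st N i (L w i) := fun i => by
              simp only [Jch, map_neg]
              ring
            simp only [lin, Pi.neg_apply, map_neg, mul_neg, ej, eoff, eip, Finset.sum_neg_distrib]
            ring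
          rw [e]
          linarith
    set h := L w' with hhdef
    set h2 : Fin P.r → C(Ω, ℝ) := fun i => gam P st i * (h i * h i) + T.drift P x st i (D i)
      with hh2def
    have hsec : T.sec P x c.S st N (P.rho c.S.γ) h h2 ≤ -c.e := by
      rw [hh2def, T.sec_eq]
      linarith [hQw', hpiece, hsum]
    have hp2 : (1 : ℝ) ≤ (2 : ℝ) ^ c.n := one_le_pow₀ one_le_two
    have hhb : ∀ i ω, |h i ω| ≤ (2 : ℝ) ^ c.n := fun i ω => by
      rw [hhdef, hL, hhU, ContinuousMap.mul_apply, abs_mul]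
      exact (mul_le_of_le_one_left (abs_nonneg _) (hp01 i ω).1).trans
        (GOp.abs_app_pow_yOp_le hFa hFc ha0 ha0 (le_of_eq c.B_eq.symm) c.B_pos c.n hw'1 i ω)
    have hz : ∀ i ω, (st.sig i ω = 0 ∨ st.live ω = 0) → on i ω = 0 := fun i ω h0 => by
      by_contra hne
      obtain ⟨a, b⟩ := hsupp i ω hne
      rcases h0 with z | z
      · rw [z] at b; exact lt_irrefl 0 b
      · rw [z] at a; exact zero_ne_one a
    refine move_le C c.γ_pos (hmove st N C (P.rho c.S.γ) t h h2 hρ0 le_rfl ht0.le ht1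
      (fun i => norm_fun_le hH0 fun ω => (hhb i ω).trans (by
        have : 0 ≤ ((2 : ℝ) ^ c.n) ^ 2 * Cb + Cb + 1 := by positivity
        rw [hH]; linarith))
      (fun i => ?_) fun i ω h0 => ?_) ht0.le hlin hsec
      (le_trans ?_ (neg_le_neg (min_le_right _ _)))
    · obtain ⟨b1, b2, -⟩ := hCb c.S st N C i (D i) ((((2 : ℝ) ^ c.n) ^ 2)⁻¹ • (h i * h i))
        (hDs' i) (hD1 i) (fun ω => by
          rw [ContinuousMap.smul_apply, smul_eq_mul, ContinuousMap.mul_apply, abs_mul,
            abs_of_nonneg (by positivity), inv_mul_le_iff₀ (by positivity), mul_one, abs_mul,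
            pow_two]
          exact mul_le_mul (hhb i ω) (hhb i ω) (abs_nonneg _) (by positivity))
      rw [mul_smul_comm, norm_smul, Real.norm_eq_abs, abs_of_nonneg (by positivity),
        inv_mul_le_iff₀ (by positivity)] at b1
      refine (norm_add_le _ _).trans ?_
      rw [hH]
      linarith
    · have hh0 : h i ω = 0 := by
        rw [hhdef, hL, hhU, ContinuousMap.mul_apply]
        simp [hp, pF, hz i ω h0]
      refine ⟨hh0, ?_⟩
      simp [hh2def, drift, hh0, hD, DF, hz i ω h0]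
    · have a1 : t * (2 * (Cm + 1)) * t ^ 2 ≤ c.e * t ^ 2 := mul_le_mul_of_nonneg_right htB (sq_nonneg t)
      have : 0 ≤ t ^ 3 := pow_nonneg ht0.le 3
      linarith

end SMasa

end Vale.Agent.P078.T3
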