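import Mathlib
import Vale.Agent.P078.Type3.Step.Decomp
import Vale.Agent.P078.Type3.Graph.Transport
import Vale.Agent.P078.Type3.Atom.Spec
import Vale.Agent.P078.Type3.Forms.Ker

/-! The part of a channel outside its atoms is small on the images of pieces. -/

noncomputable section

open scoped ComplexOrder
open Classical Filter

set_option linter.unusedSectionVars false

namespace Vale.Agent.P078.T3

open Chan
open TMasa (ypm vpm)

universe u v

variable {M : Type u} [CStarAlgebra M] [PartialOrder M] [StarOrderedRing M]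
  {Ω : Type v} [TopologicalSpace Ω] [CompactSpace Ω] [T2Space Ω] {T : SMasa M Ω}

namespace GOp

/-- `app1` as a linear map -/
def app1L (K : GOp T Unit Unit) : Module.End ℝ C(Ω, ℝ) where
  toFun := K.app1
  map_add' f g := by
    ext b
    simp only [ContinuousMap.add_apply, app1_apply, ← List.sum_map_add, mul_add]
  map_smul' c f := by
    ext b
    simp only [RingHom.id_apply, ContinuousMap.smul_apply, smul_eq_mul, app1_apply,
      ← List.sum_map_mul_left]
    congr 1
    exact List.map_congr_left fun t _ => by ring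

lemma app1L_apply (K : GOp T Unit Unit) (f : C(Ω, ℝ)) : K.app1L f = K.app1 f := rfl

/-- the action through the kernel -/
lemma app_eq_sum_ker {ι κ : Type} [Fintype κ] (S : GOp T ι κ) (u : κ → C(Ω, ℝ)) (i : ι) (b : Ω)
    {s : Finset Ω} (hs : FormKer.reach S b ⊆ s) :
    S.app u i b = ∑ y ∈ s ×ˢ (Finset.univ : Finset κ), S.ker (b, i) y * u y.2 y.1 := by
  simp only [app_apply, ker, ← List.sum_map_mul_right, frm_finset_list_sum_comm]
  congr 1
  refine List.map_congr_left fun t ht => ?_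
  rw [Finset.sum_eq_single (t.g.toDom b, t.col)]
  · simp
  · intro y _ hy
    rw [if_neg, zero_mul]
    rintro ⟨-, h2, h3⟩
    exact hy (Prod.ext h3.symm h2.symm)
  · intro h
    exact absurd (Finset.mem_product.2 ⟨hs (FormKer.mem_reach ht b), Finset.mem_univ _⟩) h

lemma exists_of_ker_ne_zero {ι κ : Type} {S : GOp T ι κ} {x : Ω × ι} {y : Ω × κ}
    (h : S.ker x y ≠ 0) : ∃ t ∈ S, t.g.ran x.1 = 1 ∧ t.g.toDom x.1 = y.1 := by
  by_contra hne
  refine h (List.sum_eq_zero fun z hz => ?_)
  obtain ⟨t, ht, rfl⟩ := List.mem_map.1 hz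
  split_ifs with hc
  · rcases idem_zero_or_one t.g.ran_idem x.1 with h0 | h1
    · rw [h0, mul_zero]
    · exact absurd ⟨t, ht, h1, hc.2.2⟩ hne
  · rfl

end GOp

/-- cells which separate the support of a vector preserve its square norm -/
lemma sq_sum_sep (Q : Part Ω) (C : Finset Ω) (F : Ω → ℝ)
    (h : ∀ c ∈ C, ∀ c' ∈ C, F c ≠ 0 → F c' ≠ 0 → ∀ e, Q.e e c = 1 → Q.e e c' = 1 → c = c') :
    ∑ e, (∑ c ∈ C, F c * Q.e e c) ^ 2 = ∑ c ∈ C, F c ^ 2 := by
  simp only [sq, Finset.sum_mul_sum]
  rw [Finset.sum_comm]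
  refine Finset.sum_congr rfl fun c hc => ?_
  rw [Finset.sum_comm, Finset.sum_eq_single c]
  · have h1 : ∑ e, Q.e e c = 1 := by
      simpa using DFunLike.congr_fun Q.isPartition.sum_one c
    calc ∑ e, F c * Q.e e c * (F c * Q.e e c) = ∑ e, F c * F c * Q.e e c :=
          Finset.sum_congr rfl fun e _ => by
            rcases idem_zero_or_one (Q.isPartition.idem e) c with a | a <;> rw [a] <;> ring
      _ = F c * F c := by rw [← Finset.mul_sum, h1, mul_one]
  · intro c' hc' hne
    refine Finset.sum_eq_zero fun e _ => ?_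
    rcases idem_zero_or_one (Q.isPartition.idem e) c with a | a
    · simp [a]
    rcases idem_zero_or_one (Q.isPartition.idem e) c' with a' | a'
    · simp [a']
    by_cases hF : F c = 0
    · simp [hF]
    by_cases hF' : F c' = 0
    · simp [hF']
    exact absurd (h c' hc' c hc hF' hF e a' a) hne
  · exact fun hn => absurd hc hn

/-- a contraction followed by a graph operator has at most the square rows of the operator on
fine partitions -/
lemma comp_row_le {k : ℕ} (D : GOp T Unit Unit) (Sg : GOp T Unit (Fin k)) {on : C(Ω, ℝ)}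
    (hon : ∀ ω, |on ω| ≤ 1) (hSg : OpBd Sg.ker 1) :
    ∀ᶠ Q : Part Ω in atTop, ∀ b,
      ∑ j, ∑ e, (D.app1 (on * Sg.app (Pi.single j (Q.e e)) ()) b) ^ 2
        ≤ ∑ e, (D.app1 (Q.e e) b) ^ 2 := by
  filter_upwards [sepSpec T
    (D.map (fun d => d.g) ++ D.flatMap fun d => Sg.map fun t => d.g.mul t.g)] with Q hQ
  intro b
  set A := FormKer.reach D b with hA
  set C := A.biUnion fun a => FormKer.reach Sg a with hC
  set v : Ω → ℝ := fun a => D.ker (b, ()) (a, ()) with hv
  set F : Ω → Fin k → ℝ := fun c j => ∑ a ∈ A, v a * on a * Sg.ker (a, ()) (c, j) with hF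
  have hD : ∀ f, D.app1 f b = ∑ a ∈ A, v a * f a := fun f => by
    rw [GOp.app1, GOp.app_eq_sum_ker D _ () b subset_rfl, Finset.sum_product]
    simp [hv, hA]
  have hDS : ∀ j e, D.app1 (on * Sg.app (Pi.single j (Q.e e)) ()) b
      = ∑ c ∈ C, F c j * Q.e e c := fun j e => by
    rw [hD]
    simp only [hF, Finset.sum_mul]
    rw [Finset.sum_comm]
    refine Finset.sum_congr rfl fun a ha => ?_
    rw [ContinuousMap.mul_apply, GOp.app_eq_sum_ker Sg _ () a
      (Finset.subset_biUnion_of_mem (fun a => FormKer.reach Sg a) ha), Finset.sum_product,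
      ← mul_assoc, Finset.mul_sum]
    refine Finset.sum_congr rfl fun c _ => ?_
    rw [Finset.sum_eq_single j (fun j' _ hj => by simp [Pi.single_eq_of_ne hj]) (by simp)]
    simp [mul_assoc]
  have hsep : ∀ c ∈ A, ∀ c' ∈ A, v c ≠ 0 → v c' ≠ 0 → ∀ e, Q.e e c = 1 → Q.e e c' = 1 →
      c = c' := by
    intro c _ c' _ h h' e he he'
    obtain ⟨d, hd, hr, ht⟩ := GOp.exists_of_ker_ne_zero h
    obtain ⟨d', hd', hr', ht'⟩ := GOp.exists_of_ker_ne_zero h'
    dsimp only at hr hr' ht ht'
    subst ht ht'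
    exact hQ d.g (List.mem_append_left _ (List.mem_map_of_mem hd)) d'.g
      (List.mem_append_left _ (List.mem_map_of_mem hd')) b e hr hr' he he'
  have hwit : ∀ c j, F c j ≠ 0 → ∃ g ∈ D.flatMap (fun d => Sg.map fun t => d.g.mul t.g),
      g.ran b = 1 ∧ g.toDom b = c := by
    intro c j h
    obtain ⟨a, -, ha⟩ := Finset.exists_ne_zero_of_sum_ne_zero h
    obtain ⟨d, hd, hr, rfl⟩ :=
      GOp.exists_of_ker_ne_zero (left_ne_zero_of_mul (left_ne_zero_of_mul ha))
    obtain ⟨t, ht, hr', htc⟩ := GOp.exists_of_ker_ne_zero (right_ne_zero_of_mul ha)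
    refine ⟨d.g.mul t.g, List.mem_flatMap.2 ⟨d, hd, List.mem_map_of_mem ht⟩, ?_, htc⟩
    show d.g.ran b * t.g.ran (d.g.toDom b) = 1
    dsimp only at hr hr'
    rw [hr, hr', one_mul]
  have hsep2 : ∀ j, ∀ c ∈ C, ∀ c' ∈ C, F c j ≠ 0 → F c' j ≠ 0 → ∀ e, Q.e e c = 1 →
      Q.e e c' = 1 → c = c' := by
    intro j c _ c' _ h h' e he he'
    obtain ⟨g, hg, hr, rfl⟩ := hwit c j h
    obtain ⟨g', hg', hr', rfl⟩ := hwit c' j h'
    exact hQ g (List.mem_append_right _ hg) g' (List.mem_append_right _ hg') b e hr hr' he he'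
  have hop := FormKer.opBd_vec zero_le_one (FormKer.opBd_tp hSg)
    (C ×ˢ (Finset.univ : Finset (Fin k))) (A ×ˢ (Finset.univ : Finset Unit))
    (fun y => v y.1 * on y.1)
  rw [one_mul, Real.sqrt_le_sqrt_iff (Finset.sum_nonneg fun _ _ => sq_nonneg _),
    Finset.sum_product, Finset.sum_product] at hop
  simp only [Finset.sum_product, Finset.univ_unique, Finset.sum_singleton] at hop
  rw [Finset.sum_congr rfl fun e _ => congrArg (· ^ 2) (hD (Q.e e)), sq_sum_sep Q A v hsep]
  calc ∑ j, ∑ e, (D.app1 (on * Sg.app (Pi.single j (Q.e e)) ()) b) ^ 2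
      = ∑ j, ∑ c ∈ C, F c j ^ 2 := Finset.sum_congr rfl fun j _ => by
        simp only [hDS]
        exact sq_sum_sep Q C (fun c => F c j) (hsep2 j)
    _ = ∑ c ∈ C, ∑ j, F c j ^ 2 := Finset.sum_comm
    _ ≤ ∑ a ∈ A, (v a * on a) ^ 2 := by
        refine le_of_eq_of_le (Finset.sum_congr rfl fun c _ => Finset.sum_congr rfl fun j _ => ?_) hop
        congr 1
        exact Finset.sum_congr rfl fun a _ => mul_comm _ _
    _ ≤ ∑ a ∈ A, v a ^ 2 := Finset.sum_le_sum fun a _ => by
        rw [mul_pow]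
        exact mul_le_of_le_one_right (sq_nonneg _) ((sq_le_one_iff_abs_le_one _).2 (hon a))

namespace SMasa

variable (T : SMasa M Ω) (P : Params) (x : M)

lemma tau_sq_add_le (a b : C(Ω, ℝ)) :
    T.tau ((a + b) * (a + b)) ≤ 2 * T.tau (a * a) + 2 * T.tau (b * b) := by
  have e : 2 * T.tau (a * a) + 2 * T.tau (b * b)
      = T.tau ((2 : ℝ) • (a * a) + (2 : ℝ) • (b * b)) := by
    simp only [map_add, map_smul, smul_eq_mul]
  rw [e]
  refine T.tau_mono (ContinuousMap.le_def.2 fun ω => ?_)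
  simp only [ContinuousMap.add_apply, ContinuousMap.mul_apply, ContinuousMap.smul_apply,
    smul_eq_mul]
  nlinarith [sq_nonneg (a ω - b ω)]

/-- the part of a channel outside its atoms is small on the images of pieces -/
theorem remSpec : T.RemSpec P x := by
  intro S st N C K η hη hK i on k Sg hon hSg
  set c := (Sg.length : ℝ) * (Sg.map fun t => ‖t.coef‖ ^ 2).sum with hc
  have hc0 : 0 ≤ c := mul_nonneg (Nat.cast_nonneg _)
    (List.sum_nonneg fun z hz => by obtain ⟨t, -, rfl⟩ := List.mem_map.1 hz; positivity)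
  set η' := min η (η / (c + 1)) with hη'
  have hη'0 : 0 < η' := lt_min hη (by positivity)
  have hcη : c * η' ≤ η := by
    refine (mul_le_mul_of_nonneg_left (min_le_right _ _) hc0).trans ?_
    rw [mul_div_assoc', div_le_iff₀ (by positivity)]
    nlinarith
  choose Ka hKa using fun s => atomSpec T (T.Xb P x st N i s)
    ((C.band i s).Xp_sa (TMasa.isSelfAdjoint_vpm x s)) (η' / 4) (by linarith)
  set K' := (Ka true).add (Ka false) with hK'
  have hrem : ∀ᶠ Q : Part Ω in atTop, ∀ f : Fin Q.n → C(Ω, ℝ), (∀ e ω, |f e ω| ≤ Q.e e ω) →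
      ∑ e, T.tau ((T.Kch P x st N i (f e) - K'.app1 (f e))
        * (T.Kch P x st N i (f e) - K'.app1 (f e))) ≤ η' := by
    filter_upwards [(hKa true).2.2.2, (hKa false).2.2.2] with Q h1 h2
    intro f hf
    have e : ∀ e, T.Kch P x st N i (f e) - K'.app1 (f e)
        = (T.K (T.Xb P x st N i true) (f e) - (Ka true).app1 (f e))
          + (T.K (T.Xb P x st N i false) (f e) - (Ka false).app1 (f e)) := fun e => by
      rw [hK', GOp.app1_add, Kch, LinearMap.add_apply]
      abel
    simp only [e]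
    refine (Finset.sum_le_sum fun e' _ => T.tau_sq_add_le _ _).trans ?_
    rw [Finset.sum_add_distrib, ← Finset.mul_sum, ← Finset.mul_sum]
    linarith [h1 f hf, h2 f hf]
  set D := K'.add ((K i).smul (-1)) with hD
  have hDe : ∀ g, T.Kch P x st N i g - (K i).app1 g
      = (T.Kch P x st N i g - K'.app1 g) + D.app1 g := fun g => by
    rw [hD, GOp.app1_add K', GOp.app1_smul, neg_smul, one_smul]
    abel
  have htr := transportSpec T Sg ((T.Kch P x st N i - K'.app1L) ∘ₗ mlt on) η' hη'0.le ?_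
  swap
  · filter_upwards [hrem] with Q hQ
    intro f hf
    refine hQ (fun e => on * f e) fun e ω => ?_
    rw [ContinuousMap.mul_apply, abs_mul]
    exact (mul_le_of_le_one_left (abs_nonneg _) (hon ω)).trans (hf e ω)
  filter_upwards [htr, comp_row_le D Sg hon hSg, hrem, hK.rem i] with Q h1 h2 h3 h4
  simp only [pieceSum]
  have hQe : ∀ e ω, |Q.e e ω| ≤ Q.e e ω := fun e ω =>
    (abs_of_nonneg (idem_nonneg (Q.isPartition.idem e) ω)).le
  have hDQ : ∑ e, T.tau (D.app1 (Q.e e) * D.app1 (Q.e e)) ≤ 4 * η := by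
    have e : ∀ e, T.tau (D.app1 (Q.e e) * D.app1 (Q.e e))
        ≤ 2 * T.tau ((T.Kch P x st N i (Q.e e) - (K i).app1 (Q.e e))
            * (T.Kch P x st N i (Q.e e) - (K i).app1 (Q.e e)))
          + 2 * T.tau ((T.Kch P x st N i (Q.e e) - K'.app1 (Q.e e))
            * (T.Kch P x st N i (Q.e e) - K'.app1 (Q.e e))) := fun e => by
      have h := T.tau_sq_add_le (T.Kch P x st N i (Q.e e) - (K i).app1 (Q.e e))
        (-(T.Kch P x st N i (Q.e e) - K'.app1 (Q.e e)))
      rw [neg_mul_neg] at h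
      have e' : D.app1 (Q.e e) = (T.Kch P x st N i (Q.e e) - (K i).app1 (Q.e e))
          + -(T.Kch P x st N i (Q.e e) - K'.app1 (Q.e e)) := by
        rw [hDe]; abel
      rw [e']
      exact h
    refine (Finset.sum_le_sum fun e' _ => e e').trans ?_
    rw [Finset.sum_add_distrib, ← Finset.mul_sum, ← Finset.mul_sum]
    linarith [h3 _ hQe, h4 _ hQe, min_le_left η (η / (c + 1))]
  have hD2 : ∑ j, ∑ e, T.tau (D.app1 (on * Sg.app (Pi.single j (Q.e e)) ())
      * D.app1 (on * Sg.app (Pi.single j (Q.e e)) ())) ≤ 4 * η := by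
    refine le_trans ?_ hDQ
    simp only [← map_sum]
    refine T.tau_mono (ContinuousMap.le_def.2 fun b => ?_)
    simp only [ContinuousMap.sum_apply, ← sq]
    exact h2 b
  have h5 : ∑ j, ∑ e, T.tau (
      (T.Kch P x st N i (on * Sg.app (Pi.single j (Q.e e)) ())
        - K'.app1 (on * Sg.app (Pi.single j (Q.e e)) ()))
      * (T.Kch P x st N i (on * Sg.app (Pi.single j (Q.e e)) ())
        - K'.app1 (on * Sg.app (Pi.single j (Q.e e)) ()))) ≤ η := h1.trans hcη
  calc _ ≤ ∑ j, ∑ e, (2 * T.tau (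
          (T.Kch P x st N i (on * Sg.app (Pi.single j (Q.e e)) ())
            - K'.app1 (on * Sg.app (Pi.single j (Q.e e)) ()))
          * (T.Kch P x st N i (on * Sg.app (Pi.single j (Q.e e)) ())
            - K'.app1 (on * Sg.app (Pi.single j (Q.e e)) ())))
        + 2 * T.tau (D.app1 (on * Sg.app (Pi.single j (Q.e e)) ())
          * D.app1 (on * Sg.app (Pi.single j (Q.e e)) ()))) :=
        Finset.sum_le_sum fun j _ => Finset.sum_le_sum fun e _ => by
          rw [hDe]
          exact T.tau_sq_add_le _ _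
    _ ≤ 10 * η := by
        simp only [Finset.sum_add_distrib, ← Finset.mul_sum]
        linarith

end SMasa

end Vale.Agent.P078.T3
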