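import Mathlib
import Vale.Agent.P078.Type3.Step.Decomp
import Vale.Agent.P078.Type3.Forms.Main
import Vale.Agent.P078.Type3.Graph.Fixed
import Vale.Agent.P078.Type3.Graph.Transport

/-! The curved part of the potential along the random move. -/

noncomputable section

open scoped ComplexOrder
open Classical Filter

set_option linter.unusedSectionVars false

namespace Vale.Agent.P078.T3

open Chan
open TMasa (ypm vpm)

universe u v

variable {M : Type u} [CStarAlgebra M] [PartialOrder M] [StarOrderedRing M]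
  {Ω : Type v} [TopologicalSpace Ω] [CompactSpace Ω] [T2Space Ω] {T : SMasa M Ω}

namespace Var

lemma app1_eq (K : GOp T Unit Unit) (u : C(Ω, ℝ)) :
    K.app1 u = (K.map fun t => t.coef * t.g.ran * u.comp t.g.toDom).sum := by
  ext b
  rw [GOp.app1_apply, GOp.list_sum_apply, List.map_map]
  rfl

lemma tau_sums (f : C(Ω, ℝ)) {α β : Type*} (L : List α) (L' : List β) (a : α → C(Ω, ℝ))
    (b : β → C(Ω, ℝ)) :
    T.tau (f * (L.map a).sum * (L'.map b).sum)
      = (L.map fun t => (L'.map fun s => T.tau (f * a t * b s)).sum).sum := by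
  induction L with
  | nil => simp
  | cons t L ih =>
    simp only [List.map_cons, List.sum_cons]
    rw [mul_add, add_mul, map_add, ih]
    congr 1
    clear ih
    induction L' with
    | nil => simp
    | cons s L' ih => simp only [List.map_cons, List.sum_cons, mul_add, map_add, ih]

/-- the triples of `u, v ↦ τ (f · K (p u) · K (p v))` -/
def triples (K : GOp T Unit Unit) (f p : C(Ω, ℝ)) : List (M × M × M) :=
  K.flatMap fun t => K.map fun s =>
    (T.emb (f * t.coef * s.coef) * (t.g.W * T.emb p), star t.g.W * s.g.W * T.emb p, star s.g.W)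

lemma form3_triples (K : GOp T Unit Unit) (f p u v : C(Ω, ℝ)) :
    form3 T (triples K f p) u v = T.tau (f * K.app1 (p * u) * K.app1 (p * v)) := by
  rw [app1_eq, app1_eq, tau_sums]
  unfold form3 triples
  generalize K = L' at *
  rw [List.map_flatMap, List.flatMap_def, List.sum_flatten, List.map_map]
  refine congrArg List.sum (List.map_congr_left fun t _ => ?_)
  simp only [Function.comp_apply, List.map_map]
  refine congrArg List.sum (List.map_congr_left fun s _ => ?_)
  simp only [Function.comp_apply]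
  rw [SMasa.tau_apply]
  congr 1
  calc T.emb (f * t.coef * s.coef) * (t.g.W * T.emb p) * T.emb u
        * (star t.g.W * s.g.W * T.emb p) * T.emb v * star s.g.W
      = T.emb (f * t.coef * s.coef) * (t.g.W * T.emb (p * u) * star t.g.W)
        * (s.g.W * T.emb (p * v) * star s.g.W) := by simp only [map_mul, mul_assoc]
    _ = _ := by
        rw [t.g.conj, s.g.conj, ← map_mul, ← map_mul]
        congr 1
        ext b
        simp only [ContinuousMap.mul_apply, ContinuousMap.comp_apply]
        ring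

lemma app1_nonneg {K : GOp T Unit Unit} (hK : ∀ t ∈ K, 0 ≤ t.coef) {f : C(Ω, ℝ)} (hf : 0 ≤ f) :
    0 ≤ K.app1 f := fun b => by
  show (0 : ℝ) ≤ K.app1 f b
  rw [GOp.app1_apply]
  refine List.sum_nonneg fun z hz => ?_
  obtain ⟨t, ht, rfl⟩ := List.mem_map.1 hz
  exact mul_nonneg (mul_nonneg (hK t ht b) (idem_nonneg t.g.ran_idem b)) (hf _)

lemma wgt_nonneg {K : GOp T Unit Unit} (hK : ∀ t ∈ K, 0 ≤ t.coef) :
    ∀ t ∈ K.wgt, 0 ≤ t.coef := by
  intro t ht
  obtain ⟨s, hs, rfl⟩ := List.mem_map.1 ht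
  exact fun b => mul_nonneg (hK s hs b) (s.g.dens_pos b).le

lemma cauchy_list {α : Type*} (L : List α) (w x : α → ℝ) (hw : ∀ t ∈ L, 0 ≤ w t) :
    0 ≤ (L.map w).sum ∧ 0 ≤ (L.map fun t => w t * x t ^ 2).sum ∧
    (L.map fun t => w t * x t).sum ^ 2
      ≤ (L.map w).sum * (L.map fun t => w t * x t ^ 2).sum := by
  induction L with
  | nil => simp
  | cons t L ih =>
    obtain ⟨h1, h2, h3⟩ := ih fun s hs => hw s (List.mem_cons_of_mem _ hs)
    have h0 := hw t List.mem_cons_self
    simp only [List.map_cons, List.sum_cons]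
    set W := (L.map w).sum
    set Q := (L.map fun t => w t * x t ^ 2).sum
    set A := (L.map fun t => w t * x t).sum
    refine ⟨add_nonneg h0 h1, add_nonneg (mul_nonneg h0 (sq_nonneg _)) h2, ?_⟩
    have h4 : 2 * A * x t ≤ W * x t ^ 2 + Q := by
      refine le_of_abs_le (abs_le_of_sq_le_sq ?_ (by positivity))
      nlinarith [sq_nonneg (W * x t ^ 2 - Q), mul_le_mul_of_nonneg_right h3 (sq_nonneg (x t))]
    nlinarith [mul_le_mul_of_nonneg_left h4 h0]

lemma app1_mono {K : GOp T Unit Unit} (hK : ∀ t ∈ K, 0 ≤ t.coef) {f g : C(Ω, ℝ)}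
    (h : ∀ a, f a ≤ g a) (b : Ω) : K.app1 f b ≤ K.app1 g b := by
  rw [GOp.app1_apply, GOp.app1_apply]
  exact List.sum_le_sum fun t ht =>
    mul_le_mul_of_nonneg_left (h _) (mul_nonneg (hK t ht b) (idem_nonneg t.g.ran_idem b))

lemma app1_sq_le {K : GOp T Unit Unit} (hK : ∀ t ∈ K, 0 ≤ t.coef) (u : C(Ω, ℝ)) (b : Ω) :
    K.app1 u b ^ 2 ≤ K.app1 1 b * K.app1 (u * u) b := by
  have h := (cauchy_list K (fun t => t.coef b * t.g.ran b) (fun t => u (t.g.toDom b))
    fun t ht => mul_nonneg (hK t ht b) (idem_nonneg t.g.ran_idem b)).2.2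
  rw [GOp.app1_apply, GOp.app1_apply, GOp.app1_apply]
  simpa [sq] using h

/-- `K` as a linear map -/
def app1L (K : GOp T Unit Unit) : C(Ω, ℝ) →ₗ[ℝ] C(Ω, ℝ) where
  toFun := K.app1
  map_add' f g := by
    ext b
    simp [GOp.app1_apply, mul_add, List.sum_map_add]
  map_smul' c f := by
    ext b
    simp [GOp.app1_apply, ← List.sum_map_mul_left, mul_left_comm]

/-- the squares of a nonnegative operator on the image of the pieces -/
theorem sum_sq_le {K : GOp T Unit Unit} (hK : ∀ t ∈ K, 0 ≤ t.coef) {f p : C(Ω, ℝ)} (hf : 0 ≤ f)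
    (hp : ∀ ω, 0 ≤ p ω ∧ p ω ≤ 1) {k : ℕ} (Sg : GOp T Unit (Fin k)) (hS : OpBd Sg.ker 1) {η : ℝ} (hη : 0 < η) :
    ∀ᶠ Q : Part Ω in atTop,
      SMasa.pieceSum Q (fun u => T.tau (f * (K.app1 (p * Sg.app u ()) * K.app1 (p * Sg.app u ()))))
        ≤ ∑ e, T.tau (f * (K.app1 (p * Q.e e) * K.app1 (p * Q.e e))) + η := by
  set G : C(Ω, ℝ) →ₗ[ℝ] ℝ :=
    T.tau.comp ((LinearMap.mulLeft ℝ (f * K.app1 1)).comp
      ((app1L K).comp (LinearMap.mulLeft ℝ p))) with hG
  have hGv : ∀ v, G v = T.tau (f * K.app1 1 * K.app1 (p * v)) := fun v => rfl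
  have hG0 : ∀ v, 0 ≤ v → 0 ≤ G v := fun v hv => by
    rw [hGv]
    exact T.tau_nonneg fun b => mul_nonneg (mul_nonneg (hf b) (app1_nonneg hK zero_le_one b))
      (app1_nonneg hK (show (0 : C(Ω, ℝ)) ≤ p * v from fun ω =>
        mul_nonneg (hp ω).1 (hv ω)) b)
  have hq : ∀ u, 0 ≤ form3 T (triples K f p) u u ∧ form3 T (triples K f p) u u ≤ G (u * u) := by
    intro u
    rw [form3_triples, hGv, mul_assoc f, mul_assoc f]
    refine ⟨T.tau_nonneg fun b => mul_nonneg (hf b) (mul_self_nonneg _),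
      T.tau_mono (ContinuousMap.le_def.2 fun b => ?_)⟩
    simp only [ContinuousMap.mul_apply]
    refine mul_le_mul_of_nonneg_left ?_ (hf b)
    have h1 := app1_sq_le hK (p * u) b
    rw [sq] at h1
    refine h1.trans (mul_le_mul_of_nonneg_left (app1_mono hK (fun a => ?_) b)
      (app1_nonneg hK zero_le_one b))
    simp only [ContinuousMap.mul_apply]
    calc p a * u a * (p a * u a) = p a * (p a * (u a * u a)) := by ring
      _ ≤ _ := mul_le_of_le_one_left (mul_nonneg (hp a).1 (mul_self_nonneg _)) (hp a).2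
  filter_upwards [formSpec (sepSpec T) (triples K f p) G hG0 hq Sg hS η hη] with Q hQ
  simpa only [SMasa.pieceSum, form3_triples, mul_assoc f] using hQ

end Var

namespace SMasa

variable (T) (P : Params) (x : M)

/-- the curved part of the potential along the random move is small -/
theorem varSpec (hact : T.ActSpec P x) (hrem : T.RemSpec P x) (hlev : LevSpec T) :
    T.VarSpec P x := by
  intro S st N C K Z q η B ω₁ ζ n hZ01 hZf hq hη hK hB hop hω hζ
  set on : Fin P.r → C(Ω, ℝ) := T.onZ P st Z with hon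
  have hoi : ∀ i, on i * on i = on i := fun i => mul_idem (C.aS_idem i) (one_sub_idem hZ01)
  have honf : ∀ i ω, on i ω = 1 → T.onf P x S st N K i ω = 1 := fun i ω h => by
    obtain ⟨h1, h2⟩ := (mul_eq_one (C.aS_idem i) (one_sub_idem hZ01)).1 h
    refine (mul_eq_one (C.aS_idem i) (one_sub_idem (C.Zf_idem K))).2 ⟨h1, one_sub_eq_one.2 ?_⟩
    refine (idem_zero_or_one (C.Zf_idem K) ω).resolve_right fun h3 => ?_
    rw [one_sub_eq_one, hZf ω h3] at h2
    exact one_ne_zero h2
  set φ : Fin P.r → C(Ω, ℝ) := fun i => cphi2 (st.sig i) with hφ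
  set rows : C(Ω, ℝ) := T.bandSet P x st * (1 - Z) with hrows
  set Tm : GOp T Unit (Fin P.r) := T.rowM P x st Z q K with hTm
  set p : Fin P.r → C(Ω, ℝ) := fun i => on i * q i with hp
  have hpe : ∀ i ω, p i ω = on i ω * q i ω := fun i ω => rfl
  set Y : GOp T (Fin P.r) (Fin P.r) := (GOp.yOp Tm B).pow n with hY
  set bs : C(Ω, ℝ) := T.bandSet P x st with hbs
  have hbs01 := bandSet_idem (T := T) (P := P) (x := x) C.inv.live_idem
  have hμ := C.μ_pos
  have hCc : 0 ≤ P.Cc := by
    have := C.ok.ε_pos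
    unfold Params.Cc
    positivity
  obtain ⟨hYop, d, -, -, hd⟩ := hlev Tm B n hB hop
  -- the plain pieces on the unusable points
  have hplain : ∀ i, ∀ᶠ Q : Part Ω in atTop,
      ∑ e, T.tau (bs * Z * (φ i * φ i)
          * ((K i).app1 (on i * Q.e e) * (K i).app1 (on i * Q.e e)))
        ≤ 2 * P.Cc / S.μ ^ 2 * (T.tau (T.Sf P x S st K i * T.ef P x S st K i)
            + 2 * P.Cc * T.tau Z) := by
    intro i
    have hW : ∀ a, S.μ ≤ T.Wf P x S st i a := fun a => (C.Wf_bounds i a).1
    have hcol : ∀ a, on i a = 1 → (K i).tp.wgt.app1 (T.Wf P x S st i) a ≤ 2 * P.Cc := fun a ha => by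
      obtain ⟨-, -, -, hL, -, hc, -, h⟩ := C.on_facts hact hK.coef_nonneg i (honf i a ha)
      rw [hK.tp_wgt]
      have h1 := mul_le_mul hc (C.Lam_bounds a).2.1 hL.le hCc
      linarith
    filter_upwards [colSpec T (K i) (on i) (T.Wf P x S st i) S.μ (2 * P.Cc) hμ (by linarith)
      (hK.coef_nonneg i) (hoi i) hW hcol] with Q hQ
    rw [← map_sum, ← smul_eq_mul (2 * P.Cc / S.μ ^ 2), ← smul_eq_mul (2 * P.Cc),
      ← map_smul, ← map_add, ← map_smul]
    refine T.tau_mono (ContinuousMap.le_def.2 fun ω => ?_)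
    simp only [ContinuousMap.sum_apply, ContinuousMap.mul_apply, ContinuousMap.smul_apply,
      ContinuousMap.add_apply, smul_eq_mul]
    rw [← Finset.mul_sum]
    have hSe : 0 ≤ T.Sf P x S st K i ω * T.ef P x S st K i ω := Sf_ef_nonneg (K := K) C i ω
    have hZ0 := idem_nonneg hZ01 ω
    have hK0 : 0 ≤ 2 * P.Cc / S.μ ^ 2 := by positivity
    by_cases hzero : bs ω * Z ω * (φ i ω * φ i ω) = 0
    · rw [hzero, zero_mul]
      exact mul_nonneg hK0 (add_nonneg hSe (mul_nonneg (by linarith) hZ0))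
    simp only [mul_ne_zero_iff] at hzero
    obtain ⟨⟨hb, hz⟩, hph, -⟩ := hzero
    have hb1 := (idem_zero_or_one hbs01 ω).resolve_left hb
    have hz1 := (idem_zero_or_one hZ01 ω).resolve_left hz
    have hl : st.live ω = 1 :=
      ((mul_eq_one C.inv.live_idem (mul_idem (T.pos_mul_self _) (T.pos_mul_self _))).1 hb1).1
    have hσ : 0 < st.sig i ω := lt_of_le_of_ne (C.inv.sig_nonneg i ω) fun h => hph (by
      show Two.phi (st.sig i ω) = 0
      rw [← h]; simp [Two.phi])
    obtain ⟨-, -, -, hc, -, -⟩ := hact S st N C i ω hl hσ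
    have haS : T.aS P st i ω = 1 := by
      refine (mul_eq_one C.inv.live_idem (T.act_idem st i)).2 ⟨hl, ?_⟩
      rcases idem_zero_or_one (T.act_idem st i) ω with h | h
      · exact absurd (C.sig_eq_zero i h) hσ.ne'
      · exact h
    have hsum : ∑ e, (K i).app1 (on i * Q.e e) ω * (K i).app1 (on i * Q.e e) ω
        ≤ 2 * P.Cc / S.μ ^ 2 * (K i).wgt.app1 (T.Wf P x S st i) ω := by
      refine le_trans (le_of_eq (Finset.sum_congr rfl fun e _ => (sq _).symm)) ((hQ ω).trans ?_)
      have hle : S.μ * (K i).wgt.app1 (on i) ω ≤ (K i).wgt.app1 (T.Wf P x S st i) ω := by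
        rw [GOp.app1_apply, GOp.app1_apply, ← List.sum_map_mul_left]
        refine List.sum_le_sum fun t ht => ?_
        have h0 : 0 ≤ t.coef ω * t.g.ran ω :=
          mul_nonneg (Var.wgt_nonneg (hK.coef_nonneg i) t ht ω) (idem_nonneg t.g.ran_idem ω)
        have h1 : S.μ * on i (t.g.toDom ω) ≤ T.Wf P x S st i (t.g.toDom ω) :=
          (mul_le_of_le_one_right hμ.le (idem_le_one (hoi i) _)).trans (hW _)
        have := mul_le_mul_of_nonneg_left h1 h0
        linarith
      refine le_trans (le_of_eq ?_) (mul_le_mul_of_nonneg_left hle hK0)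
      field_simp
    have hwW : (K i).wgt.app1 (T.Wf P x S st i) ω
        ≤ T.Sf P x S st K i ω * T.ef P x S st K i ω + 2 * P.Cc * Z ω := by
      have he : T.ef P x S st K i ω ≤ T.Sf P x S st K i ω * T.ef P x S st K i ω := by
        rcases idem_zero_or_one (C.Sf_idem K i) ω with h | h
        · rw [h, zero_mul]
          refine T.nonpos_of_pos_eq_zero ?_
          simpa [Sf, haS] using h
        · rw [h, one_mul]
      have hL := C.Lam_bounds ω
      have h1 := mul_le_mul ((le_abs_self _).trans hc) hL.2.1 hL.1 hCc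
      simp only [ef, ContinuousMap.add_apply, ContinuousMap.sub_apply, ContinuousMap.mul_apply,
        ContinuousMap.const_apply] at he ⊢
      rw [hz1]
      linarith
    have hφ1 : φ i ω * φ i ω ≤ 1 := by
      obtain ⟨a, b⟩ := C.phi_bounds i ω
      exact mul_le_one₀ (by linarith) a (by linarith)
    rw [hb1, hz1, one_mul, one_mul]
    refine (mul_le_of_le_one_left (Finset.sum_nonneg fun e _ => mul_self_nonneg _) hφ1).trans ?_
    refine hsum.trans (mul_le_mul_of_nonneg_left ?_ hK0)
    rw [hz1] at hwW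
    exact hwW
  -- the pieces
  have hf : ∀ i, 0 ≤ bs * Z * (φ i * φ i) := fun i ω =>
    mul_nonneg (mul_nonneg (idem_nonneg hbs01 ω) (idem_nonneg hZ01 ω)) (mul_self_nonneg _)
  have hp01 : ∀ i ω, 0 ≤ p i ω ∧ p i ω ≤ on i ω := fun i ω => by
    obtain ⟨h0, h1⟩ := hq i ω
    have h2 : 0 ≤ on i ω := idem_nonneg (hoi i) ω
    rw [hpe]
    exact ⟨mul_nonneg h2 h0, mul_le_of_le_one_right h2 h1⟩
  have hp1 : ∀ i ω, 0 ≤ p i ω ∧ p i ω ≤ 1 := fun i ω =>
    ⟨(hp01 i ω).1, (hp01 i ω).2.trans (idem_le_one (hoi i) ω)⟩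
  have hQall : ∀ i, ∀ᶠ Q : Part Ω in atTop,
      pieceSum Q (fun u => T.tau (bs * Z * (φ i * φ i)
          * ((K i).app1 (p i * Y.app u i) * (K i).app1 (p i * Y.app u i))))
        ≤ 2 * P.Cc / S.μ ^ 2 * (T.tau (T.Sf P x S st K i * T.ef P x S st K i)
            + 2 * P.Cc * T.tau Z) + η := by
    intro i
    filter_upwards [hplain i,
      Var.sum_sq_le (hK.coef_nonneg i) (hf i) (hp1 i) (Y.rowSel i) (hYop i) hη]
      with Q h1 h2
    simp only [GOp.app_rowSel] at h2
    have h3 : ∑ e, T.tau (bs * Z * (φ i * φ i)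
          * ((K i).app1 (p i * Q.e e) * (K i).app1 (p i * Q.e e)))
        ≤ ∑ e, T.tau (bs * Z * (φ i * φ i)
          * ((K i).app1 (on i * Q.e e) * (K i).app1 (on i * Q.e e))) := by
      refine Finset.sum_le_sum fun e _ => T.tau_mono (ContinuousMap.le_def.2 fun ω => ?_)
      have hQ0 : ∀ a, 0 ≤ Q.e e a := fun a => idem_nonneg (Q.isPartition.idem e) a
      have a0 : 0 ≤ (K i).app1 (p i * Q.e e) ω := Var.app1_nonneg (hK.coef_nonneg i)
        (show (0 : C(Ω, ℝ)) ≤ p i * Q.e e from fun a => mul_nonneg (hp1 i a).1 (hQ0 a)) ω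
      have a1 : (K i).app1 (p i * Q.e e) ω ≤ (K i).app1 (on i * Q.e e) ω :=
        Var.app1_mono (hK.coef_nonneg i)
          (fun a => mul_le_mul_of_nonneg_right (hp01 i a).2 (hQ0 a)) ω
      simp only [ContinuousMap.mul_apply]
      exact mul_le_mul_of_nonneg_left (mul_le_mul a1 a1 a0 (a0.trans a1)) (hf i ω)
    linarith
  have hR : ∀ i, ∀ᶠ Q : Part Ω in atTop,
      pieceSum Q (fun u => T.tau ((T.Kch P x st N i (p i * Y.app u i)
            - (K i).app1 (p i * Y.app u i))
          * (T.Kch P x st N i (p i * Y.app u i) - (K i).app1 (p i * Y.app u i)))) ≤ 10 * η := by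
    intro i
    filter_upwards [hrem S st N C K η hη hK i (p i) (Y.rowSel i)
      (fun ω => by rw [abs_of_nonneg (hp1 i ω).1]; exact (hp1 i ω).2) (hYop i)]
      with Q h
    simp only [GOp.app_rowSel] at h
    exact h
  filter_upwards [eventually_all.2 hQall, eventually_all.2 hR, hd] with Q hQ1 hQ2 hQ3
  -- the splitting at each piece
  have hpt : ∀ u : Fin P.r → C(Ω, ℝ),
      T.tau (bs * ((∑ i, T.Jch P x st N i (p i * Y.app u i))
          * ∑ i, T.Jch P x st N i (p i * Y.app u i))) / 2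
        ≤ T.tau (Tm.app (fun l => Y.app u l) () * Tm.app (fun l => Y.app u l) ())
          + (P.r : ℝ) * ∑ i, T.tau ((T.Kch P x st N i (p i * Y.app u i)
              - (K i).app1 (p i * Y.app u i))
            * (T.Kch P x st N i (p i * Y.app u i) - (K i).app1 (p i * Y.app u i)))
          + (P.r : ℝ) * ∑ i, T.tau (bs * Z * (φ i * φ i)
              * ((K i).app1 (p i * Y.app u i) * (K i).app1 (p i * Y.app u i))) := by
    intro u
    set v : Fin P.r → C(Ω, ℝ) := fun l => Y.app u l with hv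
    have hvi : ∀ i, v i = Y.app u i := fun i => rfl
    rw [← map_sum, ← map_sum, ← smul_eq_mul (P.r : ℝ), ← map_smul, ← smul_eq_mul (P.r : ℝ),
      ← map_smul, ← map_add, ← map_add, div_eq_inv_mul, ← smul_eq_mul ((2 : ℝ)⁻¹), ← map_smul]
    refine T.tau_mono (ContinuousMap.le_def.2 fun ω => ?_)
    simp only [ContinuousMap.smul_apply, ContinuousMap.mul_apply, ContinuousMap.add_apply,
      ContinuousMap.sub_apply, ContinuousMap.sum_apply, smul_eq_mul]
    set k : Fin P.r → ℝ := fun i => (K i).app1 (p i * Y.app u i) ω with hk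
    set R : Fin P.r → ℝ := fun i => T.Kch P x st N i (p i * Y.app u i) ω - k i with hR'
    have hJ : ∀ i, T.Jch P x st N i (p i * Y.app u i) ω
        = T.cch P x st i ω * (p i ω * Y.app u i ω) - φ i ω * k i - φ i ω * R i := fun i => by
      simp only [Jch, ContinuousMap.sub_apply, ContinuousMap.mul_apply, hR', hφ]
      ring
    have hTmv : Tm.app v () ω
        = rows ω * ∑ i, (T.cch P x st i ω * (p i ω * Y.app u i ω) - φ i ω * k i) := by
      rw [hTm, rowM, rowOp, GOp.app_apply, List.map_flatMap, List.flatMap_def, List.sum_flatten,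
        List.map_map, Finset.mul_sum, Fin.sum_univ_def]
      refine congrArg List.sum (List.map_congr_left fun i _ => ?_)
      simp only [Function.comp_apply, List.map_cons, List.sum_cons, List.map_map, if_true,
        GElt.one, GOp.colMul, ← hbs, ← hrows, ← hon, hpe, ContinuousMap.mul_apply, ContinuousMap.one_apply, ContinuousMap.id_apply]
      rw [mul_sub]
      have e : ((K i).map fun t => t.coef ω * t.g.ran ω * (p i * Y.app u i) (t.g.toDom ω)).sum = k i :=
        (GOp.app1_apply _ _ _).symm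
      rw [← e, ← List.sum_map_mul_left, ← List.sum_map_mul_left, sub_eq_add_neg,
        List.sum_neg, List.map_map]
      congr 1
      · simp only [hv, hpe]; ring
      · refine congrArg List.sum (List.map_congr_left fun t _ => ?_)
        simp only [Function.comp_apply, hφ, hv, hpe, ContinuousMap.mul_apply,
          ContinuousMap.neg_apply, ContinuousMap.comp_apply]
        ring
    have hrow : rows ω = bs ω * (1 - Z ω) := by
      simp [hrows, hbs]
    simp only [hJ, Finset.sum_sub_distrib] at hTmv ⊢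
    set A := ∑ i, T.cch P x st i ω * (p i ω * Y.app u i ω)
    set Bk := ∑ i, φ i ω * k i
    set Bb := ∑ i, φ i ω * R i
    have hr0 : (0 : ℝ) ≤ P.r := Nat.cast_nonneg _
    have hBk : Bk ^ 2 ≤ P.r * ∑ i, φ i ω * φ i ω * (k i * k i) := by
      refine sq_sum_le_card_mul_sum_sq.trans (le_of_eq ?_)
      rw [Finset.card_univ, Fintype.card_fin]
      exact congrArg _ (Finset.sum_congr rfl fun i _ => by ring)
    have hBb : Bb ^ 2 ≤ P.r * ∑ i, R i * R i := by
      refine sq_sum_le_card_mul_sum_sq.trans ?_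
      rw [Finset.card_univ, Fintype.card_fin]
      refine mul_le_mul_of_nonneg_left (Finset.sum_le_sum fun i _ => ?_) hr0
      obtain ⟨a, b⟩ := C.phi_bounds i ω
      rw [mul_pow, sq (R i)]
      exact mul_le_of_le_one_left (mul_self_nonneg _) (pow_le_one₀ a (by linarith))
    have hsR : 0 ≤ ∑ i, R i * R i := Finset.sum_nonneg fun i _ => mul_self_nonneg _
    rw [show (∑ i, bs ω * Z ω * (φ i ω * φ i ω)
        * ((K i).app1 (p i * Y.app u i) ω * (K i).app1 (p i * Y.app u i) ω))
      = bs ω * Z ω * ∑ i, φ i ω * φ i ω * (k i * k i) by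
        rw [Finset.mul_sum]; exact Finset.sum_congr rfl fun i _ => by simp only [hk]; ring]
    rw [show (∑ i, (T.Kch P x st N i (p i * Y.app u i) ω - (K i).app1 (p i * Y.app u i) ω)
        * (T.Kch P x st N i (p i * Y.app u i) ω - (K i).app1 (p i * Y.app u i) ω))
      = ∑ i, R i * R i from rfl, hTmv, hrow]
    rcases idem_zero_or_one hbs01 ω with hb | hb
    · have := mul_nonneg hr0 hsR
      rw [show bs ω = 0 from hb]
      simpa using this
    rw [show bs ω = 1 from hb]
    rcases idem_zero_or_one hZ01 ω with hz | hz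
    · rw [show Z ω = 0 from hz]
      nlinarith [sq_nonneg (A - Bk + Bb)]
    · rw [show Z ω = 1 from hz]
      have hA : A = 0 := Finset.sum_eq_zero fun i _ => by
        have h : on i ω = 0 := by
          simp [hon, onZ, show Z ω = 1 from hz]
        rw [hpe, h, zero_mul, zero_mul, mul_zero]
      rw [hA]
      nlinarith [sq_nonneg (Bk - Bb)]
  refine (Finset.sum_le_sum fun j _ => Finset.sum_le_sum fun e _ =>
    hpt (Pi.single j (Q.e e))).trans ?_
  simp only [Finset.sum_add_distrib, ← Finset.mul_sum]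
  have h1 : ∑ j, ∑ e, T.tau (Tm.app (fun l => Y.app (Pi.single j (Q.e e)) l) ()
      * Tm.app (fun l => Y.app (Pi.single j (Q.e e)) l) ()) ≤ B / (2 * n + 1) := by
    simp only [← map_sum]
    refine (T.tau_mono (g := ContinuousMap.const Ω (B / (2 * n + 1)))
      (ContinuousMap.le_def.2 fun b => ?_)).trans (le_of_eq ?_)
    · simp only [ContinuousMap.sum_apply, ContinuousMap.mul_apply, ContinuousMap.const_apply]
      exact le_trans (le_of_eq (Finset.sum_congr rfl fun j _ => Finset.sum_congr rfl fun e _ =>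
        (sq _).symm)) (hQ3.2 b)
    · rw [show ContinuousMap.const Ω (B / (2 * n + 1) : ℝ)
          = (B / (2 * n + 1) : ℝ) • (1 : C(Ω, ℝ)) by ext; simp,
        map_smul, T.tau_one, smul_eq_mul, mul_one]
  have comm : ∀ F : Fin P.r → (Fin P.r → C(Ω, ℝ)) → ℝ,
      ∑ j, ∑ e, ∑ i, F i (Pi.single j (Q.e e)) = ∑ i, pieceSum Q (F i) := fun F => by
    unfold pieceSum
    rw [eq_comm, Finset.sum_comm]
    exact Finset.sum_congr rfl fun j _ => Finset.sum_comm
  have h2 : ∑ i, pieceSum Q (fun u => T.tau ((T.Kch P x st N i (p i * Y.app u i)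
        - (K i).app1 (p i * Y.app u i))
      * (T.Kch P x st N i (p i * Y.app u i) - (K i).app1 (p i * Y.app u i))))
      ≤ P.r * (10 * η) := by
    refine (Finset.sum_le_sum fun i _ => hQ2 i).trans (le_of_eq ?_)
    simp
  have h3 : ∑ i, pieceSum Q (fun u => T.tau (bs * Z * (φ i * φ i)
        * ((K i).app1 (p i * Y.app u i) * (K i).app1 (p i * Y.app u i))))
      ≤ 2 * P.Cc / S.μ ^ 2 * (ω₁ + P.r * (2 * P.Cc * ζ)) + P.r * η := by
    refine (Finset.sum_le_sum fun i _ => hQ1 i).trans ?_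
    rw [Finset.sum_add_distrib, ← Finset.mul_sum, Finset.sum_add_distrib]
    simp only [Finset.sum_const, Finset.card_univ, Fintype.card_fin, nsmul_eq_mul]
    gcongr
  rw [comm fun i u => T.tau ((T.Kch P x st N i (p i * Y.app u i)
        - (K i).app1 (p i * Y.app u i))
      * (T.Kch P x st N i (p i * Y.app u i) - (K i).app1 (p i * Y.app u i))),
    comm fun i u => T.tau (bs * Z * (φ i * φ i)
        * ((K i).app1 (p i * Y.app u i) * (K i).app1 (p i * Y.app u i)))]
  refine (add_le_add (add_le_add h1 (mul_le_mul_of_nonneg_left h2 (Nat.cast_nonneg _)))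
    (mul_le_mul_of_nonneg_left h3 (Nat.cast_nonneg _))).trans ?_
  have hr1 : (1 : ℝ) ≤ P.r := by exact_mod_cast C.ok.r_pos
  have hω0 : 0 ≤ ω₁ := (Finset.sum_nonneg fun i _ => T.tau_nonneg (Sf_ef_nonneg C i)).trans hω
  have hc0 : 0 ≤ 2 * P.Cc / S.μ ^ 2 := by positivity
  nlinarith [mul_nonneg (mul_nonneg (mul_nonneg (Nat.cast_nonneg P.r) (by linarith : (0 : ℝ) ≤ P.r - 1)) hc0) hω0,
    mul_nonneg (mul_self_nonneg (P.r : ℝ)) hη.le]

end SMasa

end Vale.Agent.P078.T3
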