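import Mathlib
import Vale.Agent.P078.Type3.Step.Main
import Vale.Agent.P078.Type3.Step.ChanForms
import Vale.Agent.P078.Type3.Step.Bound
import Vale.Agent.P078.Type3.Step.Rem
import Vale.Agent.P078.Type3.Step.Var
import Vale.Agent.P078.Type3.Atom.Spec
import Vale.Agent.P078.Type3.End.Param
import Vale.Agent.P078.Type3.Graph.Ops

/-! The one-step property for every state and every admissible choice of parameters. -/

noncomputable section

open scoped ComplexOrder

namespace Vale.Agent.P078.T3

universe u v

variable {M : Type u} [CStarAlgebra M] [PartialOrder M] [StarOrderedRing M]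
  {Ω : Type v} [TopologicalSpace Ω] [CompactSpace Ω] [T2Space Ω]

namespace SMasa

theorem stepAll (T : SMasa M Ω) : T.StepAll := fun P x hok hbig hx hx1 hE =>
  stepSpec_of_modules
    { atom := atomSpec T
      sym := symSpec T
      schur := schurSpec T
      lev := levSpec T
      forms := T.chanFormSpec P x
      var := T.varSpec P x (T.actSpec P x) (T.remSpec P x) (levSpec T)
      bound := T.boundSpec P x } hok hbig hx hx1 hE

end SMasa

end Vale.Agent.P078.T3
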